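import Vale.Agent.P101.Quot

/-! The inductive limit of a sequence of C*-algebras with injective connecting maps. -/

open Filter Topology
open scoped ENNReal

namespace Vale.Agent.P101

section

variable (B : ℕ → Type) [∀ n, CStarAlgebra (B n)]

/-- the algebra of bounded sequences -/
@[reducible] noncomputable def limProd [∀ n, Nontrivial (B n)] : CStarAlgebra (lp B ∞) where

theorem lim_quot [∀ n, Nontrivial (B n)] :
    letI := limProd B
    ∃ (U : Type) (_ : CStarAlgebra U) (π : lp B ∞ →⋆ₐ[ℂ] U),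
      ∀ x : lp B ∞, Tendsto (fun n => ‖x n‖) (hyperfilter ℕ) (𝓝 ‖π x‖) := by
  letI := limProd B
  have hb : ∀ (x : lp B ∞) n, ‖x n‖ ≤ ‖x‖ := fun x n =>
    lp.norm_apply_le_norm ENNReal.top_ne_zero x n
  have h1 : ∀ x : lp B ∞, ∃ c : ℝ, Tendsto (fun n => ‖x n‖) (hyperfilter ℕ) (𝓝 c) := by
    intro x
    obtain ⟨m, -, hm⟩ := (isCompact_Icc (a := 0) (b := ‖x‖)).ultrafilter_le_nhds
      ((hyperfilter ℕ).map fun n => ‖x n‖) (by
        rw [Ultrafilter.coe_map, le_principal_iff, mem_map]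
        exact univ_mem' fun n => ⟨norm_nonneg _, hb x n⟩)
    exact ⟨m, hm⟩
  choose N hN using h1
  obtain ⟨U, hU, π, -, hπ⟩ := exists_quot N
    (fun x y => le_of_tendsto_of_tendsto' (hN (x + y)) ((hN x).add (hN y)) fun n =>
      norm_add_le (x n) (y n))
    (fun c x => tendsto_nhds_unique (hN (c • x))
      (((hN x).const_mul ‖c‖).congr fun n => (norm_smul c (x n)).symm))
    (fun x y => le_of_tendsto_of_tendsto' (hN (x * y)) ((hN x).mul (hN y)) fun n =>
      norm_mul_le (x n) (y n))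
    (fun x => tendsto_nhds_unique (hN (star x)) ((hN x).congr fun n => (norm_star (x n)).symm))
    (fun x => le_of_tendsto_of_tendsto' ((hN x).mul (hN x)) (hN (star x * x)) fun n =>
      (CStarRing.norm_star_mul_self (x := x n)).ge)
    (fun x => le_of_tendsto' (hN x) (hb x))
    (fun x ε hε => by
      have h0 : 0 ≤ N x + ε := add_nonneg (ge_of_tendsto' (hN x) fun n => norm_nonneg _) hε.le
      have h2 : ∀ n, ‖(if ‖x n‖ ≤ N x + ε then x n else 0 : B n)‖ ≤ N x + ε := fun n => by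
        split_ifs with h
        · exact h
        · rwa [norm_zero]
      let y : lp B ∞ := ⟨fun n => if ‖x n‖ ≤ N x + ε then x n else 0,
        memℓp_infty ⟨N x + ε, by rintro _ ⟨n, rfl⟩; exact h2 n⟩⟩
      refine ⟨y, tendsto_nhds_unique (hN (x - y)) (tendsto_const_nhds.congr' ?_),
        lp.norm_le_of_forall_le h0 h2⟩
      filter_upwards [(hN x).eventually (ge_mem_nhds (lt_add_of_pos_right _ hε))] with n hn
      change 0 = ‖x n - if ‖x n‖ ≤ N x + ε then x n else 0‖
      rw [if_pos hn, sub_self, norm_zero])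
  exact ⟨U, hU, π, fun x => by rw [hπ]; exact hN x⟩

variable {B} (φ : ∀ n, B n →⋆ₐ[ℂ] B (n + 1))

/-- composite connecting maps -/
noncomputable def limT {n k : ℕ} (h : n ≤ k) : B n →⋆ₐ[ℂ] B k :=
  Nat.leRecOn (C := fun k => B n →⋆ₐ[ℂ] B k) h (fun {k} ψ => (φ k).comp ψ) (StarAlgHom.id ℂ (B n))

theorem limT_self (n : ℕ) (b : B n) : limT φ (le_refl n) b = b := by
  rw [limT, Nat.leRecOn_self]
  rfl

theorem limT_succ {n k : ℕ} (h : n ≤ k) (h' : n ≤ k + 1) (b : B n) :
    limT φ h' b = φ k (limT φ h b) := by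
  rw [limT, Nat.leRecOn_succ h]
  rfl

theorem limT_left {n k : ℕ} (h : n + 1 ≤ k) (b : B n) :
    limT φ h (φ n b) = limT φ (Nat.le_of_succ_le h) b := by
  induction k, h using Nat.le_induction with
  | base => rw [limT_self, limT_succ φ (le_refl n), limT_self]
  | succ k hk ih => rw [limT_succ φ hk, limT_succ φ (Nat.le_of_succ_le hk), ih]

theorem limT_norm (hφ : ∀ n, Function.Injective (φ n)) {n k : ℕ} (h : n ≤ k) (b : B n) :
    ‖limT φ h b‖ = ‖b‖ := by
  induction k, h using Nat.le_induction with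
  | base => rw [limT_self]
  | succ k hk ih => rw [limT_succ φ hk, NonUnitalStarAlgHom.norm_map (φ k) (hφ k), ih]

theorem lim_hom [∀ n, Nontrivial (B n)] (hφ : ∀ n, Function.Injective (φ n)) :
    ∃ (U : Type) (_ : CStarAlgebra U) (j : ∀ n, B n →⋆ₐ[ℂ] U),
      (∀ n, Function.Injective (j n)) ∧ ∀ n b, j (n + 1) (φ n b) = j n b := by
  letI := limProd B
  obtain ⟨U, hU, π, hπ⟩ := lim_quot B
  have hev : ∀ n, ∀ᶠ k in (hyperfilter ℕ : Filter ℕ), n ≤ k := fun n =>
    (eventually_ge_atTop n).filter_mono Nat.hyperfilter_le_atTop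
  have key : ∀ (n : ℕ) (x y : lp B ∞), (∀ k, n ≤ k → x k = y k) → π x = π y := by
    intro n x y h
    rw [← sub_eq_zero, ← map_sub, ← norm_eq_zero]
    refine tendsto_nhds_unique (hπ (x - y)) (tendsto_const_nhds.congr' ?_)
    filter_upwards [hev n] with k hk
    change 0 = ‖x k - y k‖
    rw [h k hk, sub_self, norm_zero]
  have hs : ∀ n (b : B n), ∃ x : lp B ∞, ∀ k (h : n ≤ k), x k = limT φ h b := by
    intro n b
    refine ⟨⟨fun k => if h : n ≤ k then limT φ h b else 0, memℓp_infty ⟨‖b‖, ?_⟩⟩,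
      fun k h => dif_pos h⟩
    rintro _ ⟨k, rfl⟩
    by_cases h : n ≤ k
    · simp only [dif_pos h, limT_norm φ hφ, le_refl]
    · simp only [dif_neg h, norm_zero, norm_nonneg]
  choose s hs using hs
  let j : ∀ n, B n →⋆ₐ[ℂ] U := fun n =>
    { toFun := fun b => π (s n b)
      map_one' := by
        rw [← map_one π]
        exact key n _ _ fun k h => by rw [hs n 1 k h, map_one]; rfl
      map_mul' := fun a b => by
        rw [← map_mul π]
        refine key n _ _ fun k h => ?_
        rw [hs n _ k h, map_mul, ← hs n a k h, ← hs n b k h]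
        rfl
      map_zero' := by
        rw [← map_zero π]
        exact key n _ _ fun k h => by rw [hs n 0 k h, map_zero]; rfl
      map_add' := fun a b => by
        rw [← map_add π]
        refine key n _ _ fun k h => ?_
        rw [hs n _ k h, map_add, ← hs n a k h, ← hs n b k h]
        rfl
      commutes' := fun c => by
        rw [← AlgHomClass.commutes π c]
        refine key n _ _ fun k h => ?_
        rw [hs n _ k h, AlgHomClass.commutes]
        rfl
      map_star' := fun a => by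
        rw [← map_star π]
        refine key n _ _ fun k h => ?_
        rw [hs n _ k h, map_star, ← hs n a k h]
        rfl }
  have hj : ∀ n b, ‖j n b‖ = ‖b‖ := fun n b => by
    refine tendsto_nhds_unique (hπ (s n b)) (tendsto_const_nhds.congr' ?_)
    filter_upwards [hev n] with k hk
    rw [hs n b k hk, limT_norm φ hφ]
  refine ⟨U, hU, j, fun n => (injective_iff_map_eq_zero (j n)).2 fun b hb => ?_, fun n b => ?_⟩
  · rw [← norm_eq_zero, ← hj n b, hb, norm_zero]
  · refine key (n + 1) _ _ fun k h => ?_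
    rw [hs _ _ k h, hs _ _ k (Nat.le_of_succ_le h), limT_left]

end

theorem exists_limit2 (B : ℕ → Type) [∀ n, CStarAlgebra (B n)] [∀ n, Nontrivial (B n)]
    (φ : ∀ n, B n →⋆ₐ[ℂ] B (n + 1)) (hφ : ∀ n, Function.Injective (φ n)) :
    ∃ (Z : Type) (_ : CStarAlgebra Z) (ι : ∀ n, B n →⋆ₐ[ℂ] Z),
      (∀ n, Function.Injective (ι n)) ∧ (∀ n b, ι (n + 1) (φ n b) = ι n b) ∧
      Dense (⋃ n, Set.range (ι n)) := by
  obtain ⟨U, hU, j, hj, hc⟩ := lim_hom φ hφ
  have hm : Monotone fun n => Set.range (j n) := monotone_nat_of_le_succ fun n => by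
    rintro _ ⟨b, rfl⟩
    exact ⟨φ n b, hc n b⟩
  have h2 : ∀ x ∈ ⋃ n, Set.range (j n), ∀ y ∈ ⋃ n, Set.range (j n),
      ∃ n a b, x = j n a ∧ y = j n b := by
    intro x hx y hy
    obtain ⟨n, hn⟩ := Set.mem_iUnion.1 hx
    obtain ⟨m, hm'⟩ := Set.mem_iUnion.1 hy
    obtain ⟨a, ha⟩ := hm (le_max_left n m) hn
    obtain ⟨b, hb⟩ := hm (le_max_right n m) hm'
    exact ⟨max n m, a, b, ha.symm, hb.symm⟩
  let S : StarSubalgebra ℂ U :=
    { carrier := ⋃ n, Set.range (j n)
      mul_mem' := fun {x y} hx hy => by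
        obtain ⟨n, a, b, rfl, rfl⟩ := h2 x hx y hy
        exact Set.mem_iUnion.2 ⟨n, a * b, map_mul _ _ _⟩
      add_mem' := fun {x y} hx hy => by
        obtain ⟨n, a, b, rfl, rfl⟩ := h2 x hx y hy
        exact Set.mem_iUnion.2 ⟨n, a + b, map_add _ _ _⟩
      algebraMap_mem' := fun c => Set.mem_iUnion.2 ⟨0, algebraMap ℂ _ c, AlgHomClass.commutes _ c⟩
      star_mem' := fun {x} hx => by
        obtain ⟨n, a, rfl⟩ := Set.mem_iUnion.1 hx
        exact Set.mem_iUnion.2 ⟨n, star a, map_star _ _⟩ }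
  have hcl : IsClosed (S.topologicalClosure : Set U) := S.isClosed_topologicalClosure
  have hmem : ∀ n b, j n b ∈ S.topologicalClosure := fun n b =>
    S.le_topologicalClosure (Set.mem_iUnion.2 ⟨n, b, rfl⟩)
  refine ⟨S.topologicalClosure, inferInstance, fun n => (j n).codRestrict _ (hmem n),
    fun n a b h => hj n (congrArg Subtype.val h), fun n b => Subtype.ext (hc n b), ?_⟩
  rw [Subtype.dense_iff]
  refine closure_mono fun x hx => ?_
  obtain ⟨n, b, rfl⟩ := Set.mem_iUnion.1 hx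
  exact ⟨⟨j n b, hmem n b⟩, Set.mem_iUnion.2 ⟨n, b, rfl⟩, rfl⟩

end Vale.Agent.P101
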