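import Vale.Agent.P101.Defs

/-! Matrix algebras over C*-algebras, order zero matrix units, pairs. -/

open scoped Kronecker Matrix

set_option linter.unusedSectionVars false

namespace Vale.Agent.P101

section MC

variable (ι B : Type) [Fintype ι] [DecidableEq ι] [CStarAlgebra B]

theorem exists_MC : ∃ (E : Type) (_ : CStarAlgebra E) (e : Matrix ι ι B ≃⋆ₐ[ℂ] E),
    Continuous e ∧ Continuous e.symm := by
  let := CStarAlgebra.spectralOrder B
  let := CStarAlgebra.spectralOrderedRing B
  exact ⟨CStarMatrix ι ι B, inferInstance, CStarMatrix.ofMatrixStarAlgEquiv, continuous_id,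
    continuous_id⟩

/-- The C*-algebra of matrices over `B`. -/
def MC : Type := (exists_MC ι B).choose

noncomputable instance : CStarAlgebra (MC ι B) := (exists_MC ι B).choose_spec.choose

variable {ι B}

/-- The identification of matrices with `MC`. -/
noncomputable def toMC : Matrix ι ι B ≃⋆ₐ[ℂ] MC ι B :=
  (exists_MC ι B).choose_spec.choose_spec.choose

theorem continuous_toMC : Continuous (toMC : Matrix ι ι B → MC ι B) :=
  (exists_MC ι B).choose_spec.choose_spec.choose_spec.1

theorem continuous_toMC_symm : Continuous ((toMC (ι := ι) (B := B)).symm : MC ι B → Matrix ι ι B) :=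
  (exists_MC ι B).choose_spec.choose_spec.choose_spec.2

/-- `toMC` as a homomorphism -/
noncomputable def toMCh : Matrix ι ι B →⋆ₐ[ℂ] MC ι B := (toMC (ι := ι) (B := B) : _ →⋆ₐ[ℂ] _)

/-- the inverse of `toMC` as a homomorphism -/
noncomputable def ofMCh : MC ι B →⋆ₐ[ℂ] Matrix ι ι B := ((toMC (ι := ι) (B := B)).symm : _ →⋆ₐ[ℂ] _)

@[simp] theorem toMCh_apply (X : Matrix ι ι B) : toMCh X = toMC X := rfl
@[simp] theorem ofMCh_apply (X : MC ι B) : ofMCh X = toMC.symm X := rfl

theorem norm_map_le_toMC {E : Type} [CStarAlgebra E] (Θ : Matrix ι ι B →⋆ₐ[ℂ] E)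
    (X : Matrix ι ι B) : ‖Θ X‖ ≤ ‖toMC X‖ := by
  have := NonUnitalStarAlgHom.norm_apply_le (Θ.comp ofMCh) (toMC X)
  simpa using this

theorem norm_map_eq_toMC {E : Type} [CStarAlgebra E] (Θ : Matrix ι ι B →⋆ₐ[ℂ] E)
    (hΘ : Function.Injective Θ) (X : Matrix ι ι B) : ‖Θ X‖ = ‖toMC X‖ := by
  have := NonUnitalStarAlgHom.norm_map (Θ.comp ofMCh)
    (hΘ.comp (toMC (ι := ι) (B := B)).symm.injective) (toMC X)
  simpa using this

instance [Nonempty ι] [Nontrivial B] : Nontrivial (MC ι B) :=
  (toMC (ι := ι) (B := B)).injective.nontrivial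

end MC

section Units

variable {C : Type*} [Ring C] [StarRing C] {ι κ : Type*} [Fintype ι] [DecidableEq ι]
  [Fintype κ] [DecidableEq κ]

/-- order zero matrix units with total `a` -/
structure Units (a : C) (e : ι → ι → C) : Prop where
  mul : ∀ i j k l, e i j * e k l = if j = k then a * e i l else 0
  star : ∀ i j, star (e i j) = e j i
  sum : ∑ i, e i i = a

namespace Units

variable {a b : C} {e : ι → ι → C} {f : κ → κ → C}

theorem mul_same (h : Units a e) (i j l : ι) : e i j * e j l = a * e i l := by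
  rw [h.mul, if_pos rfl]

theorem mul_ne (h : Units a e) {j k : ι} (hjk : j ≠ k) (i l : ι) : e i j * e k l = 0 := by
  rw [h.mul, if_neg hjk]

theorem comm (h : Units a e) (i j : ι) : Commute a (e i j) := by
  have : e i j * a = a * e i j := by
    conv_lhs => rw [← h.sum]
    simp [Finset.mul_sum, h.mul]
  exact this.symm

theorem sa (h : Units a e) : IsSelfAdjoint a := by
  rw [IsSelfAdjoint, ← h.sum, star_sum]
  simp [h.star]

theorem commute_of (h : Units a e) {x : C} (hx : ∀ i j, Commute x (e i j)) : Commute x a := by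
  rw [← h.sum]
  exact Commute.sum_right _ _ _ fun i _ => hx i i

theorem map {C' F : Type*} [Ring C'] [StarRing C'] [FunLike F C C'] [RingHomClass F C C']
    [StarHomClass F C C'] (h : Units a e) (ψ : F) : Units (ψ a) (fun i j => ψ (e i j)) where
  mul i j k l := by
    rw [← map_mul, h.mul]; split_ifs <;> simp
  star i j := by rw [← map_star, h.star]
  sum := by rw [← map_sum, h.sum]

theorem reindex (h : Units a e) (σ : κ ≃ ι) : Units a (fun i j => e (σ i) (σ j)) where
  mul i j k l := by simp [h.mul]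
  star i j := h.star _ _
  sum := by rw [← h.sum]; exact σ.sum_comp (fun i => e i i)

theorem prod (h : Units a e) (h' : Units b f) (hc : ∀ i j k l, Commute (e i j) (f k l)) :
    Units (a * b) (fun x y : ι × κ => e x.1 y.1 * f x.2 y.2) where
  mul x y z w := by
    have hb : Commute (e x.1 w.1) b := h'.commute_of (hc _ _)
    rw [(hc _ _ _ _).symm.mul_mul_mul_comm, h.mul, h'.mul]
    by_cases h1 : y.1 = z.1
    · by_cases h2 : y.2 = z.2
      · rw [if_pos h1, if_pos h2, if_pos (Prod.ext h1 h2), hb.mul_mul_mul_comm]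
      · rw [if_neg h2, if_neg (fun h => h2 (congrArg Prod.snd h)), mul_zero]
    · rw [if_neg h1, if_neg (fun h => h1 (congrArg Prod.fst h)), zero_mul]
  star x y := by rw [star_mul, h.star, h'.star, (hc _ _ _ _).eq]
  sum := by rw [Fintype.sum_prod_type, ← h.sum, ← h'.sum, Finset.sum_mul_sum]

theorem left {g : ι × κ → ι × κ → C} (h : Units a g) :
    Units a (fun i j => ∑ r, g (i, r) (j, r)) where
  mul i j k l := by
    rw [Finset.sum_mul_sum]
    simp only [h.mul, Prod.mk.injEq, ite_and, Finset.mul_sum]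
    split_ifs <;> simp
  star i j := by simp [star_sum, h.star]
  sum := by rw [← h.sum, Fintype.sum_prod_type]

theorem right {g : ι × κ → ι × κ → C} (h : Units a g) :
    Units a (fun i j => ∑ r, g (r, i) (r, j)) := (h.reindex (Equiv.prodComm κ ι)).left

theorem left_right {g : ι × κ → ι × κ → C} (h : Units a g) (i j : ι) (k l : κ) :
    Commute (∑ r, g (i, r) (j, r)) (∑ r, g (r, k) (r, l)) := by
  simp only [Commute, SemiconjBy, Finset.sum_mul_sum, h.mul, Prod.mk.injEq, ite_and]
  simp

end Units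

end Units

section Theta

variable {B C : Type*} [Ring B] [StarRing B] [Algebra ℂ B] [StarModule ℂ B]
  [Ring C] [StarRing C] [Algebra ℂ C] [StarModule ℂ C] {ι : Type*} [Fintype ι] [DecidableEq ι]

/-- `X ↦ ∑ α (X i j) e i j` -/
def theta (α : B →⋆ₐ[ℂ] C) (e : ι → ι → C) : Matrix ι ι B →ₗ[ℂ] C where
  toFun X := ∑ i, ∑ j, α (X i j) * e i j
  map_add' X Y := by simp [add_mul, Finset.sum_add_distrib]
  map_smul' c X := by simp [Finset.smul_sum]

variable {α : B →⋆ₐ[ℂ] C} {e : ι → ι → C} {a : C}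

theorem theta_apply (X : Matrix ι ι B) : theta α e X = ∑ i, ∑ j, α (X i j) * e i j := rfl

theorem theta_mul (h : Units a e) (hc : ∀ b i j, Commute (α b) (e i j)) (X Y : Matrix ι ι B) :
    theta α e X * theta α e Y = a * theta α e (X * Y) := by
  have ha : ∀ b, Commute (α b) a := fun b => h.commute_of (hc b)
  have : ∀ i k j l, α (X i j) * e i j * (α (Y k l) * e k l)
      = if j = k then a * (α (X i j) * α (Y k l) * e i l) else 0 := by
    intro i k j l
    rw [(hc _ _ _).symm.mul_mul_mul_comm, h.mul]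
    split_ifs
    · rw [← map_mul, ← mul_assoc, (ha _).eq, mul_assoc]
    · simp
  rw [theta_apply, theta_apply, theta_apply, Finset.sum_mul_sum, Finset.mul_sum]
  refine Finset.sum_congr rfl fun i _ => ?_
  simp only [Finset.sum_mul_sum, this]
  simp only [Matrix.mul_apply, map_sum, map_mul, Finset.mul_sum, Finset.sum_mul]
  rw [Finset.sum_comm]
  have h2 : ∀ j : ι, ∑ k, ∑ l, (if j = k then a * (α (X i j) * α (Y k l) * e i l) else 0)
      = ∑ l, a * (α (X i j) * α (Y j l) * e i l) := by
    intro j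
    rw [Finset.sum_comm]
    simp
  simp only [h2]
  exact Finset.sum_comm

theorem theta_star (h : Units a e) (hc : ∀ b i j, Commute (α b) (e i j)) (X : Matrix ι ι B) :
    star (theta α e X) = theta α e (star X) := by
  simp only [theta_apply, star_sum, star_mul, h.star, Matrix.star_apply, map_star]
  rw [Finset.sum_comm]
  refine Finset.sum_congr rfl fun i _ => Finset.sum_congr rfl fun j _ => ?_
  rw [← map_star, (hc _ _ _).eq]

theorem theta_diagonal (h : Units a e) (b : B) :
    theta α e (Matrix.diagonal fun _ => b) = α b * a := by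
  simp [theta_apply, Matrix.diagonal_apply, apply_ite, ← h.sum, Finset.mul_sum]

theorem theta_one (h : Units a e) : theta α e 1 = a := by
  have := theta_diagonal (α := α) h 1
  rwa [Matrix.diagonal_one, map_one α, one_mul] at this

theorem theta_single (i j : ι) (b : B) : theta α e (Matrix.single i j b) = α b * e i j := by
  simp [theta_apply, Matrix.single_apply, apply_ite, ite_and]

theorem commute_theta {x : C} (h1 : ∀ b, Commute x (α b)) (h2 : ∀ i j, Commute x (e i j))
    (X : Matrix ι ι B) : Commute x (theta α e X) :=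
  Commute.sum_right _ _ _ fun _ _ => Commute.sum_right _ _ _ fun _ _ => (h1 _).mul_right (h2 _ _)

theorem theta_mem {S : StarSubalgebra ℂ C} (h1 : ∀ b, α b ∈ S) (h2 : ∀ i j, e i j ∈ S)
    (X : Matrix ι ι B) : theta α e X ∈ S :=
  sum_mem fun _ _ => sum_mem fun _ _ => mul_mem (h1 _) (h2 _ _)

/-- the homomorphism on matrices given by a homomorphism and commuting matrix units -/
def thetaHom (α : B →⋆ₐ[ℂ] C) (h : Units 1 e) (hc : ∀ b i j, Commute (α b) (e i j)) :
    Matrix ι ι B →⋆ₐ[ℂ] C where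
  toFun := theta α e
  map_one' := theta_one h
  map_mul' X Y := by rw [theta_mul h hc, one_mul]
  map_zero' := map_zero _
  map_add' := map_add _
  commutes' c := by
    rw [Algebra.algebraMap_eq_smul_one, map_smul, theta_one h, Algebra.algebraMap_eq_smul_one]
  map_star' X := (theta_star h hc X).symm

@[simp] theorem thetaHom_apply (h : Units 1 e) (hc : ∀ b i j, Commute (α b) (e i j))
    (X : Matrix ι ι B) : thetaHom α h hc X = theta α e X := rfl

theorem commute_ofId (c : ℂ) (x : C) : Commute (StarAlgHom.ofId ℂ C c) x :=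
  Algebra.commutes c x

/-- the homomorphism on complex matrices given by matrix units -/
def lam (h : Units 1 e) : Matrix ι ι ℂ →⋆ₐ[ℂ] C :=
  thetaHom (StarAlgHom.ofId ℂ C) h (fun c _ _ => commute_ofId c _)

theorem lam_apply (h : Units 1 e) (X : Matrix ι ι ℂ) : lam h X = ∑ i, ∑ j, X i j • e i j := by
  simp [lam, theta_apply, Algebra.smul_def, StarAlgHom.ofId_apply]

theorem theta_map_algebraMap (h : Units 1 e) (X : Matrix ι ι ℂ) :
    theta α e (X.map (algebraMap ℂ B)) = lam h X := by
  simp [lam_apply, theta_apply, Algebra.smul_def, AlgHomClass.commutes]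

theorem commute_lam (h : Units 1 e) {x : C} (h2 : ∀ i j, Commute x (e i j))
    (X : Matrix ι ι ℂ) : Commute x (lam h X) :=
  commute_theta (fun c => (commute_ofId c x).symm) h2 X

theorem units_single : Units (1 : Matrix ι ι B) (fun i j => Matrix.single i j 1) where
  mul i j k l := by
    split_ifs with h
    · subst h; simp [Matrix.single_mul_single_same]
    · simp [Matrix.single_mul_single_of_ne _ _ _ _ h]
  star i j := by simp [Matrix.star_eq_conjTranspose, Matrix.conjTranspose_single]
  sum := by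
    ext i j
    simp [Matrix.sum_apply, Matrix.single_apply, Matrix.one_apply, ite_and]

end Theta

section Pair

variable {C : Type} [CStarAlgebra C] {P Q : Type} [Fintype P] [DecidableEq P]
  [Fintype Q] [DecidableEq Q]

/-- a positive contraction -/
structure PC (z : C) : Prop where
  sa : IsSelfAdjoint z
  le : ‖z‖ ≤ 1
  le' : ‖1 - z‖ ≤ 1

theorem PC.map {C' : Type} [CStarAlgebra C'] {z : C} (h : PC z) (ψ : C →⋆ₐ[ℂ] C') : PC (ψ z) where
  sa := h.sa.map ψ
  le := (NonUnitalStarAlgHom.norm_apply_le ψ z).trans h.le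
  le' := by
    rw [← map_one ψ, ← map_sub]
    exact (NonUnitalStarAlgHom.norm_apply_le ψ _).trans h.le'

theorem PC.spec {z : C} (h : PC z) : spectrum ℝ z ⊆ Set.Icc 0 1 := by
  intro t ht
  have hC : Nontrivial C := by
    by_contra hn
    rw [not_nontrivial_iff_subsingleton] at hn
    exact ht (isUnit_of_subsingleton _)
  have h1 := spectrum.norm_le_norm_of_mem ht
  have h2 : (1 - t) ∈ spectrum ℝ (1 - z) := by
    rw [spectrum.mem_iff] at ht ⊢
    intro hu
    apply ht
    have : (algebraMap ℝ C) t - z = -((algebraMap ℝ C) (1 - t) - (1 - z)) := by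
      rw [map_sub, map_one]; abel
    rw [this]
    exact hu.neg
  have h3 := spectrum.norm_le_norm_of_mem h2
  rw [Real.norm_eq_abs] at h1 h3
  constructor
  · linarith [(abs_le.1 (h3.trans h.le')).2]
  · linarith [(abs_le.1 (h1.trans h.le)).2]

theorem PC.cfc {a : C} (f : ℝ → ℝ) (hf : ∀ t ∈ spectrum ℝ a, f t ∈ Set.Icc (0 : ℝ) 1) :
    PC (cfc f a) := by
  refine ⟨cfc_predicate f a, norm_cfc_le zero_le_one fun t ht => ?_, ?_⟩
  · rw [Real.norm_eq_abs, abs_le]; constructor <;> linarith [(hf t ht).1, (hf t ht).2]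
  · by_cases h : IsSelfAdjoint a ∧ ContinuousOn f (spectrum ℝ a)
    · rw [← cfc_one ℝ a h.1, ← cfc_sub _ _ a (by fun_prop) h.2]
      refine norm_cfc_le zero_le_one fun t ht => ?_
      rw [Real.norm_eq_abs, abs_le]
      constructor <;> simp only [Pi.one_apply] <;> linarith [(hf t ht).1, (hf t ht).2]
    · rw [cfc_apply_of_not_and _ h, sub_zero]
      exact IsStarProjection.norm_le _ (IsStarProjection.one C)

/-- commuting order zero matrix units with totals `1 - z` and `z` -/
structure Pair (z : C) (a : P → P → C) (b : Q → Q → C) : Prop where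
  pc : PC z
  ua : Units (1 - z) a
  ub : Units z b
  comm : ∀ i j k l, Commute (a i j) (b k l)

theorem Pair.map {C' : Type} [CStarAlgebra C'] {z : C} {a : P → P → C} {b : Q → Q → C}
    (h : Pair z a b) (ψ : C →⋆ₐ[ℂ] C') :
    Pair (ψ z) (fun i j => ψ (a i j)) (fun i j => ψ (b i j)) where
  pc := h.pc.map ψ
  ua := by simpa using h.ua.map ψ
  ub := h.ub.map ψ
  comm i j k l := (h.comm i j k l).map ψ

end Pair

/-- every separable algebra mapping to `F` can be moved to commute with a given separable set -/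
def Rich (F : Type) [CStarAlgebra F] : Prop :=
  ∀ (D : Type) [CStarAlgebra D] [TopologicalSpace.SeparableSpace D] (_ : D →⋆ₐ[ℂ] F)
    (T : Set F), TopologicalSpace.IsSeparable T →
    ∃ ψ' : D →⋆ₐ[ℂ] F, ∀ d, ∀ t ∈ T, Commute (ψ' d) t

/-- the subalgebra of paths starting in `E0` and ending in `E1` -/
def DD {E : Type} [CStarAlgebra E] (E0 E1 : StarSubalgebra ℂ E) :
    StarSubalgebra ℂ C(unitInterval, E) where
  carrier := {f | f 0 ∈ E0 ∧ f 1 ∈ E1}
  mul_mem' hf hg := ⟨mul_mem hf.1 hg.1, mul_mem hf.2 hg.2⟩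
  add_mem' hf hg := ⟨add_mem hf.1 hg.1, add_mem hf.2 hg.2⟩
  algebraMap_mem' c := ⟨algebraMap_mem E0 c, algebraMap_mem E1 c⟩
  star_mem' hf := ⟨star_mem hf.1, star_mem hf.2⟩

theorem mem_DD {E : Type} [CStarAlgebra E] {E0 E1 : StarSubalgebra ℂ E}
    {f : C(unitInterval, E)} : f ∈ DD E0 E1 ↔ f 0 ∈ E0 ∧ f 1 ∈ E1 := Iff.rfl

/-- the approximate intertwiner between `μ ⊗ 1` and `1 ⊗ φ` on the finite set `F` -/
def HD {B B' : Type} [CStarAlgebra B] [CStarAlgebra B'] (μ : B →⋆ₐ[ℂ] B') (r : ℕ)
    (F : Finset B) (ε : ℝ) : Prop :=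
  ∃ (W : Matrix (Fin r) (Fin r) B') (φ : B →⋆ₐ[ℂ] Matrix (Fin r) (Fin r) ℂ),
    W ∈ unitary (Matrix (Fin r) (Fin r) B') ∧ ∀ f ∈ F,
      ‖toMC (W * Matrix.diagonal (fun _ => μ f) * star W - (φ f).map (algebraMap ℂ B'))‖ ≤ ε

/-- the property of a Jiang-Su sequence that gives the approximately inner half flip -/
def HP {Z : Type} [CStarAlgebra Z] (p q : ℕ → ℕ) (B : ℕ → Type) [∀ n, CStarAlgebra (B n)]
    (ι : ∀ n, B n →⋆ₐ[ℂ] Z) : Prop :=
  ∀ (m : ℕ) (F : Finset (B m)) (ε : ℝ), 0 < ε → ∃ (n : ℕ) (μ : B m →⋆ₐ[ℂ] B n),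
    (∀ b, ι n (μ b) = ι m b) ∧ p m ∣ p n ∧ q m ∣ q n ∧ HD μ (p n) F ε ∧ HD μ (q n) F ε

end Vale.Agent.P101
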