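import Vale.Agent.P101.MinDefs

/-! Existence and injectivity of the spatial tensor product.

Plan for `exists_faithful`. For a self-adjoint `h` there is a state `φ` with `|φ h| = ‖h‖`
(a point `t` of the spectrum with `|t| = ‖h‖`; the functional `c • 1 + d • h ↦ c + d t` has norm
one on the span, extend by Hahn-Banach; a norm one functional with `φ 1 = 1` is positive, see
Vale/Agent/P083/Gns.lean on origin/main for this step). For a dense sequence `a n` take states `φ n`
norming `star (a n) * a n` and `φ = ∑ 2^(-n-1) φ n`; it is a faithful state, and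
`PositiveLinearMap.gnsStarAlgHom` is then injective (use `CStarAlgebra.spectralOrder` locally; treat
the trivial algebra separately).
Plan for `IsMinTensor.injective`: write `x = ∑ a i ⊗ z i` with `z i` linearly independent
(`TensorProduct.exists_finset`, a basis of the span, or `TensorProduct.eq_repr_basis_right`); if the
operator `∑ mapL (ρ (a i)) (σ (z i))` vanishes, test on `ξ ⊗ η` against `ξ' ⊗ η'`:
`∑ ⟪ξ', ρ (a i) ξ⟫ σ (z i) = 0`, so `⟪ξ', ρ (a i) ξ⟫ = 0`, so `a i = 0`.
Plan for `exists_minTensor`: `L = UniformSpace.Completion (H ⊗ K)`; extend `mapL (ρ a) (σ z)` to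
`L` (`ContinuousLinearMap.completion`, or `extend`), this gives commuting star homs `A → B(L)`,
`Z → B(L)` (adjoints are checked on the dense subspace), `Algebra.TensorProduct.lift`, and `B` is the
topological closure of the range; norms of an operator and of its extension agree. -/

open scoped TensorProduct

namespace Vale.Agent.P101

section spa_aux

open scoped ComplexOrder InnerProductSpace

theorem spa_pos {O : Type} [CStarAlgebra O] [PartialOrder O] [StarOrderedRing O] [Nontrivial O]
    (φ : O →L[ℂ] ℂ) (hb : ∀ x, ‖φ x‖ ≤ ‖x‖) (h2' : φ 1 = 1) (a : O) (ha : 0 ≤ a) : 0 ≤ φ a := by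
  have him : ∀ a : O, IsSelfAdjoint a → (φ a).im = 0 := by
    intro a ha
    have key : ∀ t : ℝ, 2 * t * (φ a).im ≤ ‖a‖ ^ 2 := by
      intro t
      have e1 : star (a + (t * Complex.I : ℂ) • (1 : O)) * (a + (t * Complex.I : ℂ) • (1 : O))
          = a * a + ((t ^ 2 : ℝ) : ℂ) • (1 : O) := by
        rw [star_add, ha.star_eq, star_smul, star_one]
        simp only [add_mul, mul_add, smul_mul_assoc, mul_smul_comm, one_mul, mul_one,
          star_mul', RCLike.star_def, Complex.conj_ofReal, Complex.conj_I]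
        have : (t * Complex.I : ℂ) * (t * -Complex.I) = ((t ^ 2 : ℝ) : ℂ) := by
          push_cast; linear_combination (-(t : ℂ) ^ 2) * Complex.I_mul_I
        rw [← this]
        module
      have e2 : ‖a + (t * Complex.I : ℂ) • (1 : O)‖ ^ 2 ≤ ‖a‖ ^ 2 + t ^ 2 := by
        rw [sq, ← CStarRing.norm_star_mul_self, e1]
        refine (norm_add_le _ _).trans (add_le_add ((norm_mul_le _ _).trans (sq _).ge) ?_)
        rw [norm_smul, norm_one, mul_one, Complex.norm_real, Real.norm_eq_abs,
          abs_of_nonneg (sq_nonneg t)]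
      have e3 := (Complex.abs_im_le_norm _).trans (hb (a + (t * Complex.I : ℂ) • (1 : O)))
      rw [map_add, map_smul, h2'] at e3
      have e4 : (φ a + (t * Complex.I : ℂ) • (1 : ℂ)).im = (φ a).im + t := by simp
      rw [e4] at e3
      have e5 := pow_le_pow_left₀ (abs_nonneg _) e3 2
      rw [sq_abs] at e5
      nlinarith [sq_nonneg (φ a).im]
    by_contra h
    have := key ((‖a‖ ^ 2 + 1) / (φ a).im)
    rw [mul_assoc, div_mul_cancel₀ _ h] at this
    nlinarith [sq_nonneg ‖a‖]
  have hs := IsSelfAdjoint.of_nonneg ha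
  have e1 : ‖algebraMap ℝ O ‖a‖ - a‖ ≤ ‖a‖ := by
    rw [CStarAlgebra.norm_le_iff_le_algebraMap _ (norm_nonneg a)
      (sub_nonneg.2 hs.le_algebraMap_norm_self)]
    exact sub_le_self _ ha
  have e2 := (Complex.re_le_norm _).trans ((hb _).trans e1)
  have e3 : φ (algebraMap ℝ O ‖a‖) = ‖a‖ := by
    rw [Algebra.algebraMap_eq_smul_one, ← Complex.coe_smul, map_smul, h2']; simp
  rw [map_sub, e3] at e2
  rw [Complex.nonneg_iff]
  exact ⟨by simpa using e2, (him a hs).symm⟩

theorem spa_state {O : Type} [CStarAlgebra O] [PartialOrder O] [StarOrderedRing O] {h : O}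
    (hh : 0 ≤ h) : ∃ φ : O →L[ℂ] ℂ, (∀ x, ‖φ x‖ ≤ ‖x‖) ∧ (∀ a, 0 ≤ a → 0 ≤ φ a) ∧
      ‖h‖ ≤ (φ h).re := by
  rcases subsingleton_or_nontrivial O with hO | hO
  · exact ⟨0, by simp, by simp, by simp [Subsingleton.elim h 0]⟩
  obtain ⟨φ, h1, h2⟩ := exists_dual_vector'' ℂ (1 + h)
  have hb : ∀ x, ‖φ x‖ ≤ ‖x‖ := fun x => (φ.le_opNorm x).trans (by
    have := norm_nonneg x; nlinarith)
  have h3 : 1 + ‖h‖ ≤ ‖1 + h‖ := by
    have h4 : 1 + ‖h‖ ∈ spectrum ℝ (1 + h) := by
      have h5 := CStarAlgebra.norm_mem_spectrum_of_nonneg hh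
      rw [spectrum.mem_iff] at h5 ⊢
      rwa [map_add, map_one, add_sub_add_left_eq_sub]
    exact (le_abs_self _).trans (spectrum.norm_le_norm_of_mem h4)
  have h5 : (φ 1).re + (φ h).re = ‖1 + h‖ := by
    rw [← Complex.add_re, ← map_add, h2]; simp
  have h6 := (Complex.re_le_norm _).trans (hb h)
  have h7 := hb 1
  rw [norm_one] at h7
  have h8 := (Complex.re_le_norm _).trans h7
  have h9 : φ 1 = 1 := by
    have h10 : (φ 1).re = 1 := by linarith
    have h11 := Complex.sq_norm (φ 1)
    rw [Complex.normSq_apply, h10] at h11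
    have h12 : (φ 1).im * (φ 1).im ≤ 0 := by nlinarith [norm_nonneg (φ 1)]
    exact Complex.ext h10 (by simpa using le_antisymm h12 (mul_self_nonneg _))
  exact ⟨φ, hb, spa_pos φ hb h9, by linarith⟩

theorem spa_faithful (O : Type) [CStarAlgebra O] [PartialOrder O] [StarOrderedRing O]
    [TopologicalSpace.SeparableSpace O] :
    ∃ f : O →ₚ[ℂ] ℂ, ∀ x, (f (star x * x)).re = 0 → x = 0 := by
  obtain ⟨a, ha⟩ := TopologicalSpace.exists_dense_seq O
  choose φ h1 h2 h3 using fun n => spa_state (star_mul_self_nonneg (a n))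
  have hs : Summable fun n => ((1 / 2 : ℂ) ^ n) • φ n := by
    refine Summable.of_norm_bounded summable_geometric_two fun n => ?_
    rw [norm_smul, norm_pow]
    have : ‖φ n‖ ≤ 1 := (φ n).opNorm_le_bound zero_le_one (by simpa using h1 n)
    simpa using mul_le_of_le_one_right (a := (1 / 2 : ℝ) ^ n) (by positivity) this
  set F := ∑' n, ((1 / 2 : ℂ) ^ n) • φ n
  have hF : ∀ x, HasSum (fun n => (1 / 2 : ℂ) ^ n * φ n x) (F x) := fun x =>
    hs.hasSum.mapL (ContinuousLinearMap.apply ℂ ℂ x)
  have hc : ∀ n, (0 : ℂ) < (1 / 2 : ℂ) ^ n := fun n => pow_pos (by norm_num [Complex.lt_def]) n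
  have hn : ∀ x, 0 ≤ x → ∀ n, 0 ≤ (1 / 2 : ℂ) ^ n * φ n x := fun x hx n =>
    mul_nonneg (hc n).le (h2 n x hx)
  refine ⟨PositiveLinearMap.mk₀ F.toLinearMap fun x hx => (hF x).nonneg (hn x hx), fun x hx => ?_⟩
  change (F (star x * x)).re = 0 at hx
  have h4 : ∀ n, (φ n (star x * x)).re ≤ 0 := fun n => by
    have h5 := (Complex.le_def.1 (le_hasSum (hF (star x * x)) n fun j _ =>
      hn _ (star_mul_self_nonneg x) j)).1
    have e : (1 / 2 : ℂ) ^ n = (((1 / 2 : ℝ) ^ n : ℝ) : ℂ) := by push_cast; rfl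
    rw [hx, e, Complex.re_ofReal_mul] at h5
    exact nonpos_of_mul_nonpos_right h5 (by positivity)
  have h5 : ∀ n, ‖star (a n) * a n‖ ≤ ‖star (a n) * a n - star x * x‖ := fun n => by
    have h6 := (Complex.re_le_norm _).trans (h1 n (star (a n) * a n - star x * x))
    rw [map_sub, Complex.sub_re] at h6
    linarith [h3 n, h4 n]
  have h6 : ‖star x * x‖ ≤ ‖star x * x - star x * x‖ :=
    ha.induction_on (p := fun y => ‖star y * y‖ ≤ ‖star y * y - star x * x‖) x
      (isClosed_le (by fun_prop) (by fun_prop)) h5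
  rw [sub_self, norm_zero, CStarRing.norm_star_mul_self] at h6
  exact norm_eq_zero.1 (by nlinarith [norm_nonneg x])

theorem spa_re {O : Type} [CStarAlgebra O] [PartialOrder O] [StarOrderedRing O]
    (f : O →ₚ[ℂ] ℂ) (x : O) : 0 ≤ (f (star x * x)).re :=
  (f.map_nonneg (star_mul_self_nonneg x)).1

end spa_aux

theorem exists_faithful (A : Type) [CStarAlgebra A] [TopologicalSpace.SeparableSpace A] :
    ∃ (H : Type) (_ : NormedAddCommGroup H) (_ : InnerProductSpace ℂ H) (_ : CompleteSpace H)
      (ρ : A →⋆ₐ[ℂ] (H →L[ℂ] H)), Function.Injective ρ := by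
  let _ := CStarAlgebra.spectralOrder A
  have _ := CStarAlgebra.spectralOrderedRing A
  obtain ⟨f, hf⟩ := spa_faithful A
  refine ⟨f.GNS, inferInstance, inferInstance, inferInstance, f.gnsStarAlgHom,
    (injective_iff_map_eq_zero _).2 fun x hx => hf x ?_⟩
  have h1 : f.gnsStarAlgHom x (f.toPreGNS 1 : f.PreGNS) = (f.toPreGNS x : f.PreGNS) := by
    simp [PositiveLinearMap.gnsStarAlgHom]
  have h2 := congrArg norm h1
  rw [hx, UniformSpace.Completion.norm_coe, f.preGNS_norm_def] at h2
  simp only [zero_apply, norm_zero, PositiveLinearMap.ofPreGNS_toPreGNS] at h2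
  exact le_antisymm (Real.sqrt_eq_zero'.1 h2.symm) (spa_re f x)

theorem IsMinTensor.injective {A Z B : Type} [CStarAlgebra A] [CStarAlgebra Z] [CStarAlgebra B]
    {ι : A ⊗[ℂ] Z →⋆ₐ[ℂ] B} (h : IsMinTensor ι) : Function.Injective ι := by
  obtain ⟨-, H, K, _, _, _, _, _, _, ρ, σ, hρ, hσ, hn⟩ := h
  refine (injective_iff_map_eq_zero ι).2 fun x hx => ?_
  let c := Module.Basis.ofVectorSpace ℂ Z
  obtain ⟨b, rfl⟩ := TensorProduct.eq_repr_basis_right c x
  have h1 : ∑ i ∈ b.support, TensorProduct.mapL (ρ (b i)) (σ (c i)) = 0 := by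
    have h2 := hn _ (fun k => b (b.support.equivFin.symm k)) fun k => c (b.support.equivFin.symm k)
    rw [b.support.equivFin.symm.sum_comp (fun i => b i ⊗ₜ[ℂ] c i),
      b.support.equivFin.symm.sum_comp (fun i => TensorProduct.mapL (ρ (b i)) (σ (c i))),
      Finset.sum_coe_sort b.support (fun i => b i ⊗ₜ[ℂ] c i),
      Finset.sum_coe_sort b.support (fun i => TensorProduct.mapL (ρ (b i)) (σ (c i)))] at h2
    rw [Finsupp.sum] at hx
    rw [hx, norm_zero] at h2
    exact (ContinuousLinearMap.opNorm_zero_iff _).1 h2.symm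
  have h2 : ∀ i ∈ b.support, b i = 0 := fun i hi => by
    refine (map_eq_zero_iff ρ hρ).1 (ContinuousLinearMap.ext fun ξ => ?_)
    refine ext_inner_left ℂ fun ξ' => ?_
    rw [zero_apply, inner_zero_right]
    refine linearIndependent_iff'.1 c.linearIndependent b.support
      (fun i => inner ℂ ξ' (ρ (b i) ξ)) ?_ i hi
    refine (map_eq_zero_iff σ hσ).1 (ContinuousLinearMap.ext fun η => ?_)
    refine ext_inner_left ℂ fun η' => ?_
    have h3 := congrArg (fun T : H ⊗[ℂ] K →L[ℂ] H ⊗[ℂ] K => inner ℂ (ξ' ⊗ₜ[ℂ] η') (T (ξ ⊗ₜ[ℂ] η))) h1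
    simp only [sum_apply, TensorProduct.mapL_tmul, inner_sum,
      TensorProduct.inner_tmul, zero_apply, inner_zero_right] at h3
    simp only [map_sum, map_smul, sum_apply, smul_apply,
      inner_sum, inner_smul_right, zero_apply, inner_zero_right]
    exact h3
  exact Finset.sum_eq_zero fun i hi => by simp only [h2 i hi, TensorProduct.zero_tmul]

section spa_ext

open UniformSpace

variable {V : Type} [NormedAddCommGroup V] [InnerProductSpace ℂ V]

/-- extension of operators to the completion -/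
noncomputable def spaExt (V : Type) [NormedAddCommGroup V] [InnerProductSpace ℂ V] :
    (V →L[ℂ] V) →ₐ[ℂ] (Completion V →L[ℂ] Completion V) :=
  AlgHom.ofLinearMap
    { toFun := fun T => T.completion
      map_add' := fun S T => by
        ext c
        induction c using Completion.induction_on with
        | hp => apply isClosed_eq <;> fun_prop
        | ih c => simp [Completion.coe_add]
      map_smul' := fun r T => by
        ext c
        induction c using Completion.induction_on with
        | hp =>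
          exact isClosed_eq (r • T).completion.continuous (r • T.completion).continuous
        | ih c => simp [Completion.coe_smul] }
    (by
      ext c
      induction c using Completion.induction_on with
      | hp => apply isClosed_eq <;> fun_prop
      | ih c => simp)
    (fun S T => by
      ext c
      induction c using Completion.induction_on with
      | hp => apply isClosed_eq <;> fun_prop
      | ih c => simp)

theorem spaExt_coe (T : V →L[ℂ] V) (x : V) : spaExt V T x = T x := T.completion_apply_coe x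

theorem norm_spaExt (T : V →L[ℂ] V) : ‖spaExt V T‖ = ‖T‖ := by
  refine le_antisymm (ContinuousLinearMap.opNorm_le_bound _ (norm_nonneg _) fun c => ?_)
    (T.opNorm_le_bound (norm_nonneg _) fun x => ?_)
  · induction c using Completion.induction_on with
    | hp => apply isClosed_le <;> fun_prop
    | ih c => rw [spaExt_coe, Completion.norm_coe, Completion.norm_coe]; exact T.le_opNorm c
  · have := (spaExt V T).le_opNorm x
    rwa [spaExt_coe, Completion.norm_coe, Completion.norm_coe] at this

theorem spaExt_star {S T : V →L[ℂ] V} (h : ∀ x y, inner ℂ (S x) y = inner ℂ x (T y)) :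
    spaExt V S = star (spaExt V T) := by
  refine (ContinuousLinearMap.eq_adjoint_iff _ _).2 fun x y => ?_
  induction x, y using Completion.induction_on₂ with
  | hp => apply isClosed_eq <;> fun_prop
  | ih x y => rw [spaExt_coe, spaExt_coe, Completion.inner_coe, Completion.inner_coe, h]

theorem spa_closure {R : Type} [Ring R] [StarRing R] [Algebra ℂ R] (Θ : R →ₐ[ℂ] (V →L[ℂ] V))
    (h : ∀ r x y, inner ℂ (Θ (star r) x) y = inner ℂ x (Θ r y)) :
    ∃ (B : Type) (_ : CStarAlgebra B) (ι : R →⋆ₐ[ℂ] B), DenseRange ι ∧ ∀ r, ‖ι r‖ = ‖Θ r‖ := by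
  let k : R →⋆ₐ[ℂ] (Completion V →L[ℂ] Completion V) :=
    { (spaExt V).comp Θ with map_star' := fun r => spaExt_star (h r) }
  let S := k.range.topologicalClosure
  have hS : IsClosed (S : Set (Completion V →L[ℂ] Completion V)) :=
    StarSubalgebra.isClosed_topologicalClosure _
  have hm : ∀ x, k x ∈ S := fun x => StarSubalgebra.le_topologicalClosure _ ⟨x, rfl⟩
  refine ⟨S, inferInstance, k.codRestrict S hm, fun y => ?_, fun r => norm_spaExt _⟩
  rw [closure_subtype]
  refine closure_mono ?_ y.2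
  rintro _ ⟨x, rfl⟩
  exact ⟨_, ⟨x, rfl⟩, rfl⟩

variable {H K : Type} [NormedAddCommGroup H] [InnerProductSpace ℂ H] [CompleteSpace H]
  [NormedAddCommGroup K] [InnerProductSpace ℂ K] [CompleteSpace K]

theorem spa_adj (S : H →L[ℂ] H) (T : K →L[ℂ] K) (x y : H ⊗[ℂ] K) :
    inner ℂ (TensorProduct.mapL (star S) (star T) x) y = inner ℂ x (TensorProduct.mapL S T y) := by
  induction x with
  | zero => simp
  | add a b ha hb => rw [map_add, inner_add_left, inner_add_left, ha, hb]
  | tmul a b =>
    induction y with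
    | zero => simp
    | add c d hc hd => rw [map_add, inner_add_right, inner_add_right, hc, hd]
    | tmul c d =>
      rw [TensorProduct.mapL_tmul, TensorProduct.mapL_tmul, TensorProduct.inner_tmul,
        TensorProduct.inner_tmul, ContinuousLinearMap.star_eq_adjoint,
        ContinuousLinearMap.star_eq_adjoint, ContinuousLinearMap.adjoint_inner_left,
        ContinuousLinearMap.adjoint_inner_left]

/-- the tensor product of operators as an algebra homomorphism -/
noncomputable def spaMap (H K : Type) [NormedAddCommGroup H] [InnerProductSpace ℂ H]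
    [NormedAddCommGroup K] [InnerProductSpace ℂ K] :
    (H →L[ℂ] H) ⊗[ℂ] (K →L[ℂ] K) →ₐ[ℂ] (H ⊗[ℂ] K →L[ℂ] H ⊗[ℂ] K) :=
  Algebra.TensorProduct.algHomOfLinearMapTensorProduct
    (TensorProduct.lift (LinearMap.mk₂ ℂ TensorProduct.mapL TensorProduct.mapL_add_left
      TensorProduct.mapL_smul_left TensorProduct.mapL_add_right
      fun c f g => TensorProduct.mapL_smul_right c f g))
    (fun a b c d => TensorProduct.mapL_mul a b c d) TensorProduct.mapL_id_id

end spa_ext

theorem exists_minTensor (A Z : Type) [CStarAlgebra A] [CStarAlgebra Z]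
    [TopologicalSpace.SeparableSpace A] [TopologicalSpace.SeparableSpace Z] :
    ∃ (B : Type) (_ : CStarAlgebra B) (ι : A ⊗[ℂ] Z →⋆ₐ[ℂ] B), IsMinTensor ι := by
  obtain ⟨H, _, _, _, ρ, hρ⟩ := exists_faithful A
  obtain ⟨K, _, _, _, σ, hσ⟩ := exists_faithful Z
  let j : A ⊗[ℂ] Z →ₐ[ℂ] (H ⊗[ℂ] K →L[ℂ] H ⊗[ℂ] K) := (spaMap H K).comp
    (Algebra.TensorProduct.map (ρ : A →ₐ[ℂ] (H →L[ℂ] H)) (σ : Z →ₐ[ℂ] (K →L[ℂ] K)))
  have hj : ∀ a z, j (a ⊗ₜ z) = TensorProduct.mapL (ρ a) (σ z) := fun _ _ => rfl
  obtain ⟨B, i, ι, h1, h2⟩ := spa_closure j fun r x y => by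
    induction r with
    | zero => simp
    | add a b ha hb =>
      rw [star_add, map_add, map_add, add_apply, add_apply, inner_add_left, inner_add_right, ha, hb]
    | tmul a z =>
      rw [TensorProduct.star_tmul, hj, hj, map_star, map_star]
      exact spa_adj _ _ _ _
  refine ⟨B, i, ι, h1, H, K, _, _, inferInstance, _, _, inferInstance, ρ, σ, hρ, hσ,
    fun n a z => ?_⟩
  rw [h2, map_sum]
  rfl

end Vale.Agent.P101
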