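import Vale.Agent.P101.Basic

/-! The state of the reduction and small functional calculus facts. -/

namespace Vale.Agent.P101

/-- order zero matrix units with total `a`, such that `1 - a` lies in the left ideal generated by
`k` elements fixed by the corner unit -/
def St {N : Type} [Fintype N] [DecidableEq N] (o : N) (k : ℕ) (D : Type) [CStarAlgebra D] : Prop :=
  ∃ (a : D) (E : N → N → D) (r : Fin k → D), PC a ∧ Units a E ∧ (∀ l, E o o * r l = r l) ∧
    1 - a ∈ Ideal.span (Set.range r)

/-- `D` is separable and maps to `F` -/
def Adm (F D : Type) [CStarAlgebra F] [CStarAlgebra D] : Prop :=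
  TopologicalSpace.SeparableSpace D ∧ Nonempty (D →⋆ₐ[ℂ] F)

variable {C : Type} [CStarAlgebra C]

/-- functional calculus on an eigenvector -/
theorem cfc_mul_eigen {h x : C} (hh : IsSelfAdjoint h) {s : ℝ} (hx : h * x = s • x)
    {g : ℝ → ℝ} (hg : Continuous g) : cfc g h * x = g s • x := by
  by_cases h0 : x = 0
  · simp [h0]
  have hs : s ∈ spectrum ℝ h := by
    rw [spectrum.mem_iff]
    intro hu
    apply h0
    rw [← hu.mul_right_eq_zero, sub_mul, hx, Algebra.algebraMap_eq_smul_one, smul_mul_assoc,
      one_mul, sub_self]
  rw [cfc_apply g h]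
  have key : ∀ f : C(spectrum ℝ h, ℝ), cfcHom hh f * x = f ⟨s, hs⟩ • x := fun f => by
    induction f using ContinuousMap.induction_on_of_compact with
    | const r =>
      have : ContinuousMap.const (spectrum ℝ h) r = algebraMap ℝ _ r := rfl
      rw [this, AlgHomClass.commutes, Algebra.algebraMap_eq_smul_one, smul_mul_assoc, one_mul]
      rfl
    | id => rw [cfcHom_id]; exact hx
    | star_id => rw [star_trivial, cfcHom_id]; exact hx
    | add f g hf hg => rw [map_add, add_mul, hf, hg, ContinuousMap.add_apply, add_smul]
    | mul f g hf hg =>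
      rw [map_mul, mul_assoc, hg, mul_smul_comm, hf, ContinuousMap.mul_apply, smul_smul, mul_comm]
    | frequently f hf =>
      have h1 : IsClosed {f : C(spectrum ℝ h, ℝ) | cfcHom hh f * x = f ⟨s, hs⟩ • x} :=
        isClosed_eq ((cfcHom_continuous hh).mul continuous_const) (by fun_prop)
      exact h1.mem_of_frequently_of_tendsto hf Filter.tendsto_id
  exact key _

end Vale.Agent.P101
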