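import Vale.Agent.P101.Basic

/-! Unitaries with finite spectrum are connected to the identity. -/

open scoped Real

namespace Vale.Agent.P101

theorem joined_one_of_finite {E : Type} [CStarAlgebra E] (u : unitary E)
    (h : (spectrum ℂ (u : E)).Finite) : Joined 1 u := by
  obtain ⟨θ, hθ⟩ : ∃ θ : ℝ, -Complex.exp (θ * Complex.I) ∉ spectrum ℂ (u : E) := by
    by_contra hn
    push Not at hn
    have hinj : Set.InjOn (fun θ : ℝ => -Complex.exp (θ * Complex.I)) (Set.Ioo 0 1) := by
      intro x hx y hy hxy
      have h1 := Complex.exp_eq_exp_iff_exists_int.1 (neg_injective hxy)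
      obtain ⟨n, hn⟩ := h1
      have h2 : (x : ℝ) = y + n * (2 * π) := by
        have := congrArg Complex.im hn
        simpa using this
      have h3 : n = 0 := by
        by_contra h0
        have : (1 : ℝ) ≤ |(n : ℝ)| := by exact_mod_cast Int.one_le_abs h0
        have h4 : |x - y| < 1 := by
          rw [abs_lt]; constructor <;> linarith [hx.1, hx.2, hy.1, hy.2]
        rw [h2, add_sub_cancel_left, abs_mul, abs_of_pos (by positivity : (0 : ℝ) < 2 * π)] at h4
        nlinarith [Real.pi_gt_three]
      simpa [h3] using h2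
    exact (Set.Ioo_infinite (zero_lt_one' ℝ)) (Set.Finite.of_finite_image
      (h.subset (by rintro _ ⟨θ, -, rfl⟩; exact hn θ)) hinj)
  let x : selfAdjoint E := ⟨algebraMap ℝ E θ, IsSelfAdjoint.algebraMap E (.all θ)⟩
  have hx : (selfAdjoint.expUnitary x : E) = algebraMap ℂ E (Complex.exp (θ * Complex.I)) := by
    have : Complex.I • (x : E) = algebraMap ℂ E (θ * Complex.I) := by
      change Complex.I • algebraMap ℝ E θ = _
      rw [IsScalarTower.algebraMap_apply ℝ ℂ E, Algebra.smul_def, ← map_mul, mul_comm]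
      rfl
    rw [selfAdjoint.expUnitary_coe, this, Complex.exp_eq_exp_ℂ, NormedSpace.algebraMap_exp_comm]
  refine (selfAdjoint.joined_one_expUnitary x).trans (Unitary.joined _ _ ?_)
  rw [Unitary.norm_sub_eq, Unitary.norm_sub_one_lt_two_iff (SetLike.coe_mem _)]
  intro h1
  apply hθ
  rw [spectrum.mem_iff] at h1 ⊢
  intro hu
  apply h1
  have h2 : algebraMap ℂ E (-1) - ((u * star (selfAdjoint.expUnitary x) : unitary E) : E)
      = (algebraMap ℂ E (-Complex.exp (θ * Complex.I)) - u)
        * (star (selfAdjoint.expUnitary x) : unitary E) := by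
    rw [map_neg, map_neg, ← hx, map_one, sub_mul, neg_mul, ← Submonoid.coe_mul,
      Unitary.mul_star_self, Submonoid.coe_mul]
    rfl
  rw [h2]
  exact hu.mul (Unitary.isUnit_coe)

theorem finite_spectrum_of_finiteDimensional {R : Type} [Ring R] [Algebra ℂ R]
    [FiniteDimensional ℂ R] (x : R) : (spectrum ℂ x).Finite := by
  have hx : IsIntegral ℂ x := Algebra.IsIntegral.isIntegral x
  refine (Polynomial.rootSet_finite (minpoly ℂ x) ℂ).subset fun t ht => ?_
  rw [Polynomial.mem_rootSet]
  refine ⟨minpoly.ne_zero hx, ?_⟩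
  have := spectrum.subset_polynomial_aeval x (minpoly ℂ x) ⟨t, ht, rfl⟩
  rw [minpoly.aeval] at this
  by_contra h0
  exact this (by
    rw [spectrum.mem_resolventSet_iff, sub_zero]
    exact (IsUnit.mk0 _ (by simpa using h0)).map (algebraMap ℂ R))

/-- the image of a unitary of a finite dimensional algebra is connected to the identity -/
theorem joined_one_of_map {R E : Type} [Ring R] [StarRing R] [Algebra ℂ R] [FiniteDimensional ℂ R]
    [CStarAlgebra E] (ψ : R →⋆ₐ[ℂ] E) (x : R) (u : unitary E) (h : (u : E) = ψ x) :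
    Joined 1 u :=
  joined_one_of_finite u ((finite_spectrum_of_finiteDimensional x).subset
    (h ▸ AlgHom.spectrum_apply_subset ψ x))

/-- a continuous path of unitary complex matrices from `1` to a given unitary matrix -/
theorem exists_matrix_path {ι : Type} [Fintype ι] [DecidableEq ι] (x : Matrix ι ι ℂ)
    (hx : x ∈ unitary (Matrix ι ι ℂ)) :
    ∃ g : unitInterval → Matrix ι ι ℂ, Continuous g ∧ g 0 = 1 ∧ g 1 = x ∧
      ∀ t, g t ∈ unitary (Matrix ι ι ℂ) := by
  obtain ⟨γ⟩ := joined_one_of_map (toMCh (ι := ι) (B := ℂ)) x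
    ⟨toMCh x, Unitary.map_mem toMCh hx⟩ rfl
  refine ⟨fun t => ofMCh (γ t : MC ι ℂ), continuous_toMC_symm.comp
    (continuous_subtype_val.comp γ.continuous), by simp only [γ.source]; simp,
    by simp only [γ.target]; simp,
    fun t => ?_⟩
  exact Unitary.map_mem ofMCh (γ t).2

end Vale.Agent.P101
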