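import Vale.Agent.P101.Quot

/-! The norm ultrapower: norm formula, existence, functoriality, lifting of unitaries and
reindexing. -/

open Filter Topology
open scoped BoundedContinuousFunction

namespace Vale.Agent.P101

theorem exists_factor {R U V : Type} [CStarAlgebra R] [CStarAlgebra U] [CStarAlgebra V]
    (π : R →⋆ₐ[ℂ] U) (hπ : Function.Surjective π) (ρ : R →⋆ₐ[ℂ] V)
    (h : ∀ x, π x = 0 → ρ x = 0) : ∃ J : U →⋆ₐ[ℂ] V, ∀ x, J (π x) = ρ x := by
  choose σ hσ using hπ
  have key : ∀ x, ρ (σ (π x)) = ρ x := fun x => by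
    rw [← sub_eq_zero, ← map_sub]
    apply h
    rw [map_sub, hσ, sub_self]
  have sj : ∀ u, ∃ x, π x = u := fun u => ⟨σ u, hσ u⟩
  refine ⟨{ toFun := fun u => ρ (σ u)
            map_one' := by rw [← map_one π, key, map_one]
            map_mul' := fun u v => by
              obtain ⟨x, rfl⟩ := sj u
              obtain ⟨y, rfl⟩ := sj v
              rw [← map_mul, key, key, key, map_mul]
            map_zero' := by rw [← map_zero π, key, map_zero]
            map_add' := fun u v => by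
              obtain ⟨x, rfl⟩ := sj u
              obtain ⟨y, rfl⟩ := sj v
              rw [← map_add, key, key, key, map_add]
            commutes' := fun c => by
              rw [← AlgHomClass.commutes π, key, AlgHomClass.commutes]
            map_star' := fun u => by
              obtain ⟨x, rfl⟩ := sj u
              rw [← map_star, key, key, map_star] }, key⟩

theorem exists_ulim {A : Type} [CStarAlgebra A] (ω : Ultrafilter ℕ) (x : ℕ →ᵇ A) :
    ∃ c : ℝ, Tendsto (fun n => ‖x n‖) (ω : Filter ℕ) (𝓝 c) := by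
  obtain ⟨c, -, hc⟩ := (isCompact_Icc (a := (0 : ℝ)) (b := ‖x‖)).ultrafilter_le_nhds
    (ω.map fun n => ‖x n‖) (by
      rw [Ultrafilter.coe_map, le_principal_iff, mem_map]
      exact univ_mem' fun n => ⟨norm_nonneg _, x.norm_coe_le_norm n⟩)
  exact ⟨c, hc⟩

theorem exists_ultrapower' (A : Type) [CStarAlgebra A] (ω : Ultrafilter ℕ) :
    ∃ (U : Type) (_ : CStarAlgebra U) (π : (ℕ →ᵇ A) →⋆ₐ[ℂ] U), Function.Surjective π ∧
      ∀ x, Tendsto (fun n => ‖x n‖) (ω : Filter ℕ) (𝓝 ‖π x‖) := by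
  choose N hN using exists_ulim (A := A) ω
  obtain ⟨U, i, π, h1, h2⟩ := exists_quot N
    (fun x y => le_of_tendsto_of_tendsto' (hN _) ((hN x).add (hN y)) fun n => norm_add_le _ _)
    (fun c x => tendsto_nhds_unique (hN _) (((hN x).const_mul ‖c‖).congr fun n =>
      (norm_smul c (x n)).symm))
    (fun x y => le_of_tendsto_of_tendsto' (hN _) ((hN x).mul (hN y)) fun n => norm_mul_le _ _)
    (fun x => tendsto_nhds_unique (hN _) ((hN x).congr fun n => (norm_star (x n)).symm))
    (fun x => le_of_tendsto_of_tendsto' ((hN x).mul (hN x)) (hN _) fun n =>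
      CStarRing.norm_star_mul_self.ge)
    (fun x => le_of_tendsto' (hN x) fun n => x.norm_coe_le_norm n)
    (fun x ε hε => by
      classical
      have h0 : 0 ≤ N x := ge_of_tendsto' (hN x) fun n => norm_nonneg _
      have hb : ∀ n, ‖(if ‖x n‖ ≤ N x + ε then x n else 0 : A)‖ ≤ N x + ε := fun n => by
        split_ifs with h
        · exact h
        · rw [norm_zero]; linarith
      refine ⟨BoundedContinuousFunction.ofNormedAddCommGroupDiscrete _ _ hb, ?_,
        (BoundedContinuousFunction.norm_le (by linarith)).2 hb⟩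
      refine tendsto_nhds_unique (hN _) (tendsto_const_nhds.congr' ?_)
      filter_upwards [(hN x).eventually (Iic_mem_nhds (show N x < N x + ε by linarith))] with n hn
      show (0 : ℝ) = ‖x n - (if ‖x n‖ ≤ N x + ε then x n else 0)‖
      rw [if_pos hn, sub_self, norm_zero])
  exact ⟨U, i, π, h1, fun x => by rw [h2]; exact hN x⟩

variable {A U : Type} [CStarAlgebra A] [CStarAlgebra U] {ω : Ultrafilter ℕ}
  {π : (ℕ →ᵇ A) →⋆ₐ[ℂ] U}

theorem IsUltrapower.tendsto_norm (h : IsUltrapower ω π) (x : ℕ →ᵇ A) :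
    Tendsto (fun n => ‖x n‖) (ω : Filter ℕ) (𝓝 ‖π x‖) := by
  obtain ⟨V, _, ρ, -, h2⟩ := exists_ultrapower' A ω
  obtain ⟨J, hJ⟩ := exists_factor π h.1 ρ fun y hy =>
    norm_eq_zero.1 (tendsto_nhds_unique (h2 y) ((h.2 y).1 hy))
  have inj : Function.Injective J := by
    rw [injective_iff_map_eq_zero]
    intro u hu
    obtain ⟨y, rfl⟩ := h.1 u
    rw [hJ] at hu
    apply (h.2 y).2
    have := h2 y
    rwa [hu, norm_zero] at this
  rw [← NonUnitalStarAlgHom.norm_map J inj, hJ]
  exact h2 x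

theorem exists_ultrapower (A : Type) [CStarAlgebra A] (ω : Ultrafilter ℕ) :
    ∃ (U : Type) (_ : CStarAlgebra U) (π : (ℕ →ᵇ A) →⋆ₐ[ℂ] U), IsUltrapower ω π := by
  obtain ⟨U, i, π, h1, h2⟩ := exists_ultrapower' A ω
  refine ⟨U, i, π, h1, fun x => ⟨fun h => ?_, fun h => ?_⟩⟩
  · have := h2 x
    rwa [h, norm_zero] at this
  · exact norm_eq_zero.1 (tendsto_nhds_unique (h2 x) h)

/-- postcomposition of bounded sequences with a star homomorphism -/
noncomputable def seqMap {A' : Type} [CStarAlgebra A'] (j : A →⋆ₐ[ℂ] A') :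
    (ℕ →ᵇ A) →⋆ₐ[ℂ] (ℕ →ᵇ A') where
  toFun x := BoundedContinuousFunction.ofNormedAddCommGroupDiscrete (fun n => j (x n)) ‖x‖
    fun n => (NonUnitalStarAlgHom.norm_apply_le j _).trans (x.norm_coe_le_norm n)
  map_one' := by ext n; exact map_one j
  map_mul' x y := by ext n; exact map_mul j _ _
  map_zero' := by ext n; exact map_zero j
  map_add' x y := by ext n; exact map_add j _ _
  commutes' c := by
    ext n
    show j ((algebraMap ℂ (ℕ →ᵇ A) c) n) = (algebraMap ℂ (ℕ →ᵇ A') c) n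
    simp
  map_star' x := by ext n; exact map_star j _

theorem seqMap_apply {A' : Type} [CStarAlgebra A'] (j : A →⋆ₐ[ℂ] A') (x : ℕ →ᵇ A) (n : ℕ) :
    seqMap j x n = j (x n) := rfl

theorem IsUltrapower.exists_map {A' U' : Type} [CStarAlgebra A'] [CStarAlgebra U']
    {π' : (ℕ →ᵇ A') →⋆ₐ[ℂ] U'} (h : IsUltrapower ω π) (h' : IsUltrapower ω π')
    (j : A →⋆ₐ[ℂ] A') :
    ∃ J : U →⋆ₐ[ℂ] U', ∀ (x : ℕ →ᵇ A) (y : ℕ →ᵇ A'), (∀ n, y n = j (x n)) → J (π x) = π' y := by
  obtain ⟨J, hJ⟩ := exists_factor π h.1 (π'.comp (seqMap j)) fun x hx =>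
    (h'.2 (seqMap j x)).2 (squeeze_zero (fun n => norm_nonneg _)
      (fun n => NonUnitalStarAlgHom.norm_apply_le j (x n)) ((h.2 x).1 hx))
  refine ⟨J, fun x y hy => ?_⟩
  rw [hJ]
  show π' (seqMap j x) = π' y
  congr 1
  ext n
  exact (hy n).symm

theorem exists_unitary_near (a : A) (h1 : ‖star a * a - 1‖ ≤ 1 / 2) (h2 : ‖a * star a - 1‖ < 1) :
    ∃ w ∈ unitary A, ‖w - a‖ ≤ ‖a‖ * (2 * ‖star a * a - 1‖) := by
  rcases subsingleton_or_nontrivial A with hA | hA
  · exact ⟨1, one_mem _, by rw [Subsingleton.elim (1 - a) 0, norm_zero]; positivity⟩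
  set h := star a * a with hh
  have sa : IsSelfAdjoint h := IsSelfAdjoint.star_mul_self a
  have sp : ∀ t ∈ spectrum ℝ h, |t - 1| ≤ ‖h - 1‖ := fun t ht => by
    have : t - 1 ∈ spectrum ℝ (h - 1) := by
      rw [spectrum.mem_iff] at ht ⊢
      rwa [map_sub, map_one, sub_sub_sub_cancel_right]
    exact spectrum.norm_le_norm_of_mem this
  have pos : ∀ t ∈ spectrum ℝ h, 1 / 2 ≤ t := fun t ht => by
    linarith [(abs_le.1 (sp t ht)).1]
  let g : ℝ → ℝ := fun t => (√t)⁻¹
  have hg : ContinuousOn g (spectrum ℝ h) :=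
    Real.continuous_sqrt.continuousOn.inv₀ fun t ht =>
      (Real.sqrt_pos.2 (by linarith [pos t ht])).ne'
  set r := cfc g h with hr
  have rsa : IsSelfAdjoint r := cfc_predicate g h
  have rhr : r * h * r = 1 := by
    have e : r * h * r = cfc (fun t => g t * t * g t) h := by
      rw [cfc_mul (fun t => g t * t) g h (hg.mul continuousOn_id) hg,
        cfc_mul g (fun t => t) h hg continuousOn_id, cfc_id' ℝ h]
    rw [e, ← cfc_one ℝ h]
    refine cfc_congr fun t ht => ?_
    have p : 0 < t := by linarith [pos t ht]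
    have q := Real.mul_self_sqrt p.le
    have q' := (Real.sqrt_pos.2 p).ne'
    simp only [g, Pi.one_apply]
    field_simp
    linarith
  have w1 : star (a * r) * (a * r) = 1 := by
    rw [star_mul, rsa.star_eq, ← rhr, hh]; noncomm_ring
  have hu : IsUnit (a * star a) := by
    have := (Units.oneSub (1 - a * star a) (by rwa [norm_sub_rev])).isUnit
    simpa using this
  obtain ⟨b, hb⟩ := hu.exists_right_inv
  have w2 : a * r * (h * r * (star a * b)) = 1 := by
    calc a * r * (h * r * (star a * b)) = a * (r * h * r) * (star a * b) := by noncomm_ring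
      _ = 1 := by rw [rhr, mul_one, ← mul_assoc, hb]
  have w3 : a * r * star (a * r) = 1 := by
    have : star (a * r) = h * r * (star a * b) := by
      rw [← mul_one (star (a * r)), ← w2, ← mul_assoc, w1, one_mul]
    rw [this, w2]
  refine ⟨a * r, ⟨w1, w3⟩, ?_⟩
  rw [show a * r - a = a * (r - 1) by noncomm_ring]
  refine (norm_mul_le _ _).trans (mul_le_mul_of_nonneg_left ?_ (norm_nonneg _))
  have e : r - 1 = cfc (fun t => g t - 1) h := by
    rw [cfc_sub _ _ h hg continuousOn_const, cfc_const_one ℝ h]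
  rw [e]
  refine norm_cfc_le (by positivity) fun t ht => ?_
  have p : 1 / 2 ≤ t := pos t ht
  have s := sp t ht
  have q := Real.mul_self_sqrt (show 0 ≤ t by linarith)
  have q0 : 0 < √t := Real.sqrt_pos.2 (by linarith)
  have q1 : 1 / 2 ≤ √t := Real.le_sqrt_of_sq_le (by linarith)
  rw [Real.norm_eq_abs]
  have e2 : g t - 1 = -(t - 1) / (√t * (1 + √t)) := by
    simp only [g]
    field_simp
    nlinarith
  rw [e2, abs_div, abs_neg, abs_of_pos (by positivity : 0 < √t * (1 + √t)),
    div_le_iff₀ (by positivity)]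
  have : 1 / 2 ≤ √t * (1 + √t) := by nlinarith
  nlinarith [abs_nonneg (t - 1), norm_nonneg (h - 1)]

theorem IsUltrapower.exists_unitary (h : IsUltrapower ω π) {W : U} (hW : W ∈ unitary U) :
    ∃ w : ℕ →ᵇ A, π w = W ∧ ∀ n, w n ∈ unitary A := by
  classical
  obtain ⟨x, rfl⟩ := h.1 W
  have t1 : Tendsto (fun n => ‖star (x n) * x n - 1‖) (ω : Filter ℕ) (𝓝 0) :=
    (h.2 (star x * x - 1)).1 (by rw [map_sub, map_mul, map_star, map_one, hW.1, sub_self])
  have t2 : Tendsto (fun n => ‖x n * star (x n) - 1‖) (ω : Filter ℕ) (𝓝 0) :=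
    (h.2 (x * star x - 1)).1 (by rw [map_sub, map_mul, map_star, map_one, hW.2, sub_self])
  have : ∀ n, ∃ w ∈ unitary A, ‖star (x n) * x n - 1‖ ≤ 1 / 2 → ‖x n * star (x n) - 1‖ < 1 →
      ‖w - x n‖ ≤ ‖x n‖ * (2 * ‖star (x n) * x n - 1‖) := fun n => by
    by_cases hc : ‖star (x n) * x n - 1‖ ≤ 1 / 2 ∧ ‖x n * star (x n) - 1‖ < 1
    · obtain ⟨w, a, b⟩ := exists_unitary_near (x n) hc.1 hc.2
      exact ⟨w, a, fun _ _ => b⟩
    · exact ⟨1, one_mem _, fun a b => absurd ⟨a, b⟩ hc⟩
  choose w hw hn using this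
  have hb : ∀ n, ‖w n‖ ≤ 1 := fun n => by
    rcases subsingleton_or_nontrivial A with hA | hA
    · rw [Subsingleton.elim (w n) 0, norm_zero]; exact zero_le_one
    · exact (CStarRing.norm_of_mem_unitary (hw n)).le
  refine ⟨BoundedContinuousFunction.ofNormedAddCommGroupDiscrete w 1 hb, ?_, hw⟩
  rw [← sub_eq_zero, ← map_sub]
  apply (h.2 _).2
  have t3 : Tendsto (fun n => ‖x‖ * (2 * ‖star (x n) * x n - 1‖)) (ω : Filter ℕ) (𝓝 0) := by
    simpa using (t1.const_mul 2).const_mul ‖x‖
  refine squeeze_zero' (Eventually.of_forall fun n => norm_nonneg _) ?_ t3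
  filter_upwards [t1.eventually (Iic_mem_nhds (show (0 : ℝ) < 1 / 2 by norm_num)),
    t2.eventually (Iio_mem_nhds (show (0 : ℝ) < 1 by norm_num))] with n a b
  exact (hn n a b).trans (mul_le_mul_of_nonneg_right (x.norm_coe_le_norm n) (by positivity))

instance : IsClosed (centralSeq π : Set U) := by
  rw [centralSeq, StarSubalgebra.coe_centralizer]
  exact Set.isClosed_centralizer _

end Vale.Agent.P101
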