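import Vale.Agent.P101.State

/-! Separable subalgebras. -/

open TopologicalSpace
open scoped Pointwise

namespace Vale.Agent.P101

variable {F : Type} [CStarAlgebra F]

theorem isSeparable_closure {T : Set F} (hT : IsSeparable T) :
    IsSeparable (Submonoid.closure T : Set F) := by
  have h : ∀ n : ℕ, IsSeparable (T ^ n) := fun n => by
    induction n with
    | zero => rw [pow_zero]; exact (Set.finite_singleton (1 : F)).isSeparable
    | succ n ih =>
      rw [pow_succ, ← Set.image2_mul, ← Set.image_prod]
      exact (ih.prod hT).image (continuous_fst.mul continuous_snd)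
  refine (IsSeparable.iUnion h).mono fun x hx => ?_
  induction hx using Submonoid.closure_induction with
  | mem x hx => exact Set.mem_iUnion.2 ⟨1, by rwa [pow_one]⟩
  | one => exact Set.mem_iUnion.2 ⟨0, by simp⟩
  | mul x y _ _ hx hy =>
    obtain ⟨n, hn⟩ := Set.mem_iUnion.1 hx
    obtain ⟨m, hm⟩ := Set.mem_iUnion.1 hy
    exact Set.mem_iUnion.2 ⟨n + m, by rw [pow_add]; exact Set.mul_mem_mul hn hm⟩

/-- the separable C*-subalgebra generated by a separable set -/
theorem exists_sep {T : Set F} (hT : IsSeparable T) :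
    ∃ (D : Type) (_ : CStarAlgebra D) (ψ : D →⋆ₐ[ℂ] F), SeparableSpace D ∧
      Function.Injective ψ ∧ T ⊆ Set.range ψ ∧ ∀ K : Submodule ℂ D, IsClosed (K : Set D) →
        (∀ x, ψ x ∈ Submonoid.closure (T ∪ star T) → x ∈ K) → K = ⊤ := by
  let S := (StarAlgebra.adjoin ℂ T).topologicalClosure
  have hS : (S : Set F) = closure (Submodule.span ℂ (Submonoid.closure (T ∪ star T) : Set F)) := by
    rw [← Algebra.adjoin_eq_span, ← StarAlgebra.adjoin_toSubalgebra]; rfl
  have : IsClosed (S : Set F) := StarSubalgebra.isClosed_topologicalClosure _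
  have hT' : IsSeparable (star T) := by
    rw [← Set.image_star]; exact hT.image continuous_star
  refine ⟨S, inferInstance, S.subtype, ?_, Subtype.val_injective, fun x hx =>
    ⟨⟨x, StarSubalgebra.le_topologicalClosure _ (StarAlgebra.subset_adjoin ℂ T hx)⟩, rfl⟩,
    fun K hK h => ?_⟩
  · refine IsSeparable.separableSpace (s := (S : Set F)) ?_
    rw [hS]
    exact (isSeparable_closure (hT.union hT')).span.closure
  · rw [eq_top_iff]
    rintro ⟨x, hx⟩ -
    let K' := K.map S.subtype.toAlgHom.toLinearMap
    have h1 : IsClosed (K' : Set F) := this.isClosedEmbedding_subtypeVal.isClosedMap _ hK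
    have h2 : (S : Set F) ⊆ K' := by
      rw [hS]
      refine closure_minimal (Submodule.span_le.2 fun y hy => ?_) h1
      have hy' : y ∈ S := by
        rw [← SetLike.mem_coe, hS]; exact subset_closure (Submodule.subset_span hy)
      exact ⟨⟨y, hy'⟩, h _ hy, rfl⟩
    obtain ⟨y, hy, rfl⟩ := h2 hx
    exact hy

/-- a homomorphism into the range of an injective homomorphism lifts -/
theorem exists_lift {D E : Type} [CStarAlgebra D] [CStarAlgebra E] {ψ : E →⋆ₐ[ℂ] F}
    (hψ : Function.Injective ψ) (θ : D →⋆ₐ[ℂ] F) (h : ∀ x, θ x ∈ Set.range ψ) :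
    ∃ i : D →⋆ₐ[ℂ] E, ∀ x, ψ (i x) = θ x := by
  choose i hi using h
  exact ⟨{ toFun := i
           map_one' := hψ (by rw [hi, map_one, map_one])
           map_mul' x y := hψ (by rw [map_mul, hi, hi, hi, map_mul])
           map_zero' := hψ (by rw [hi, map_zero, map_zero])
           map_add' x y := hψ (by rw [map_add, hi, hi, hi, map_add])
           commutes' c := hψ (by rw [hi, AlgHomClass.commutes, AlgHomClass.commutes])
           map_star' x := hψ (by rw [map_star, hi, hi, map_star]) }, hi⟩

end Vale.Agent.P101
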