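import Vale.Agent.P101.Drop
import Vale.Agent.P101.Conn

/-! Approximate conjugation and paths of unitaries. -/

open scoped unitInterval

set_option linter.unusedSectionVars false

namespace Vale.Agent.P101

variable {E : Type} [CStarAlgebra E]

/-- `u` conjugates `x` to `y` up to `ε` -/
def Ap (ε : ℝ) (u x y : E) : Prop := ‖u * x * star u - y‖ ≤ ε

theorem norm_conj {u : E} (hu : u ∈ unitary E) (x : E) : ‖u * x * star u‖ = ‖x‖ := by
  rw [CStarRing.norm_mul_mem_unitary _ (Unitary.star_mem hu), CStarRing.norm_mem_unitary_mul _ hu]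

theorem Ap.mul {ε ε' : ℝ} {u v x y z : E} (hu : u ∈ unitary E) (h' : Ap ε' u y z)
    (h : Ap ε v x y) : Ap (ε' + ε) (u * v) x z := by
  have : u * v * x * star (u * v) - z = (u * y * star u - z) + u * (v * x * star v - y) * star u := by
    rw [star_mul]; noncomm_ring
  rw [Ap, this]
  exact (norm_add_le _ _).trans (add_le_add h' ((norm_conj hu _).le.trans h))

theorem Ap.star {ε : ℝ} {u x y : E} (hu : u ∈ unitary E) (h : Ap ε u x y) :
    Ap ε (star u) y x := by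
  have : u * (Star.star u * y * Star.star (Star.star u) - x) * Star.star u
      = -(u * x * Star.star u - y) := by
    rw [star_star, mul_sub, sub_mul, ← mul_assoc, ← mul_assoc, hu.2, one_mul, mul_assoc y, hu.2,
      mul_one, neg_sub]
  rw [Ap, ← norm_conj hu, this, norm_neg]
  exact h

theorem Ap.of_commute {u x : E} (hu : u ∈ unitary E) (h : Commute u x) : Ap 0 u x x := by
  rw [Ap, h.eq, mul_assoc, hu.2, mul_one, sub_self, norm_zero]

theorem Ap.near {u : E} (hu : u ∈ unitary E) {η : ℝ} (h : ‖u - 1‖ ≤ η) (x : E) :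
    Ap (2 * η * ‖x‖) u x x := by
  have : u * x * Star.star u - x = ((u - 1) * x - x * (u - 1)) * Star.star u := by
    linear_combination (norm := noncomm_ring) x * hu.2
  rw [Ap, this, CStarRing.norm_mul_mem_unitary _ (Unitary.star_mem hu)]
  nlinarith [norm_sub_le ((u - 1) * x) (x * (u - 1)), norm_mul_le (u - 1) x, norm_mul_le x (u - 1),
    norm_nonneg x]

theorem Ap.mono {ε ε' : ℝ} {u x y : E} (h : Ap ε u x y) (h' : ε ≤ ε') : Ap ε' u x y :=
  le_trans h h'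

variable {B B' : Type} [CStarAlgebra B] [CStarAlgebra B'] {ι κ : Type} [Fintype ι] [DecidableEq ι]
  [Fintype κ] [DecidableEq κ] {e : ι → ι → E}

theorem Units.norm_le (h : Units 1 e) (i j : ι) : ‖e i j‖ ≤ 1 := by
  have h1 : IsStarProjection (e j j) :=
    ⟨by rw [IsIdempotentElem, h.mul_same, one_mul], h.star j j⟩
  have h2 := h1.norm_le
  rw [← one_mul (e j j), ← h.mul_same j i j, ← h.star i j, CStarRing.norm_star_mul_self] at h2
  nlinarith [norm_nonneg (e i j)]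

theorem theta_unitary {γ : B →⋆ₐ[ℂ] E} (h : Units 1 e) (hc : ∀ b i j, Commute (γ b) (e i j))
    {W : Matrix ι ι B} (hW : W ∈ unitary (Matrix ι ι B)) : theta γ e W ∈ unitary E :=
  Unitary.map_mem (thetaHom γ h hc) hW

theorem ap_hd {γ : B →⋆ₐ[ℂ] E} (h : Units 1 e) (hc : ∀ b i j, Commute (γ b) (e i j))
    {W : Matrix ι ι B} {x : B} {y : Matrix ι ι ℂ} {ε : ℝ}
    (H : ‖toMC (W * Matrix.diagonal (fun _ => x) * star W - y.map (algebraMap ℂ B))‖ ≤ ε) :
    Ap ε (theta γ e W) (γ x) (lam h y) := by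
  refine le_trans (le_of_eq ?_) ((norm_map_le_toMC (thetaHom γ h hc) _).trans H)
  rw [map_sub, map_mul, map_mul, map_star]
  simp only [thetaHom_apply, theta_diagonal h, mul_one, theta_map_algebraMap h]

theorem ap_theta {γ γ' : B →⋆ₐ[ℂ] E} (h : Units 1 e) {u : E} (hu : ∀ i j, Commute (star u) (e i j))
    {X : Matrix ι ι B} {ε : ℝ} (H : ∀ i j, Ap ε u (γ (X i j)) (γ' (X i j))) :
    Ap (Fintype.card ι ^ 2 * ε) u (theta γ e X) (theta γ' e X) := by
  have : u * theta γ e X * star u - theta γ' e X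
      = ∑ i, ∑ j, (u * γ (X i j) * star u - γ' (X i j)) * e i j := by
    simp only [theta_apply, Finset.mul_sum, Finset.sum_mul, sub_mul, Finset.sum_sub_distrib,
      mul_assoc, (hu _ _).eq]
  rw [Ap, this]
  refine (norm_sum_le_of_le _ fun i _ => norm_sum_le_of_le (n := fun _ => ε) _ fun j _ =>
    (norm_mul_le _ _).trans ?_).trans (by simp [sq, mul_assoc])
  exact (mul_le_of_le_one_right (norm_nonneg _) (h.norm_le i j)).trans (H i j)

theorem joined_theta {e2 : κ → κ → E} {γ : B' →⋆ₐ[ℂ] E} {μ : B →⋆ₐ[ℂ] B'} (h : Units 1 e)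
    (h2 : Units 1 e2) (hc : ∀ b i j, Commute (γ b) (e i j))
    (hc2 : ∀ b i j, Commute (γ b) (e2 i j)) (hee : ∀ i j k l, Commute (e i j) (e2 k l))
    {X : Matrix ι ι B} (hX : X ∈ unitary (Matrix ι ι B)) {Ω : Matrix κ κ B'}
    (hΩ : Ω ∈ unitary (Matrix κ κ B')) (φ : B →⋆ₐ[ℂ] Matrix κ κ ℂ) {ε : ℝ}
    (H : ∀ i j, ‖toMC (Ω * Matrix.diagonal (fun _ => μ (X i j)) * star Ω
      - (φ (X i j)).map (algebraMap ℂ B'))‖ ≤ ε) (hε : Fintype.card ι ^ 2 * ε < 2) :
    ∃ u : unitary E, (u : E) = theta (γ.comp μ) e X ∧ Joined 1 u := by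
  have hl : ∀ y i j, Commute (lam h2 y) (e i j) := fun y i j => (commute_lam h2 (hee i j) y).symm
  let u : unitary E := ⟨_, theta_unitary h2 hc2 hΩ⟩
  let x : unitary E := ⟨_, theta_unitary (γ := γ.comp μ) h (fun _ => hc _) hX⟩
  let x' : unitary E := ⟨_, theta_unitary (γ := (lam h2).comp φ) h (fun _ => hl _) hX⟩
  have h3 : Joined 1 x' := joined_one_of_map (thetaHom (lam h2) h hl) (X.map φ) x' rfl
  have h4 : Ap _ (u : E) x x' := ap_theta h (fun i j => by
    change Commute (star (theta γ e2 Ω)) _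
    rw [theta_star h2 hc2]
    exact (commute_theta (fun b => (hc b i j).symm) (hee i j) _).symm)
    fun i j => ap_hd h2 hc2 (H i j)
  have h5 := h3.trans (Unitary.joined x' (u * x * star u) (lt_of_le_of_lt h4 hε))
  have h6 := ((Joined.refl (star u)).mul h5).mul (Joined.refl u)
  refine ⟨x, rfl, ?_⟩
  simpa [mul_assoc, Unitary.star_eq_inv] using h6

/-- joined to `1` inside a subalgebra -/
def JC (N : StarSubalgebra ℂ E) (x : E) : Prop :=
  ∃ u : unitary N, ((u : N) : E) = x ∧ Joined 1 u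

theorem JC.mul {N : StarSubalgebra ℂ E} {x y : E} (hx : JC N x) (hy : JC N y) : JC N (x * y) := by
  obtain ⟨u, rfl, hu⟩ := hx
  obtain ⟨v, rfl, hv⟩ := hy
  exact ⟨u * v, rfl, by simpa using hu.mul hv⟩

theorem JC.star {N : StarSubalgebra ℂ E} {x : E} (hx : JC N x) : JC N (star x) := by
  obtain ⟨u, rfl, hu⟩ := hx
  exact ⟨u⁻¹, rfl, by simpa using hu.inv⟩

theorem JC.path {N : StarSubalgebra ℂ E} {x : E} (hx : JC N x) : ∃ y : I → E, Continuous y ∧
    y 0 = 1 ∧ y 1 = x ∧ ∀ t, y t ∈ unitary E ∧ y t ∈ N := by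
  obtain ⟨u, rfl, ⟨γ⟩⟩ := hx
  exact ⟨fun t => ((γ t : N) : E), by fun_prop, by simp, by simp,
    fun t => ⟨Unitary.map_mem N.subtype (γ t).2, (γ t).1.2⟩⟩

theorem Units.lift {N : StarSubalgebra ℂ E} (h : Units 1 e) (hN : ∀ i j, e i j ∈ N) :
    Units (1 : N) fun i j => ⟨e i j, hN i j⟩ where
  mul i j k l := Subtype.ext (by
    change e i j * e k l = _
    rw [h.mul]; split_ifs <;> rfl)
  star i j := Subtype.ext (h.star i j)
  sum := Subtype.ext (by simpa using h.sum)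

theorem jc_theta {N : StarSubalgebra ℂ E} [IsClosed (N : Set E)] {e2 : κ → κ → E}
    {γ : B' →⋆ₐ[ℂ] E} {μ : B →⋆ₐ[ℂ] B'} (h : Units 1 e)
    (h2 : Units 1 e2) (hc : ∀ b i j, Commute (γ b) (e i j))
    (hc2 : ∀ b i j, Commute (γ b) (e2 i j)) (hee : ∀ i j k l, Commute (e i j) (e2 k l))
    (n1 : ∀ i j, e i j ∈ N) (n2 : ∀ i j, e2 i j ∈ N) (n3 : ∀ b, γ b ∈ N)
    {X : Matrix ι ι B} (hX : X ∈ unitary (Matrix ι ι B)) {Ω : Matrix κ κ B'}
    (hΩ : Ω ∈ unitary (Matrix κ κ B')) (φ : B →⋆ₐ[ℂ] Matrix κ κ ℂ) {ε : ℝ}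
    (H : ∀ i j, ‖toMC (Ω * Matrix.diagonal (fun _ => μ (X i j)) * star Ω
      - (φ (X i j)).map (algebraMap ℂ B'))‖ ≤ ε) (hε : Fintype.card ι ^ 2 * ε < 2) :
    JC N (theta (γ.comp μ) e X) := by
  obtain ⟨u, h3, h4⟩ := joined_theta (γ := γ.codRestrict N n3) (h.lift n1) (h2.lift n2)
    (fun b i j => Subtype.ext (hc b i j)) (fun b i j => Subtype.ext (hc2 b i j))
    (fun i j k l => Subtype.ext (hee i j k l)) hX hΩ φ H hε
  exact ⟨u, by simp [h3, theta_apply], h4⟩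

theorem exists_path {N : StarSubalgebra ℂ E} {y Ω : E} (hy : JC N y) (hΩ : Ω ∈ unitary E) {η : ℝ}
    (hη : η < 2) (h : Ap η y Ω Ω) : ∃ Z : I → E, Continuous Z ∧ Z 0 = 1 ∧ Z 1 = y ∧
      (∀ t, Z t ∈ unitary E) ∧ ∀ t x n ε, Ap ε Ω x n → (∀ s ∈ N, Commute s n) →
        Ap (2 * η * ‖x‖ + 2 * ε) (Z t) x x := by
  obtain ⟨y, h1, h2, rfl, h3⟩ := hy.path
  let c : unitary E := ⟨y 1 * star (star Ω * y 1 * Ω), mul_mem (h3 1).1
    (Unitary.star_mem (mul_mem (mul_mem (Unitary.star_mem hΩ) (h3 1).1) hΩ))⟩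
  have hc : ‖(c : E) - 1‖ ≤ η := by
    have : (c : E) - 1 = star (y 1 * Ω * star (y 1) - Ω) * (y 1 * star (y 1) * Ω)
        + (y 1 * star Ω * star (y 1) * (1 - y 1 * star (y 1)) * Ω
          + star Ω * (y 1 * star (y 1) - 1) * Ω + (star Ω * Ω - 1)) := by
      simp only [c, star_mul, star_sub, star_star]
      noncomm_ring
    rw [this, (h3 1).1.2, hΩ.1]
    simpa [CStarRing.norm_mul_mem_unitary _ hΩ, -star_sub, -star_mul, Ap] using h
  let p := Unitary.path 1 c (hc.trans_lt hη)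
  have hp : ∀ t, ‖(p t : E) - 1‖ ≤ η := fun t => by
    simpa [p] using (Unitary.norm_expUnitary_smul_argSelfAdjoint_sub_one_le c t.2
      (hc.trans_lt hη)).trans hc
  refine ⟨fun t => p t * (star Ω * (y t * Ω)), by fun_prop, by simp [h2, hΩ.1], ?_,
    fun t => mul_mem (p t).2 (mul_mem (Unitary.star_mem hΩ) (mul_mem (h3 t).1 hΩ)),
    fun t x n ε h4 h5 => ?_⟩
  · have := (mul_mem (mul_mem (Unitary.star_mem hΩ) (h3 1).1) hΩ).1
    simp only [p.target, c]
    rw [mul_assoc, ← mul_assoc (star Ω), this, mul_one]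
  · exact ((Ap.near (p t).2 (hp t) x).mul (p t).2 ((h4.star hΩ).mul (Unitary.star_mem hΩ)
      ((Ap.of_commute (h3 t).1 (h5 _ (h3 t).2)).mul (h3 t).1 h4))).mono (by linarith)

theorem Units.split {a b : ℕ} {g : Fin (a * b) → Fin (a * b) → E} (h : Units 1 g) :
    ∃ (e : Fin a → Fin a → E) (f : Fin b → Fin b → E), Units 1 e ∧ Units 1 f ∧
      (∀ i j k l, Commute (e i j) (f k l)) ∧
      (∀ x, (∀ i j, Commute x (g i j)) → (∀ i j, Commute x (e i j)) ∧ ∀ i j, Commute x (f i j)) ∧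
      ∀ S : StarSubalgebra ℂ E, (∀ i j, g i j ∈ S) → (∀ i j, e i j ∈ S) ∧ ∀ i j, f i j ∈ S :=
  have h' := h.reindex finProdFinEquiv
  ⟨_, _, h'.left, h'.right, h'.left_right, fun _ hx =>
    ⟨fun _ _ => Commute.sum_right _ _ _ fun _ _ => hx _ _,
      fun _ _ => Commute.sum_right _ _ _ fun _ _ => hx _ _⟩, fun _ hS =>
    ⟨fun _ _ => sum_mem fun _ _ => hS _ _, fun _ _ => sum_mem fun _ _ => hS _ _⟩⟩

theorem mem_centralizer_units {a x : E} (h : Units a e) :
    x ∈ StarSubalgebra.centralizer ℂ (Set.range fun p : ι × ι => e p.1 p.2) ↔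
      ∀ i j, Commute x (e i j) := by
  simp only [StarSubalgebra.mem_centralizer_iff, Set.forall_mem_range, h.star, Prod.forall]
  exact ⟨fun H i j => (H i j).1.symm, fun H i j => ⟨(H i j).symm, (H j i).symm⟩⟩

end Vale.Agent.P101
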