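import Vale.Agent.P101.OscAux

/-! A Jiang-Su sequence has the property `HP`. -/

namespace Vale.Agent.P101

open scoped Kronecker Matrix

theorem IsDimDrop.continuous {p q : ℕ} {B : Type} [CStarAlgebra B]
    {ev : unitInterval → (B →⋆ₐ[ℂ] Mat p q)} (h : IsDimDrop p q ev) (b : B) :
    Continuous fun t => ev t b := ((h.2 _).1 ⟨b, fun _ => rfl⟩).1

theorem IsDimDrop.exists_hom {p q : ℕ} {B : Type} [CStarAlgebra B]
    {ev : unitInterval → (B →⋆ₐ[ℂ] Mat p q)} (h : IsDimDrop p q ev) :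
    ∃ j : B →⋆ₐ[ℂ] C(unitInterval, MC (Fin p × Fin q) ℂ),
      Function.Injective j ∧ ∀ b t, j b t = toMC (ev t b) := by
  obtain ⟨j, hj⟩ := osc_path (fun t => toMCh.comp (ev t))
    fun b => continuous_toMC.comp (h.continuous b)
  refine ⟨j, (injective_iff_map_eq_zero j).2 fun b hb => h.1 b fun t => ?_, hj⟩
  have h1 := hj b t
  rw [hb] at h1
  exact (map_eq_zero_iff toMC toMC.injective).1 h1.symm

theorem IsDimDrop.separable {p q : ℕ} {B : Type} [CStarAlgebra B]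
    {ev : unitInterval → (B →⋆ₐ[ℂ] Mat p q)} (h : IsDimDrop p q ev) :
    TopologicalSpace.SeparableSpace B := by
  obtain ⟨j, hj, -⟩ := h.exists_hom
  have h0 : SecondCountableTopology (Mat p q) :=
    inferInstanceAs (SecondCountableTopology (Fin p × Fin q → Fin p × Fin q → ℂ))
  have h1 : TopologicalSpace.SeparableSpace (MC (Fin p × Fin q) ℂ) :=
    toMC.surjective.denseRange.separableSpace continuous_toMC
  have h2 : SecondCountableTopology (MC (Fin p × Fin q) ℂ) :=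
    UniformSpace.secondCountable_of_separable _
  have h3 := (NonUnitalStarAlgHom.isometry j hj).isEmbedding.secondCountableTopology
  infer_instance

section

variable {p q : ℕ} {A B : Type} [CStarAlgebra A] [CStarAlgebra B]

/-- after a unitary change of frame the images of the elements of `F` are almost constant -/
def OscFlat (ev : unitInterval → (B →⋆ₐ[ℂ] Mat p q)) (μ : A →⋆ₐ[ℂ] B) (F : Finset A) (ε : ℝ) :
    Prop :=
  ∃ w : unitInterval → Mat p q, Continuous w ∧ (∀ t, w t ∈ unitary (Mat p q)) ∧ ∀ f ∈ F, ∀ s t,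
    ‖toMC (w t * ev t (μ f) * star (w t) - w s * ev s (μ f) * star (w s))‖ ≤ ε

theorem osc_swap {ev : unitInterval → (B →⋆ₐ[ℂ] Mat p q)} (h : IsDimDrop p q ev) :
    ∃ ev' : unitInterval → (B →⋆ₐ[ℂ] Mat q p), IsDimDrop q p ev' ∧
      ∀ (μ : A →⋆ₐ[ℂ] B) F ε, OscFlat ev μ F ε → OscFlat ev' μ F ε := by
  refine ⟨fun t => (oscSwap _ _).comp (ev (unitInterval.symm t)), ⟨fun b hb => h.1 b fun t => ?_,
    fun f => ⟨?_, ?_⟩⟩, ?_⟩
  · have h1 := congrArg (oscSwap _ _) (hb (unitInterval.symm t))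
    rwa [StarAlgHom.comp_apply, oscSwap_swap, unitInterval.symm_symm, map_zero] at h1
  · rintro ⟨b, hb⟩
    obtain ⟨h1, ⟨x, hx⟩, y, hy⟩ := (h.2 _).1 ⟨b, fun _ => rfl⟩
    obtain rfl : (fun t => oscSwap _ _ (ev (unitInterval.symm t) b)) = f := funext hb
    refine ⟨continuous_oscSwap.comp (h1.comp unitInterval.continuous_symm), ⟨y, ?_⟩, x, ?_⟩
    · simp only [unitInterval.symm_zero, hy, oscSwap_kron]
    · simp only [unitInterval.symm_one, hx, oscSwap_kron]
  · rintro ⟨h1, ⟨x, hx⟩, y, hy⟩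
    obtain ⟨b, hb⟩ := (h.2 fun t => oscSwap _ _ (f (unitInterval.symm t))).2
      ⟨continuous_oscSwap.comp (h1.comp unitInterval.continuous_symm),
        ⟨y, by simp only [unitInterval.symm_zero, hy, oscSwap_kron]⟩,
        x, by simp only [unitInterval.symm_one, hx, oscSwap_kron]⟩
    exact ⟨b, fun t => by rw [StarAlgHom.comp_apply, hb, oscSwap_swap, unitInterval.symm_symm]⟩
  · rintro μ F ε ⟨w, hw, hu, H⟩
    refine ⟨fun t => oscSwap _ _ (w (unitInterval.symm t)),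
      continuous_oscSwap.comp (hw.comp unitInterval.continuous_symm),
      fun t => Unitary.map_mem _ (hu _), fun f hf s t => ?_⟩
    simp only [StarAlgHom.comp_apply, ← map_star, ← map_mul, ← map_sub, norm_oscSwap]
    exact H f hf _ _

theorem osc_hd {ev : unitInterval → (B →⋆ₐ[ℂ] Mat p q)} (h : IsDimDrop p q ev) (hq : 0 < q)
    {μ : A →⋆ₐ[ℂ] B} {F : Finset A} {ε : ℝ} (hε : 0 ≤ ε) (H : OscFlat ev μ F ε) :
    HD μ p F (2 * ε) := by
  obtain ⟨w, hw, hu, H⟩ := H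
  have : Nonempty (Fin q) := ⟨⟨0, hq⟩⟩
  obtain ⟨φ, hφ⟩ := osc_left_hom (ev 0) fun b => ((h.2 _).1 ⟨b, fun _ => rfl⟩).2.1
  obtain ⟨a, b, ha, hb, a0, b0, a1, b1, hG⟩ := osc_rot (oscFlip_star (ι := Fin p) (κ := Fin q))
    oscFlip_sq
  obtain ⟨Φ, hΦ⟩ : ∃ Φ, Φ = oscFlip (Fin p) (Fin q) := ⟨_, rfl⟩
  obtain ⟨D, hD⟩ : ∃ D, D = (oscDiag (Fin p) : Mat p q →⋆ₐ[ℂ] _) := ⟨_, rfl⟩
  have hΦu : Φ ∈ unitary _ := by
    rw [Unitary.mem_iff, hΦ, oscFlip_star]
    exact ⟨oscFlip_sq, oscFlip_sq⟩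
  have hDu : ∀ t, D (w t) ∈ unitary _ := fun t => Unitary.map_mem D (hu t)
  have hDc : Continuous D := by
    rw [hD]
    exact Continuous.matrix_diagonal (continuous_pi fun _ => continuous_id)
  rw [← hΦ] at hG
  obtain ⟨V, hV⟩ : ∃ V : unitInterval → Matrix (Fin p) (Fin p) (Mat p q), ∀ t, V t =
      Φ * (star (D (w 0)) * D (w 1)) * (a t • 1 + b t • Φ) * (star (D (w 1)) * D (w t)) :=
    ⟨_, fun _ => rfl⟩
  have hVc : Continuous V := by
    rw [funext hV]
    exact (continuous_const.matrix_mul ((ha.smul continuous_const).add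
      (hb.smul continuous_const))).matrix_mul (continuous_const.matrix_mul (hDc.comp hw))
  have hVu : ∀ t, V t ∈ unitary _ := fun t => by
    rw [hV]
    exact mul_mem (mul_mem (mul_mem hΦu (mul_mem (Unitary.star_mem (hDu 0)) (hDu 1))) (hG t))
      (mul_mem (Unitary.star_mem (hDu 1)) (hDu t))
  have hV0 : V 0 = Φ := by
    rw [hV, a0, b0, one_smul, zero_smul, add_zero, mul_one, mul_assoc, mul_assoc,
      ← mul_assoc (D (w 1)), Unitary.mul_star_self_of_mem (hDu 1), one_mul,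
      Unitary.star_mul_self_of_mem (hDu 0), mul_one]
  have hV1 : V 1 = Φ * D (star (w 0) * w 1) * Φ := by
    rw [hV, a1, b1, one_smul, zero_smul, zero_add, Unitary.star_mul_self_of_mem (hDu 1), mul_one,
      map_mul, map_star]
  choose W hW using fun i j => (h.2 fun t => V t i j).2
    ⟨hVc.matrix_elem i j, ⟨_, by rw [hV0, hΦ, oscFlip]⟩, _, by rw [hV1, hΦ, hD, oscFlip_conj]⟩
  have hWV : ∀ t, oscMap (Fin p) (ev t) (Matrix.of W) = V t := fun t => by
    ext i j : 1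
    exact hW i j t
  have inj : ∀ X : Matrix (Fin p) (Fin p) B, (∀ t, oscMap (Fin p) (ev t) X = 0) → X = 0 :=
    fun X hX => by
      ext i j
      exact h.1 _ fun t => congrFun (congrFun (hX t) i) j
  obtain ⟨Θ, hΘ⟩ : ∃ Θ : Matrix (Fin p) (Fin p) (Mat p q) →⋆ₐ[ℂ] MC (Fin p) (MC (Fin p × Fin q) ℂ),
      Θ = toMCh.comp (oscMap (Fin p) toMCh) := ⟨_, rfl⟩
  have hΘi : Function.Injective Θ := by
    rw [hΘ]
    refine toMC.injective.comp fun X Y hXY => ?_
    ext i j : 1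
    exact toMC.injective (congrFun (congrFun hXY i) j)
  obtain ⟨k, hk⟩ := osc_path (fun t => Θ.comp (oscMap (Fin p) (ev t))) fun X => by
    rw [hΘ]
    exact continuous_toMC.comp (continuous_matrix fun i j =>
      continuous_toMC.comp (h.continuous (X i j)))
  have hki : Function.Injective k := (injective_iff_map_eq_zero k).2 fun X hX => inj X fun t => by
    have h1 := hk X t
    rw [hX] at h1
    exact (map_eq_zero_iff Θ hΘi).1 h1.symm
  refine ⟨Matrix.of W, φ.comp μ, ?_, fun f hf => ?_⟩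
  · rw [Unitary.mem_iff]
    constructor <;> refine sub_eq_zero.1 (inj _ fun t => ?_) <;>
      rw [map_sub, map_mul, map_star, map_one, hWV, sub_eq_zero]
    exacts [Unitary.star_mul_self_of_mem (hVu t), Unitary.mul_star_self_of_mem (hVu t)]
  rw [← norm_map_eq_toMC k hki, ContinuousMap.norm_le _ (by positivity)]
  intro t
  have h1 : oscMap (Fin p) (ev t) (Matrix.diagonal fun _ => μ f) = D (ev t (μ f)) := by
    rw [hD]
    exact Matrix.diagonal_map (map_zero _)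
  have h2 : oscMap (Fin p) (ev t) (((φ.comp μ) f).map (algebraMap ℂ B)) =
      Φ * D (ev 0 (μ f)) * star Φ := by
    rw [hΦ, hD, oscFlip_star, hφ, oscFlip_left]
    ext i j : 1
    exact (ev t).commutes _
  have h3 : ∀ s t, ‖Θ (D (w t) * D (ev t (μ f)) * star (D (w t)) -
      D (w s) * D (ev s (μ f)) * star (D (w s)))‖ ≤ ε := fun s t => by
    simp only [← map_star, ← map_mul, ← map_sub]
    exact (norm_map_le_toMC (Θ.comp D) _).trans (H f hf s t)
  rw [hk, StarAlgHom.comp_apply, map_sub, map_mul, map_mul, map_star, hWV, h1, h2, hV]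
  refine osc_est Θ hΦu (hG t) (hDu 0) (hDu 1) ?_ (h3 1 t) (h3 0 1)
  obtain ⟨y, hy⟩ := ((h.2 _).1 ⟨μ f, fun _ => rfl⟩).2.2
  rw [add_mul, mul_add, smul_mul_assoc, smul_mul_assoc, mul_smul_comm, mul_smul_comm, one_mul,
    mul_one, hy, hΦ, hD, oscFlip_right]

/-- the oscillation of the image is controlled by the oscillation at scale `2 ^ (-d)` -/
def OscInv {p' q' : ℕ} (ev : unitInterval → (A →⋆ₐ[ℂ] Mat p q))
    (ev' : unitInterval → (B →⋆ₐ[ℂ] Mat p' q')) (μ : A →⋆ₐ[ℂ] B) (d : ℕ) : Prop :=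
  ∃ w : unitInterval → Mat p' q', Continuous w ∧ (∀ t, w t ∈ unitary (Mat p' q')) ∧
    ∀ (f : A) (s t : unitInterval) (ε : ℝ),
      (∀ x y, dist x y ≤ dist s t * (1 / 2) ^ d → ‖toMC (ev x f - ev y f)‖ ≤ ε) →
      ‖toMC (w t * ev' t (μ f) * star (w t) - w s * ev' s (μ f) * star (w s))‖ ≤ ε

theorem OscInv.step {p' q' p'' q'' : ℕ} {C : Type} [CStarAlgebra C]
    {ev : unitInterval → (A →⋆ₐ[ℂ] Mat p q)} {ev' : unitInterval → (B →⋆ₐ[ℂ] Mat p' q')}
    {ev'' : unitInterval → (C →⋆ₐ[ℂ] Mat p'' q'')} {μ : A →⋆ₐ[ℂ] B} {φ : B →⋆ₐ[ℂ] C} {d : ℕ}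
    (h : OscInv ev ev' μ d) (hφ : IsStdMap ev' ev'' φ) : OscInv ev ev'' (φ.comp μ) (d + 1) := by
  obtain ⟨w, hw, hu, H⟩ := h
  obtain ⟨k, ξ, u, hξ, huc, u1, u2, hev⟩ := hφ
  have hξc : ∀ i, Continuous (ξ i) := fun i =>
    (LipschitzWith.mk_one fun x y => (hξ i x y).trans (half_le_self dist_nonneg)).continuous
  have key : ∀ t (x : Fin k → Mat p' q'),
      (u 0)ᴴ * Matrix.blockDiagonal (fun i => w (ξ i t)) * u t *
        ((u t)ᴴ * Matrix.blockDiagonal x * u t) *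
        star ((u 0)ᴴ * Matrix.blockDiagonal (fun i => w (ξ i t)) * u t) =
      (u 0)ᴴ * Matrix.blockDiagonal (fun i => w (ξ i t) * x i * star (w (ξ i t))) * u 0 := by
    intro t x
    have c : ∀ X : Matrix ((Fin p' × Fin q') × Fin k) (Fin p'' × Fin q'') ℂ,
        u t * ((u t)ᴴ * X) = X := fun X => by rw [← Matrix.mul_assoc, u2, Matrix.one_mul]
    simp only [Matrix.star_eq_conjTranspose, Matrix.conjTranspose_mul,
      Matrix.conjTranspose_conjTranspose, Matrix.blockDiagonal_mul,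
      Matrix.blockDiagonal_conjTranspose, Matrix.mul_assoc, c]
  refine ⟨fun t => (u 0)ᴴ * Matrix.blockDiagonal (fun i => w (ξ i t)) * u t,
    (continuous_const.matrix_mul (continuous_pi fun i =>
      hw.comp (hξc i)).matrix_blockDiagonal).matrix_mul huc, fun t => ?_, fun f s t ε hε => ?_⟩
  · have h1 := key t 1
    simp only [Matrix.blockDiagonal_one, Matrix.mul_one, u1, Pi.one_apply,
      Unitary.mul_star_self_of_mem (hu _)] at h1
    refine Matrix.mem_unitaryGroup_iff.2 (h1.trans ?_)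
    rw [← u1 0]
    exact congrArg (· * u 0) ((congrArg _ Matrix.blockDiagonal_one).trans (Matrix.mul_one _))
  · rw [StarAlgHom.comp_apply, hev, hev, key, key, ← Matrix.sub_mul, ← Matrix.mul_sub,
      ← Matrix.blockDiagonal_sub]
    refine osc_block _ (u2 0) _ ((norm_nonneg _).trans (hε s s ?_)) fun i =>
      H f _ _ ε fun x y hxy => hε x y (hxy.trans ?_)
    · rw [dist_self]
      positivity
    · rw [pow_succ', ← mul_assoc]
      exact mul_le_mul_of_nonneg_right ((hξ i s t).trans_eq (by ring)) (by positivity)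

end

theorem hp_of_std {Z : Type} [CStarAlgebra Z] (p q : ℕ → ℕ) (B : ℕ → Type)
    [∀ n, CStarAlgebra (B n)] (ev : ∀ n, unitInterval → (B n →⋆ₐ[ℂ] Mat (p n) (q n)))
    (φ : ∀ n, B n →⋆ₐ[ℂ] B (n + 1)) (ι : ∀ n, B n →⋆ₐ[ℂ] Z)
    (hpos : ∀ n, 0 < p n ∧ 0 < q n) (hdiv : ∀ n, p n ∣ p (n + 1) ∧ q n ∣ q (n + 1))
    (hdd : ∀ n, IsDimDrop (p n) (q n) (ev n)) (hstd : ∀ n, IsStdMap (ev n) (ev (n + 1)) (φ n))
    (hι : ∀ n b, ι (n + 1) (φ n b) = ι n b) : HP p q B ι := by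
  intro m F ε hε
  have h1 : ∀ d, ∃ (n : ℕ) (μ : B m →⋆ₐ[ℂ] B n), (∀ b, ι n (μ b) = ι m b) ∧ p m ∣ p n ∧
      q m ∣ q n ∧ OscInv (ev m) (ev n) μ d := fun d => by
    induction d with
    | zero =>
      refine ⟨m, StarAlgHom.id ℂ _, fun _ => rfl, dvd_rfl, dvd_rfl, fun _ => 1, continuous_const,
        fun _ => one_mem _, fun f s t ε h => ?_⟩
      simpa using h t s (by simp [dist_comm])
    | succ d ih =>
      obtain ⟨n, μ, h1, h2, h3, h4⟩ := ih
      exact ⟨n + 1, (φ n).comp μ, fun b => (hι n _).trans (h1 b), h2.trans (hdiv n).1,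
        h3.trans (hdiv n).2, h4.step (hstd n)⟩
  have h2 : ∀ f ∈ F, ∀ᶠ d : ℕ in Filter.atTop, ∀ x y : unitInterval, dist x y ≤ (1 / 2) ^ d →
      ‖toMC (ev m x f - ev m y f)‖ ≤ ε / 2 := fun f _ => by
    obtain ⟨δ, hδ, h⟩ := Metric.uniformContinuous_iff.1 (CompactSpace.uniformContinuous_of_continuous
      (continuous_toMC.comp ((hdd m).continuous f))) _ (half_pos hε)
    filter_upwards [(tendsto_pow_atTop_nhds_zero_of_lt_one (r := (1 / 2 : ℝ)) (by norm_num)
      (by norm_num)).eventually_lt_const hδ] with d hd x y hxy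
    rw [map_sub, ← dist_eq_norm]
    exact (h (hxy.trans_lt hd)).le
  obtain ⟨d, hd⟩ := ((Filter.eventually_all_finset F).2 h2).exists
  obtain ⟨n, μ, h3, h4, h5, w, hw, hu, H⟩ := h1 d
  have h6 : OscFlat (ev n) μ F (ε / 2) := ⟨w, hw, hu, fun f hf s t => H f s t _ fun x y hxy =>
    hd f hf x y (hxy.trans (mul_le_of_le_one_left (by positivity)
      ((Real.dist_le_of_mem_Icc s.2 t.2).trans_eq (sub_zero 1))))⟩
  obtain ⟨ev', h7, h8⟩ := osc_swap (A := B m) (hdd n)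
  refine ⟨n, μ, h3, h4, h5, ?_, ?_⟩
  · simpa [mul_div_cancel₀] using osc_hd (hdd n) (hpos n).2 (half_pos hε).le h6
  · simpa [mul_div_cancel₀] using osc_hd h7 (hpos n).1 (half_pos hε).le (h8 _ _ _ h6)

end Vale.Agent.P101
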