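import Vale.Agent.P101.Ideal
import Vale.Agent.P101.Osc
import Vale.Agent.P101.HalfAux
import Vale.Agent.P101.Spatial

/-! The Jiang-Su algebra is simple and infinite dimensional.

Simplicity.  A proper ideal is killed by a state (Hahn-Banach in the quotient normed space), hence by
its GNS representation, a unital homomorphism into a nontrivial C*-algebra.  Every such homomorphism
of `Z` is isometric: by `HP`, the norm of the image of `ι m f` is within `ε` of the norm of `φ f`,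
which does not depend on the homomorphism.
Infinite dimension: the element `t ↦ t • 1` of `B 0` satisfies no polynomial equation. -/

namespace Vale.Agent.P101

variable {Z : Type} [CStarAlgebra Z]

section sim_aux

open scoped ComplexOrder

theorem sim_hom {J : Set Z} (hJ : PI J) : ∃ (E : Type) (_ : CStarAlgebra E) (_ : Nontrivial E)
    (ψ : Z →⋆ₐ[ℂ] E), ∀ y ∈ J, ψ y = 0 := by
  let _ := CStarAlgebra.spectralOrder Z
  have _ := CStarAlgebra.spectralOrderedRing Z
  have : Nontrivial Z := ⟨⟨0, 1, fun h => hJ.one (h ▸ hJ.zero)⟩⟩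
  let S : Submodule ℂ Z :=
    { carrier := J
      add_mem' := hJ.add
      zero_mem' := hJ.zero
      smul_mem' := fun c _ hx => hJ.smul c hx }
  obtain ⟨g, h1, h2⟩ := exists_dual_vector'' ℂ (Submodule.Quotient.mk (p := S) 1)
  have h3 : ‖Submodule.Quotient.mk (p := S) (1 : Z)‖ = 1 := by
    refine le_antisymm ((Submodule.Quotient.norm_mk_le S 1).trans_eq norm_one) ?_
    refine le_of_forall_pos_lt_add fun ε hε => ?_
    obtain ⟨m, hm, h4⟩ := Submodule.Quotient.norm_mk_lt (Submodule.Quotient.mk (p := S) (1 : Z)) hε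
    have h5 := hJ.not_near (x := 1 - m) ((Submodule.Quotient.eq S).1 hm.symm)
    rw [sub_sub_cancel] at h5
    exact h5.trans_lt h4
  have hb : ∀ x : Z, ‖(g.toLinearMap ∘ₗ S.mkQ) x‖ ≤ 1 * ‖x‖ := fun x =>
    (g.le_opNorm _).trans (mul_le_mul h1 (Submodule.Quotient.norm_mk_le S x) (norm_nonneg _)
      zero_le_one)
  let φ : Z →L[ℂ] ℂ := (g.toLinearMap ∘ₗ S.mkQ).mkContinuous 1 hb
  have hφ1 : φ 1 = 1 := by
    change g (Submodule.Quotient.mk 1) = 1
    rw [h2, h3]; simp
  have hφJ : ∀ y ∈ J, φ y = 0 := fun y hy => by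
    change g (Submodule.Quotient.mk y) = 0
    rw [(Submodule.Quotient.mk_eq_zero S).2 hy, map_zero]
  let f : Z →ₚ[ℂ] ℂ := PositiveLinearMap.mk₀ φ.toLinearMap
    (spa_pos φ (fun x => (hb x).trans_eq (one_mul _)) hφ1)
  have hξ : ‖((f.toPreGNS 1 : f.PreGNS) : f.GNS)‖ = 1 := by
    rw [UniformSpace.Completion.norm_coe, f.preGNS_norm_def]
    have : f 1 = 1 := hφ1
    simp [this]
  have hH : Nontrivial f.GNS := 
    ⟨⟨(f.toPreGNS 1 : f.PreGNS), 0, fun h => by rw [h, norm_zero] at hξ; exact zero_ne_one hξ⟩⟩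
  refine ⟨f.GNS →L[ℂ] f.GNS, inferInstance, inferInstance, f.gnsStarAlgHom, fun y hy => ?_⟩
  ext c
  induction c using UniformSpace.Completion.induction_on with
  | hp => apply isClosed_eq <;> fun_prop
  | ih c =>
    have h4 : f.gnsStarAlgHom y c = (f.toPreGNS (y * f.ofPreGNS c) : f.PreGNS) := by
      simp [PositiveLinearMap.gnsStarAlgHom]
    rw [h4, zero_apply, ← norm_eq_zero, UniformSpace.Completion.norm_coe, f.preGNS_norm_def]
    have h5 : f (star (y * f.ofPreGNS c) * (y * f.ofPreGNS c)) = 0 :=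
      hφJ _ (hJ.ml _ (hJ.mr _ hy))
    rw [PositiveLinearMap.ofPreGNS_toPreGNS, h5]
    simp

end sim_aux

theorem sim_norm {B E : Type} [CStarAlgebra B] [CStarAlgebra E] [Nontrivial E] {r : ℕ}
    (hr : 0 < r) (θ : B →⋆ₐ[ℂ] E) {W : Matrix (Fin r) (Fin r) B}
    (hW : W ∈ unitary (Matrix (Fin r) (Fin r) B)) {x : B} {y : Matrix (Fin r) (Fin r) ℂ} {ε : ℝ}
    (H : ‖toMC (W * Matrix.diagonal (fun _ => x) * star W - y.map (algebraMap ℂ B))‖ ≤ ε) :
    |‖θ x‖ - ‖toMC y‖| ≤ ε := by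
  let Θ := toMCh.comp (oscMap (Fin r) θ)
  have h1 := (norm_map_le_toMC Θ _).trans H
  rw [map_sub, map_mul, map_mul, map_star] at h1
  refine le_trans (le_of_eq ?_) ((abs_norm_sub_norm_le _ _).trans h1)
  rw [norm_conj (Unitary.map_mem Θ hW)]
  have h2 : Θ (Matrix.diagonal fun _ => x) = (toMCh.comp (oscDiag (Fin r))) (θ x) :=
    congrArg toMC (Matrix.diagonal_map (map_zero θ))
  have h3 : Θ (y.map (algebraMap ℂ B)) = (toMCh.comp (oscMap (Fin r) (StarAlgHom.ofId ℂ E))) y := by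
    refine congrArg toMC ?_
    ext i j
    exact θ.commutes _
  rw [h2, h3, NonUnitalStarAlgHom.norm_map (toMCh.comp (oscDiag (A := E) (Fin r))),
    norm_map_eq_toMC]
  · intro a b hab
    ext i j
    exact (algebraMap ℂ E).injective (congrFun (congrFun (toMC.injective hab) i) j)
  · intro a b hab
    have := congrFun (congrFun (toMC.injective hab) ⟨0, hr⟩) ⟨0, hr⟩
    simpa [oscDiag_apply] using this

theorem IsJiangSu.norm_map (h : IsJiangSu Z) {E : Type} [CStarAlgebra E] [Nontrivial E]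
    (ψ : Z →⋆ₐ[ℂ] E) (z : Z) : ‖ψ z‖ = ‖z‖ := by
  obtain ⟨p, q, B, _, ev, φ, ι, h1, h2, h3, -, h5, h6⟩ := h
  have hp := hp_of_std p q B ev φ ι (fun n => ⟨by linarith [(h1 n).1], by linarith [(h1 n).2.1]⟩)
    (fun n => (h1 n).2.2.2) h2 (fun n => (h3 n).2) h5
  have : Nontrivial Z := (ψ : Z →+* E).domain_nontrivial
  refine h6.induction (P := fun z => ‖ψ z‖ = ‖z‖) ?_
    (isClosed_eq (hom_continuous ψ).norm continuous_norm) z
  intro z hz
  obtain ⟨m, f, rfl⟩ := Set.mem_iUnion.1 hz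
  refine eq_of_forall_dist_le fun ε hε => ?_
  obtain ⟨n, μ, h7, -, -, ⟨W, φ', hW, H⟩, -⟩ := hp m {f} (ε / 2) (half_pos hε)
  have hr : 0 < p n := by linarith [(h1 n).1]
  have a1 := abs_le.1 (sim_norm hr (ι n) hW (H f (Finset.mem_singleton_self f)))
  have a2 := abs_le.1 (sim_norm hr (ψ.comp (ι n)) hW (H f (Finset.mem_singleton_self f)))
  rw [StarAlgHom.comp_apply] at a2
  rw [h7] at a1 a2
  rw [Real.dist_eq, abs_le]
  constructor <;> linarith [a1.1, a1.2, a2.1, a2.2]

theorem IsJiangSu.not_finite (h : IsJiangSu Z) : ¬ FiniteDimensional ℂ Z := by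
  obtain ⟨p, q, B, _, ev, φ, ι, h1, h2, -, h4, -, -⟩ := h
  intro hf
  have : Nonempty (Fin (p 0) × Fin (q 0)) :=
    ⟨(⟨0, by linarith [(h1 0).1]⟩, ⟨0, by linarith [(h1 0).2.1]⟩)⟩
  obtain ⟨b, hb⟩ := ((h2 0).2 fun t => ((t : ℝ) : ℂ) • 1).2
    ⟨by fun_prop, ⟨0, by simp⟩, ⟨1, by simp⟩⟩
  obtain ⟨P, hP, h5⟩ := IsIntegral.of_finite ℂ (ι 0 b)
  have h6 : Polynomial.aeval b P = 0 := by
    refine (map_eq_zero_iff (ι 0) (h4 0)).1 ?_
    exact (Polynomial.aeval_algHom_apply (ι 0) b P).symm.trans h5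
  refine hP.ne_zero (P.eq_zero_of_infinite_isRoot ?_)
  have h7 : Function.Injective fun t : unitInterval => ((t : ℝ) : ℂ) :=
    Complex.ofReal_injective.comp Subtype.val_injective
  have : Infinite unitInterval := (Set.Icc_infinite (zero_lt_one' ℝ)).to_subtype
  refine (Set.infinite_range_of_injective h7).mono ?_
  rintro _ ⟨t, rfl⟩
  have h8 := Polynomial.aeval_algHom_apply (ev 0 t) b P
  rw [h6, map_zero, hb, ← Algebra.algebraMap_eq_smul_one,
    Polynomial.aeval_algebraMap_apply_eq_algebraMap_eval] at h8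
  exact (map_eq_zero_iff _ (algebraMap ℂ _).injective).1 h8

theorem IsJiangSu.isSimpleRing (h : IsJiangSu Z) : IsSimpleRing Z := by
  have : Nontrivial Z := by
    by_contra hn
    rw [not_nontrivial_iff_subsingleton] at hn
    exact h.not_finite inferInstance
  refine IsSimpleRing.of_eq_bot_or_eq_top fun I => ?_
  by_cases h1 : (1 : Z) ∈ I
  · exact Or.inr (I.one_mem_iff.1 h1)
  · obtain ⟨E, _, _, ψ, hψ⟩ := sim_hom (J := (I : Set Z)) ⟨I.zero_mem, I.add_mem,
      fun x _ hy => I.mul_mem_left x _ hy, fun y hx => I.mul_mem_right _ y hx, h1⟩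
    refine Or.inl (eq_bot_iff.2 fun y hy => ?_)
    rw [TwoSidedIdeal.mem_bot, ← norm_eq_zero, ← h.norm_map ψ, hψ y hy, norm_zero]

theorem IsJiangSu.not_finiteDimensional (h : IsJiangSu Z) : ¬ FiniteDimensional ℂ Z := by
  exact h.not_finite

theorem IsJiangSu.separable (h : IsJiangSu Z) : TopologicalSpace.SeparableSpace Z := by
  obtain ⟨p, q, B, _, ev, φ, ι, -, h2, -, -, -, h6⟩ := h
  rw [← TopologicalSpace.isSeparable_univ_iff, ← h6.closure_eq]
  refine (TopologicalSpace.IsSeparable.iUnion fun n => ?_).closure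
  have := (h2 n).separable
  exact TopologicalSpace.isSeparable_range (hom_continuous (ι n))

end Vale.Agent.P101
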