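import Vale.Agent.P101.State

/-! The first and the last state.

Plan for `St.init`. Write `1 = ∑ y l * (e o o * t l)`, `l : Fin n` (`Submodule.mem_span_set'`).
For `δ > 0` let `g s = s / max (s^2) (δ^2)`, `f s = s * g s ∈ [0,1]`,
`κ s = min (max (s^2/δ^2 - 1) 0) 1`; `f κ = κ`, `|(1 - κ s)^2 s| ≤ 2δ`. New units
`E i j = cfc g a * e i j` with total `cfc f a = a * cfc g a` (`cfc g a` commutes with `e i j`),
`PC.cfc`. `r l = cfc κ a * e o o * t l` is fixed by `E o o` since `e o o * e o o = a * e o o`.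
`‖(1 - κ a) e o o‖² = ‖(1 - κ a)² a * e o o‖ ≤ 2δ ‖e o o‖`, so for small `δ` the element
`∑ y l * r l` is within `< 1` of `1`, hence a unit (`Units.oneSub`), so the left ideal is `⊤`.
Pad the family with `0` (`Fin.cons 0 r`) to have `n + 1` elements.
Plan for `St.final`. `1 - a = y * r`, `E o o * r = r`. `v = cfc √ (r * star r) * star y`.
`star v * v = y r r* y* = (1 - a)²` (spectrum of `r r*` is nonnegative:
`spectrum_star_mul_self_nonneg`), and `(1 - E o o) * cfc √ (r r*) = 0` because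
`h * (1 - E o o) = 0` for `h = r r*` and `cfc_mul_eigen` with `s = 0`, then take stars. -/

namespace Vale.Agent.P101

variable {N : Type} [Fintype N] [DecidableEq N] {o : N} {D : Type} [CStarAlgebra D]

theorem exists_cut {δ : ℝ} (hδ : 0 < δ) : ∃ g κ : ℝ → ℝ, Continuous g ∧ Continuous κ ∧
    (∀ s, s * g s ∈ Set.Icc (0 : ℝ) 1) ∧ (∀ s, s * g s * κ s = κ s) ∧
    ∀ s, |(1 - κ s) * (1 - κ s) * s| ≤ 2 * δ := by
  have h2 : 0 < δ ^ 2 := by positivity
  have hm : ∀ s : ℝ, 0 < max (s ^ 2) (δ ^ 2) := fun s => h2.trans_le (le_max_right _ _)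
  refine ⟨fun s => s / max (s ^ 2) (δ ^ 2), fun s => min (max (s ^ 2 / δ ^ 2 - 1) 0) 1,
    continuous_id.div (by fun_prop) fun s => (hm s).ne', by fun_prop, fun s => ?_, fun s => ?_,
    fun s => ?_⟩
  · simp only [← mul_div_assoc, ← sq]
    exact ⟨div_nonneg (sq_nonneg s) (hm s).le, (div_le_one (hm s)).2 (le_max_left _ _)⟩
  · simp only [← mul_div_assoc, ← sq]
    rcases le_total (s ^ 2) (δ ^ 2) with h | h
    · have h3 : s ^ 2 / δ ^ 2 - 1 ≤ 0 := sub_nonpos.2 ((div_le_one h2).2 h)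
      rw [max_eq_right h3, min_eq_left zero_le_one, mul_zero]
    · rw [max_eq_left h, div_self (h2.trans_le h).ne', one_mul]
  · rcases le_total (s ^ 2) (2 * δ ^ 2) with h | h
    · have h3 : |s| ≤ 2 * δ := abs_le_of_sq_le_sq' (by nlinarith) (by positivity) |> abs_le.2
      have h4 : 0 ≤ min (max (s ^ 2 / δ ^ 2 - 1) 0) 1 := le_min (le_max_right _ _) zero_le_one
      have h5 : min (max (s ^ 2 / δ ^ 2 - 1) 0) 1 ≤ 1 := min_le_right _ _
      simp only
      generalize min (max (s ^ 2 / δ ^ 2 - 1) 0) 1 = k at h4 h5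
      rw [abs_mul, abs_mul_self]
      have h6 : (1 - k) * (1 - k) ≤ 1 := by nlinarith
      nlinarith [abs_nonneg s]
    · have h3 : 1 ≤ s ^ 2 / δ ^ 2 - 1 := by
        rw [le_sub_iff_add_le, le_div_iff₀ h2]
        linarith
      simp only [min_eq_right (h3.trans (le_max_left _ _)), sub_self, zero_mul, abs_zero]
      positivity

theorem St.init {a : D} {e : N → N → D} (h : Units a e)
    (hf : (1 : D) ∈ Ideal.span (Set.range fun t => e o o * t)) : ∃ k, St o (k + 1) D := by
  obtain ⟨n, y, t', ht'⟩ := Submodule.mem_span_set'.1 hf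
  choose t ht using fun l => (t' l).2
  simp only [← ht, smul_eq_mul] at ht'
  have hB : 0 ≤ ∑ l, ‖y l‖ * ‖t l‖ := Finset.sum_nonneg fun l _ => by positivity
  generalize hB' : ∑ l, ‖y l‖ * ‖t l‖ = B at hB
  have hδ : 0 < 1 / (2 * ‖e o o‖ * B ^ 2 + 1) := by positivity
  obtain ⟨g, κ, hg, hκ, h1, h2, h3⟩ := exists_cut hδ
  have ha := h.sa
  have cG : ∀ i j, Commute (cfc g a) (e i j) := fun i j => (h.comm i j).cfc_real g
  have cK : ∀ i j, Commute (cfc κ a) (e i j) := fun i j => (h.comm i j).cfc_real κ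
  have cGa : Commute (cfc g a) a := (Commute.refl a).cfc_real g
  have cKa : Commute (cfc κ a) a := (Commute.refl a).cfc_real κ
  have sG : IsSelfAdjoint (cfc g a) := cfc_predicate g a
  have sK : IsSelfAdjoint (cfc κ a) := cfc_predicate κ a
  have e1 : cfc (fun s => s * g s) a = a * cfc g a := by
    rw [cfc_mul (fun s : ℝ => s) g a, cfc_id' ℝ a]
  have e2 : a * cfc g a * cfc κ a = cfc κ a := by
    rw [← e1, ← cfc_mul (fun s => s * g s) κ a]
    exact cfc_congr fun s _ => h2 s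
  have e3 : cfc (fun s => (1 - κ s) * (1 - κ s) * s) a = (1 - cfc κ a) * (1 - cfc κ a) * a := by
    rw [cfc_mul (fun s => (1 - κ s) * (1 - κ s)) (fun s : ℝ => s) a,
      cfc_mul (fun s => 1 - κ s) (fun s => 1 - κ s) a, cfc_sub (fun _ => (1 : ℝ)) κ a,
      cfc_const_one ℝ a, cfc_id' ℝ a]
  have hx : ‖(1 - cfc κ a) * e o o‖ * ‖(1 - cfc κ a) * e o o‖ ≤
      2 * (1 / (2 * ‖e o o‖ * B ^ 2 + 1)) * ‖e o o‖ := by
    have c1 : Commute (1 - cfc κ a) (e o o) := (Commute.one_left _).sub_left (cK o o)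
    have e4 : star ((1 - cfc κ a) * e o o) * ((1 - cfc κ a) * e o o) =
        (1 - cfc κ a) * (1 - cfc κ a) * a * e o o := by
      rw [star_mul, star_sub, star_one, sK.star_eq, h.star, ← c1.eq, c1.symm.mul_mul_mul_comm,
        h.mul_same, ← mul_assoc]
    rw [← CStarRing.norm_star_mul_self, e4, ← e3]
    exact (norm_mul_le _ _).trans (mul_le_mul_of_nonneg_right
      (norm_cfc_le (by positivity) fun s _ => h3 s) (norm_nonneg _))
  have hn : ‖∑ l, y l * ((1 - cfc κ a) * e o o * t l)‖ < 1 := by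
    have h4 : ‖∑ l, y l * ((1 - cfc κ a) * e o o * t l)‖ ≤ ‖(1 - cfc κ a) * e o o‖ * B := by
      rw [← hB', Finset.mul_sum]
      refine (norm_sum_le _ _).trans (Finset.sum_le_sum fun l _ => (norm_mul_le _ _).trans ?_)
      refine (mul_le_mul_of_nonneg_left (norm_mul_le _ _) (norm_nonneg _)).trans (le_of_eq ?_)
      ring
    refine h4.trans_lt ?_
    have h5 : 2 * (1 / (2 * ‖e o o‖ * B ^ 2 + 1)) * ‖e o o‖ * B ^ 2 < 1 := by
      rw [mul_one_div, div_mul_eq_mul_div, div_mul_eq_mul_div, div_lt_one (by positivity)]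
      linarith
    have h6 := mul_le_mul_of_nonneg_right hx (sq_nonneg B)
    refine lt_of_mul_self_lt_mul_self₀ zero_le_one ?_
    nlinarith
  have hu := isUnit_one_sub_of_norm_lt_one hn
  have e5 : 1 - ∑ l, y l * ((1 - cfc κ a) * e o o * t l) = ∑ l, y l * (cfc κ a * e o o * t l) := by
    rw [sub_eq_iff_eq_add, ← Finset.sum_add_distrib]
    refine ht'.symm.trans (Finset.sum_congr rfl fun l _ => ?_)
    noncomm_ring
  rw [e5] at hu
  refine ⟨n, a * cfc g a, fun i j => cfc g a * e i j,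
    Fin.cons 0 fun l => cfc κ a * e o o * t l, e1 ▸ PC.cfc _ fun s _ => h1 s,
    ⟨fun i j k l => ?_, fun i j => ?_, ?_⟩, fun l => ?_, ?_⟩
  · rw [(cG i j).symm.mul_mul_mul_comm, h.mul]
    split_ifs
    · rw [← mul_assoc, (cGa.mul_left cGa).eq, ← mul_assoc, ← mul_assoc]
    · rw [mul_zero]
  · rw [star_mul, sG.star_eq, h.star, (cG j i).eq]
  · rw [← Finset.mul_sum, h.sum, cGa.eq]
  · refine Fin.cases (mul_zero _) (fun l => ?_) l
    simp only [Fin.cons_succ]
    rw [← mul_assoc, (cK o o).symm.mul_mul_mul_comm, h.mul_same, ← mul_assoc,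
      (cGa.mul_left cKa).eq, ← mul_assoc, e2]
  · rw [Ideal.eq_top_of_isUnit_mem _ (Ideal.sum_mem _ fun l _ => Ideal.mul_mem_left _ _
      (Ideal.subset_span (Set.mem_range_self (f := (Fin.cons 0 fun l => cfc κ a * e o o * t l :
        Fin (n + 1) → D)) l.succ))) hu]
    exact Submodule.mem_top

theorem St.final (h : St o 1 D) : ∃ (a v : D) (E : N → N → D), PC a ∧ Units a E ∧
    star v * v = (1 - a) * (1 - a) ∧ E o o * v = v := by
  obtain ⟨a, E, r, h1, h2, h3, h4⟩ := h
  rw [Set.range_unique, Ideal.mem_span_singleton'] at h4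
  obtain ⟨y, hy⟩ := h4
  have h5 := h3 default
  generalize r default = x at hy h5
  have hs : IsSelfAdjoint (x * star x) := IsSelfAdjoint.mul_star_self x
  have sR : IsSelfAdjoint (cfc Real.sqrt (x * star x)) := cfc_predicate _ _
  have e1 : cfc Real.sqrt (x * star x) * cfc Real.sqrt (x * star x) = x * star x := by
    rw [← cfc_mul Real.sqrt Real.sqrt (x * star x)]
    refine (cfc_congr fun s hs' => Real.mul_self_sqrt ?_).trans (cfc_id' ℝ (x * star x))
    refine spectrum_star_mul_self_nonneg (b := star x) s ?_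
    rwa [star_star]
  have e2 : x * star x * (1 - E o o) = (0 : ℝ) • (1 - E o o) := by
    have h6 : star x * E o o = star x := by
      rw [← h2.star o o, ← star_mul, h5]
    rw [zero_smul, mul_assoc, mul_sub, mul_one, h6, sub_self, mul_zero]
  have e3 := cfc_mul_eigen hs e2 Real.continuous_sqrt
  rw [Real.sqrt_zero, zero_smul, mul_sub, mul_one, sub_eq_zero] at e3
  have e4 : E o o * cfc Real.sqrt (x * star x) = cfc Real.sqrt (x * star x) := by
    have h6 := congrArg star e3
    rw [star_mul, sR.star_eq, h2.star] at h6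
    exact h6.symm
  refine ⟨a, cfc Real.sqrt (x * star x) * star y, E, h1, h2, ?_, by rw [← mul_assoc, e4]⟩
  have e5 : star (1 - a) = 1 - a := by rw [star_sub, star_one, h2.sa.star_eq]
  rw [star_mul, star_star, sR.star_eq, mul_assoc, ← mul_assoc (cfc _ _), e1, ← mul_assoc,
    ← mul_assoc, mul_assoc, ← star_mul, hy, e5]

end Vale.Agent.P101
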