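import Vale.Agent.P101.Flip
import Vale.Agent.P101.State

/-! Reducing the number of generators by one in two commuting copies.

Plan. Data `a, E, r : Fin (k+2) → D` from `St`. Real functions (continuous on all of `ℝ`):
`ft s = 1 / max s (1/2)`, `f s = s * ft s`, `kk s = ft (1 - s)`, `m s = (1 - s) * kk s`,
`σ s = √(1 - f s ^ 2)`. On `[0,1] ⊇ spectrum a` (`PC.spec`): `f, m ∈ [0,1]`, `σ² = 1 - f²`,
`m σ = σ`, and `ft 1 = 1, m 1 = 0, σ 1 = 0, f 1 = 1`. In `D` let `FT, FF, KK, MM, SS` be the `cfc` of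
these at `a`; so `FF = a FT`, `MM = KK (1 - a)`, `SS SS = 1 - FF FF`, `MM SS = SS`, all commute with
each other and with `E i j` (`Units.comm`, `Commute.cfc_real`). From `E o o r = r` get `a r = r`
(`a E r = E E r`), hence by `cfc_mul_eigen`: `FT r = r, FF r = r, MM r = 0, SS r = 0`.
Write `x1 = i1 x`, `x2 = i2 x`. Let `u = FF2 MM1` (self-adjoint, norm ≤ 1),
`ρ = cfc (fun s => √(1 - s^2)) u` (so `ρ ρ = 1 - u u`; `ρ` commutes with all that commutes with `u`),
`p = FT1 ρ`, `q = FT2 MM1`. `Units.flip` for `E1, E2` gives `Φ` with total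
`τ = a1² p² + a2² q² = FF1² (1 - u²) + u² = 1 - (SS1 SS2)²` (use `SS² MM² = SS²`); `PC τ` by
`PC.cfc (fun s => 1 - s^2)` at the self-adjoint contraction `SS1 SS2`.
Fixed vectors of `Φ o o`: (i) `r1 := i1 (r l)`: `q r1 = 0`, `u r1 = 0` so `ρ r1 = r1`, `p r1 = r1`;
(ii) `x = SS1 * i2 (r l)`: `q x = x`, `u x = x` so `ρ x = 0`, `p x = 0`. In the third summand of `Φ`
move `p q` to the right (they commute with `E1, E2`). Anything of the form `fixed * y` is fixed.
Put `rt l = r l * SS * SS`, `z = Fin.last`, and for `l : Fin (k+1)`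
`R l = rt1 l' * SS2 + SS1 * rt2 l' + rt1 z * rt2 z` (`l' = l.castSucc`). With `J = span (range R)`
(a left ideal): `SS2 R l = rt1 l' SS2²`, `SS1 R l = SS1² rt2 l'`,
`(1 - MM1)(1 - MM2) R 0 = rt1 z rt2 z` lie in `J`. From `1 - a = ∑ y l r l`
(`Ideal.mem_span_range_iff_exists_fun` or `Submodule.mem_span_range_iff_exists_fun`):
`SS² = KK (1 - a) SS² = ∑ Y l rt l`, `Y l = KK y l`. So
`SS1² SS2² = ∑_{l'} Y1 l' (rt1 l' SS2²) + Y1 z rt1 z SS2²` and
`rt1 z SS2² = ∑_{l'} Y2 l' r1 z (SS1² rt2 l') + Y2 z (rt1 z rt2 z)` are in `J`. -/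

namespace Vale.Agent.P101

/-- the function `1 / max s (1/2)` -/
noncomputable def mergeFt (s : ℝ) : ℝ := (max s (1 / 2))⁻¹

theorem mergeFt_cont : Continuous mergeFt :=
  (continuous_id.max continuous_const).inv₀ fun s =>
    (lt_of_lt_of_le (by norm_num) (le_max_right s (1 / 2))).ne'

theorem mergeFt_mem {s : ℝ} (hs : 0 ≤ s) : s * mergeFt s ∈ Set.Icc (0 : ℝ) 1 := by
  have h : (0 : ℝ) < max s (1 / 2) := lt_of_lt_of_le (by norm_num) (le_max_right s (1 / 2))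
  refine ⟨mul_nonneg hs (inv_nonneg.2 h.le), ?_⟩
  unfold mergeFt
  rw [← div_eq_mul_inv, div_le_one h]
  exact le_max_left _ _

theorem mergeFt_big {s : ℝ} (hs : 1 / 2 ≤ s) : s * mergeFt s = 1 := by
  unfold mergeFt
  rw [max_eq_left hs, mul_inv_cancel₀ (by linarith : s ≠ 0)]

theorem merge_spec {C : Type} [CStarAlgebra C] {u : C} (hn : ‖u‖ ≤ 1) {t : ℝ}
    (ht : t ∈ spectrum ℝ u) : t * t ≤ 1 := by
  have hC : Nontrivial C := by
    by_contra hn
    rw [not_nontrivial_iff_subsingleton] at hn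
    exact ht (isUnit_of_subsingleton _)
  have h1 := (spectrum.norm_le_norm_of_mem ht).trans hn
  rw [Real.norm_eq_abs] at h1
  exact abs_le_one_iff_mul_self_le_one.1 h1

theorem merge_cfc_sq {C : Type} [CStarAlgebra C] {u : C} (hu : IsSelfAdjoint u) :
    cfc (fun s : ℝ => 1 - s * s) u = 1 - u * u := by
  rw [cfc_sub _ _ u, cfc_const_one ℝ u, cfc_mul _ _ u, cfc_id' ℝ u]

theorem merge_pc {C : Type} [CStarAlgebra C] {u : C} (hu : IsSelfAdjoint u) (hn : ‖u‖ ≤ 1) :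
    PC (1 - u * u) := by
  rw [← merge_cfc_sq hu]
  refine PC.cfc _ fun t ht => ⟨?_, ?_⟩
  · linarith [merge_spec hn ht]
  · linarith [mul_self_nonneg t]

theorem merge_rho {C : Type} [CStarAlgebra C] {u : C} (hu : IsSelfAdjoint u) (hn : ‖u‖ ≤ 1) :
    ∃ ρ : C, IsSelfAdjoint ρ ∧ ρ * ρ = 1 - u * u ∧ (∀ x, Commute u x → Commute ρ x) ∧
      (∀ x, u * x = 0 → ρ * x = x) ∧ ∀ x, u * x = x → ρ * x = 0 := by
  have hc : Continuous fun s : ℝ => √(1 - s * s) := by fun_prop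
  refine ⟨cfc (fun s : ℝ => √(1 - s * s)) u, cfc_predicate _ u, ?_, fun x hx => hx.cfc_real _,
    fun x hx => ?_, fun x hx => ?_⟩
  · rw [← cfc_mul _ _ u, ← merge_cfc_sq hu]
    exact cfc_congr fun t ht => Real.mul_self_sqrt (by linarith [merge_spec hn ht])
  · rw [cfc_mul_eigen hu (s := 0) (by rw [hx, zero_smul]) hc]
    simp
  · rw [cfc_mul_eigen hu (s := 1) (by rw [hx, one_smul]) hc]
    simp

theorem merge_data {D : Type} [CStarAlgebra D] {a : D} (ha : PC a) :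
    ∃ FT KK MM SS : D, IsSelfAdjoint FT ∧ IsSelfAdjoint MM ∧ IsSelfAdjoint SS ∧
      (∀ x, Commute a x → Commute FT x ∧ Commute MM x ∧ Commute SS x) ∧
      ‖a * FT‖ ≤ 1 ∧ ‖MM‖ ≤ 1 ∧ ‖SS‖ ≤ 1 ∧ MM = KK * (1 - a) ∧
      SS * SS = 1 - a * FT * (a * FT) ∧ MM * SS = SS ∧
      ∀ x, a * x = x → FT * x = x ∧ MM * x = 0 ∧ SS * x = 0 := by
  have hsa := ha.sa
  have c1 := mergeFt_cont
  have c2 : Continuous fun s : ℝ => mergeFt (1 - s) := by fun_prop
  have c3 : Continuous fun s : ℝ => mergeFt (1 - s) * (1 - s) := by fun_prop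
  have c4 : Continuous fun s : ℝ => √(1 - s * mergeFt s * (s * mergeFt s)) := by fun_prop
  have c5 : Continuous fun s : ℝ => s * mergeFt s := by fun_prop
  have hF : a * cfc mergeFt a = cfc (fun s : ℝ => s * mergeFt s) a := by
    rw [cfc_mul _ _ a, cfc_id' ℝ a]
  have hb : ∀ t ∈ spectrum ℝ a, 0 ≤ 1 - t * mergeFt t * (t * mergeFt t) := fun t ht => by
    have := mergeFt_mem (ha.spec ht).1
    nlinarith [this.1, this.2]
  refine ⟨cfc mergeFt a, cfc (fun s : ℝ => mergeFt (1 - s)) a,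
    cfc (fun s : ℝ => mergeFt (1 - s) * (1 - s)) a,
    cfc (fun s : ℝ => √(1 - s * mergeFt s * (s * mergeFt s))) a,
    cfc_predicate _ a, cfc_predicate _ a, cfc_predicate _ a,
    fun x hx => ⟨hx.cfc_real _, hx.cfc_real _, hx.cfc_real _⟩, ?_, ?_, ?_, ?_, ?_, ?_,
    fun x hx => ⟨?_, ?_, ?_⟩⟩
  · rw [hF]
    exact (PC.cfc _ fun t ht => mergeFt_mem (ha.spec ht).1).le
  · refine (PC.cfc _ fun t ht => ?_).le
    rw [mul_comm]
    exact mergeFt_mem (by linarith [(ha.spec ht).2])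
  · refine (PC.cfc _ fun t _ => ⟨Real.sqrt_nonneg _, ?_⟩).le
    rw [Real.sqrt_le_one]
    linarith [mul_self_nonneg (t * mergeFt t)]
  · rw [cfc_mul _ _ a, cfc_sub _ _ a, cfc_const_one ℝ a, cfc_id' ℝ a]
  · rw [hF, ← cfc_mul _ _ a, ← cfc_mul _ _ a, ← cfc_const_one ℝ a, ← cfc_sub _ _ a]
    exact cfc_congr fun t ht => Real.mul_self_sqrt (hb t ht)
  · rw [← cfc_mul _ _ a]
    refine cfc_congr fun t _ => ?_
    rcases le_total (1 / 2) t with h | h
    · simp [mergeFt_big h]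
    · have := mergeFt_big (s := 1 - t) (by linarith)
      rw [mul_comm] at this
      simp only [this, one_mul]
  · rw [cfc_mul_eigen hsa (s := 1) (by rw [hx, one_smul]) c1]
    have := mergeFt_big (s := 1) (by norm_num)
    rw [one_mul] at this
    rw [this, one_smul]
  · rw [cfc_mul_eigen hsa (s := 1) (by rw [hx, one_smul]) c3]
    simp
  · rw [cfc_mul_eigen hsa (s := 1) (by rw [hx, one_smul]) c4, mergeFt_big (by norm_num)]
    simp

theorem St.merge {N : Type} [Fintype N] [DecidableEq N] {o : N} {k : ℕ} {D E : Type}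
    [CStarAlgebra D] [CStarAlgebra E] (h : St o (k + 2) D) (i1 i2 : D →⋆ₐ[ℂ] E)
    (hc : ∀ x y, Commute (i1 x) (i2 y)) : St o (k + 1) E := by
  obtain ⟨a, e, r, ha, he, hr, hmem⟩ := h
  obtain ⟨FT, KK, MM, SS, sF, sM, sS, hcm, nF, nM, nS, hMK, hSS, hMS, hfix⟩ := merge_data ha
  obtain ⟨y, hy⟩ := (Submodule.mem_span_range_iff_exists_fun D).1 hmem
  simp only [smul_eq_mul] at hy
  have har : ∀ l, a * r l = r l := fun l => by
    conv_lhs => rw [← hr l, ← mul_assoc, ← he.mul_same o o o, mul_assoc, hr l, hr l]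
  have hFa : Commute FT a := (hcm a (Commute.refl a)).1
  have hMa : Commute MM a := (hcm a (Commute.refl a)).2.1
  have hMF : Commute MM FT := (hcm FT hFa.symm).2.1
  have hSM : Commute SS MM := (hcm MM hMa.symm).2.2
  have hFe : ∀ i j, Commute FT (e i j) := fun i j => (hcm _ (he.comm i j)).1
  have hMe : ∀ i j, Commute MM (e i j) := fun i j => (hcm _ (he.comm i j)).2.1
  have sFF : IsSelfAdjoint (a * FT) := (ha.sa.commute_iff sF).1 hFa.symm
  have hFr : ∀ l x, FT * (r l * x) = r l * x := fun l x => by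
    rw [← mul_assoc, (hfix _ (har l)).1]
  have hMr : ∀ l x, MM * (r l * x) = 0 := fun l x => by
    rw [← mul_assoc, (hfix _ (har l)).2.1, zero_mul]
  have hSr : ∀ l x, SS * (r l * x) = 0 := fun l x => by
    rw [← mul_assoc, (hfix _ (har l)).2.2, zero_mul]
  have har' : ∀ l x, a * (r l * x) = r l * x := fun l x => by rw [← mul_assoc, har]
  have her : ∀ l x, e o o * (r l * x) = r l * x := fun l x => by rw [← mul_assoc, hr]
  have hSY : SS * SS = ∑ l, KK * y l * (r l * (SS * SS)) := by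
    have h1 : SS * SS = KK * (1 - a) * (SS * SS) := by rw [← hMK, ← mul_assoc, hMS]
    rw [← hy, Finset.mul_sum, Finset.sum_mul] at h1
    simpa only [mul_assoc] using h1
  have mm : ∀ x y x' y', i1 x * i2 y * (i1 x' * i2 y') = i1 (x * x') * i2 (y * y') := by
    intro x y x' y'
    rw [(hc x' y).symm.mul_mul_mul_comm, map_mul, map_mul]
  have m1 : ∀ x x' y', i1 x * (i1 x' * i2 y') = i1 (x * x') * i2 y' := by
    intro x x' y'
    rw [← mul_assoc, map_mul]
  have m2 : ∀ y x' y', i2 y * (i1 x' * i2 y') = i1 x' * i2 (y * y') := by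
    intro y x' y'
    rw [(hc x' y).symm.left_comm, map_mul]
  have cm1 : ∀ x y x', Commute x x' → Commute (i1 x * i2 y) (i1 x') := fun x y x' h =>
    (h.map i1).mul_left (hc x' y).symm
  have cm2 : ∀ x y y', Commute y y' → Commute (i1 x * i2 y) (i2 y') := fun x y y' h =>
    (hc x y').mul_left (h.map i2)
  have sa : ∀ x y, IsSelfAdjoint x → IsSelfAdjoint y → IsSelfAdjoint (i1 x * i2 y) :=
    fun x y hx hy => ((hx.map i1).commute_iff (hy.map i2)).1 (hc x y)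
  have nm : ∀ x y, ‖x‖ ≤ 1 → ‖y‖ ≤ 1 → ‖i1 x * i2 y‖ ≤ 1 := fun x y hx hy =>
    (norm_mul_le _ _).trans (mul_le_one₀ ((NonUnitalStarAlgHom.norm_apply_le i1 x).trans hx)
      (norm_nonneg _) ((NonUnitalStarAlgHom.norm_apply_le i2 y).trans hy))
  obtain ⟨ρ, sρ, hρρ, hρc, hρ0, hρ1⟩ := merge_rho (sa MM (a * FT) sM sFF) (nm _ _ nM nF)
  have hρF : Commute ρ (i1 FT) := hρc _ (cm1 _ _ _ hMF)
  have hpE1 : ∀ i j, Commute (i1 FT * ρ) (i1 (e i j)) := fun i j =>
    ((hFe i j).map i1).mul_left (hρc _ (cm1 _ _ _ (hMe i j)))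
  have hpE2 : ∀ i j, Commute (i1 FT * ρ) (i2 (e i j)) := fun i j =>
    (hc _ _).mul_left (hρc _ (cm2 _ _ _ ((he.comm i j).mul_left (hFe i j))))
  have hqE1 : ∀ i j, Commute (i1 MM * i2 FT) (i1 (e i j)) := fun i j => cm1 _ _ _ (hMe i j)
  have hqE2 : ∀ i j, Commute (i1 MM * i2 FT) (i2 (e i j)) := fun i j => cm2 _ _ _ (hFe i j)
  have hpq : Commute (i1 FT * ρ) (i1 MM * i2 FT) :=
    (cm1 _ _ _ hMF).symm.mul_left (hρc _ ((cm1 _ _ _ (Commute.refl MM)).mul_right
      (cm2 _ _ _ (hFa.symm.mul_left (Commute.refl FT)))))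
  have hU := Units.flip (he.map i1) (he.map i2) (fun i j k l => hc _ _)
    (((sF.map i1).commute_iff sρ).1 hρF.symm) (sa MM FT sM sF) hpq hpE1 hpE2 hqE1 hqE2
  have hτ : i1 a * i1 a * (i1 FT * ρ * (i1 FT * ρ)) +
      i2 a * i2 a * (i1 MM * i2 FT * (i1 MM * i2 FT)) =
      1 - i1 SS * i2 SS * (i1 SS * i2 SS) := by
    have h1 : a * FT * (a * FT) * (MM * MM) = MM * MM - 1 + a * FT * (a * FT) := by
      have : SS * SS * (MM * MM) = SS * SS := by
        rw [hSM.mul_mul_mul_comm, hSM.eq, hMS]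
      rw [hSS, sub_mul, one_mul] at this
      rw [← sub_sub_cancel (MM * MM) (a * FT * (a * FT) * (MM * MM)), this]
      abel
    have h2 : a * a * (FT * FT) = a * FT * (a * FT) := hFa.symm.mul_mul_mul_comm a FT
    rw [hρF.mul_mul_mul_comm, hρρ, mm, mm, mm, ← map_mul i1 a a, ← map_mul i2 a a, m2, h2,
      ← map_mul i1 FT FT, ← mul_assoc, ← map_mul, h2, mul_sub, mul_one, m1, h1, hSS]
    simp only [map_sub, map_add, map_one]
    noncomm_ring
  rw [hτ] at hU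
  obtain ⟨p, hp⟩ : ∃ p, i1 FT * ρ = p := ⟨_, rfl⟩
  obtain ⟨q, hq⟩ : ∃ q, i1 MM * i2 FT = q := ⟨_, rfl⟩
  obtain ⟨Δ, hΔ⟩ : ∃ Δ, ∑ k, i1 (e k o) * i2 (e o k) - ∑ l, i1 (e o l) * i2 (e l o) = Δ :=
    ⟨_, rfl⟩
  have cΔ : ∀ x, (∀ i j, Commute x (i1 (e i j))) → (∀ i j, Commute x (i2 (e i j))) →
      Commute x Δ := fun x h1 h2 => by
    rw [← hΔ]
    exact (Commute.sum_right _ _ _ fun _ _ => (h1 _ _).mul_right (h2 _ _)).sub_right
      (Commute.sum_right _ _ _ fun _ _ => (h1 _ _).mul_right (h2 _ _))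
  have hpΔ := cΔ _ hpE1 hpE2
  have hqΔ := cΔ _ hqE1 hqE2
  rw [hp] at hpE1 hpE2 hpΔ hpq
  rw [hq] at hqE1 hqE2 hqΔ hpq
  obtain ⟨Φ, hΦ⟩ : ∃ Φ, i1 a * (p * p) * i1 (e o o) + i2 a * (q * q) * i2 (e o o)
      + Complex.I • (p * q * Δ) = Φ := ⟨_, rfl⟩
  have fixA : ∀ l x y, Φ * (i1 (r l * x) * i2 y) = i1 (r l * x) * i2 y := by
    intro l x y
    have h1 : p * (i1 (r l * x) * i2 y) = i1 (r l * x) * i2 y := by
      rw [← hp, mul_assoc, hρ0 _ (by rw [mm, hMr, map_zero, zero_mul]), m1, hFr]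
    have h2 : q * (i1 (r l * x) * i2 y) = 0 := by rw [← hq, mm, hMr, map_zero, zero_mul]
    rw [← hΦ]
    simp only [add_mul, smul_mul_assoc, mul_assoc]
    rw [m1, her, h1, h1, m1, har', (hqE2 o o).left_comm, h2, hqΔ.left_comm, h2]
    simp
  have fixB : ∀ l y, Φ * (i1 SS * i2 (r l * y)) = i1 SS * i2 (r l * y) := by
    intro l y
    have h1 : q * (i1 SS * i2 (r l * y)) = i1 SS * i2 (r l * y) := by
      rw [← hq, mm, hMS, hFr]
    have h2 : p * (i1 SS * i2 (r l * y)) = 0 := by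
      rw [← hp, mul_assoc, hρ1 _ (by rw [mm, hMS, mul_assoc, hFr, har']), mul_zero]
    rw [← hΦ]
    simp only [add_mul, smul_mul_assoc, mul_assoc]
    rw [m2, her, h1, h1, m2, har', (hpE1 o o).left_comm, h2, hpq.left_comm, hpΔ.left_comm, h2]
    simp
  let R : Fin (k + 1) → E := fun l => i1 (r l.castSucc * (SS * SS)) * i2 SS
    + i1 SS * i2 (r l.castSucc * (SS * SS))
    + i1 (r (Fin.last _) * (SS * SS)) * i2 (r (Fin.last _) * (SS * SS))
  refine ⟨_, _, R, merge_pc (sa SS SS sS sS) (nm _ _ nS nS), hU, fun l => ?_, ?_⟩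
  · simp only [hp, hq, hΔ, hΦ, R, mul_add, fixA, fixB]
  · have hR : ∀ l, R l ∈ Ideal.span (Set.range R) := fun l => Ideal.subset_span ⟨l, rfl⟩
    have j1 : ∀ l : Fin (k + 1), i1 (r l.castSucc * (SS * SS)) * i2 (SS * SS) ∈
        Ideal.span (Set.range R) := fun l => by
      have := Ideal.mul_mem_left _ (i2 SS) (hR l)
      simpa only [R, mul_add, m2, hSr, map_zero, mul_zero, add_zero] using this
    have j2 : ∀ l : Fin (k + 1), i1 (SS * SS) * i2 (r l.castSucc * (SS * SS)) ∈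
        Ideal.span (Set.range R) := fun l => by
      have := Ideal.mul_mem_left _ (i1 SS) (hR l)
      simpa only [R, mul_add, m1, hSr, map_zero, zero_mul, add_zero, zero_add] using this
    have j3 : i1 (r (Fin.last _) * (SS * SS)) * i2 (r (Fin.last _) * (SS * SS)) ∈
        Ideal.span (Set.range R) := by
      have := Ideal.mul_mem_left _ (i1 (1 - MM) * i2 (1 - MM)) (hR 0)
      simpa only [R, mul_add, mm, sub_mul, one_mul, hMr, hMS, sub_self, sub_zero, map_zero,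
        zero_mul, mul_zero, zero_add] using this
    have j4 : i1 (r (Fin.last _) * (SS * SS)) * i2 (SS * SS) ∈ Ideal.span (Set.range R) := by
      have h1 : i1 (r (Fin.last _) * (SS * SS)) * i2 (SS * SS) =
          ∑ l, i2 (KK * y l) * (i1 (r (Fin.last _) * (SS * SS)) * i2 (r l * (SS * SS))) := by
        simp only [m2]
        rw [← Finset.mul_sum, ← map_sum, ← hSY]
      rw [h1, Fin.sum_univ_castSucc]
      refine add_mem (sum_mem fun l _ => Ideal.mul_mem_left _ _ ?_) (Ideal.mul_mem_left _ _ j3)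
      rw [← m1]
      exact Ideal.mul_mem_left _ _ (j2 l)
    have h1 : i1 (SS * SS) * i2 (SS * SS) =
        ∑ l, i1 (KK * y l) * (i1 (r l * (SS * SS)) * i2 (SS * SS)) := by
      simp only [m1]
      rw [← Finset.sum_mul, ← map_sum, ← hSY]
    rw [sub_sub_cancel, mm, h1, Fin.sum_univ_castSucc]
    exact add_mem (sum_mem fun l _ => Ideal.mul_mem_left _ _ (j1 l)) (Ideal.mul_mem_left _ _ j4)

end Vale.Agent.P101
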