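import Vale.Agent.P101.Drop
import Vale.Agent.P101.Conn

/-! From the Rordam-Winter relations to a commuting pair.

Plan for `twist`. `ρ = 1 - a`; `a v = v`, `ρ v = 0`. `w none = ρ`, `w (some j) = E j o * v`; then
`star (w i) * w j = if i = j then ρ ρ else 0`. `B i j = w i * star (w j)` are `Units b B` with
`b = ∑ w i * star (w i) = ρ ρ + c`, `c = ∑ j, w (some j) * star (w (some j))`; `z = 1 - b`.
Facts: `ρ c = 0`, `a c = c = c a`, `w i * c = 0` (its `star x * x` is `c ρ ρ c = 0`),
`b w i = w i ρ ρ`, so `z w i = w i (1 - ρ ρ) = w i z`; `c` commutes with `E k l` (both products are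
`E k o v v* E o l`). `κ = 1 + ρ - c`, `a κ = z`, `A k l = E k l * κ` are `Units z A`, commuting with
`ρ` and `z`. `M (i,k) (j,l) = w i * A k l * star (w j)` are `Units (z * (1 - z)) M` on
`Option N × N`, commuting with `z`. `PC z`: `b - b b = ∑ w i (1 - ρ ρ) (w i)* ≥ 0` (use
`CStarAlgebra.spectralOrder` locally), so the spectrum of `b` is in `[0,1]`; `PC.cfc`.
Apply `exists_gamma` (file Gamma; `oz_theta` with `StarAlgHom.ofId ℂ C`, see the proof of
`Pair.exists_hom` in Drop) with `D0 = MC (Option N) ℂ`, `D1 = MC N ℂ`, `E = MC (Option N × N) ℂ`,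
`s0 = theta B`, `s1 = theta A`, `m = theta M`, `j0 = extL`, `j1 y = U * extR y * U`, where `U` is
the permutation matrix of the involution `(none, k) ↦ (none, k)`, `(some j, k) ↦ (some k, j)`
(`U = U* = U⁻¹`; equivalently `j1 y = (extR y).submatrix τ τ`). The identities needed are
`z B i j = ∑ k, M (i,k) (j,k)` and `b A k l = M (none,k) (none,l) + ∑ m, M (some k,m) (some l,m)`
(`c A k l = w k (w l)* κ = w k (w l)* z`). Only the existence and contractivity of `Γ` is used:
with `V t = cos (π t / 2) + i sin (π t / 2) U` (unitary, `V 0 = 1`, `V 1 = i U`) take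
`z' = Γ (t ↦ t 1)`, `A' i j = Γ (t ↦ (1 - t) V t extL (single i j 1) (V t)*)`,
`B' k l = Γ (t ↦ t V t extR (single k l 1) (V t)*)`; `Units.map`, `commute_extL_extR`.
Plan for `pair_of_coprime`: pick `n > 0` with `P ∣ n + 1`, `Q ∣ n`; `Units.reindex` along
`Fin P × Fin s ≃ Option (Fin n)`, `Fin Q × Fin s' ≃ Fin n`, then `Units.left`. -/

open scoped unitInterval

namespace Vale.Agent.P101

variable {C : Type} [CStarAlgebra C]

section

variable {P Q : Type} [Fintype P] [DecidableEq P] [Fintype Q] [DecidableEq Q]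

theorem twist_units {E : Type} [CStarAlgebra E] {S : StarSubalgebra ℂ C(I, E)}
    {X : I → P → P → E} (hX : ∀ t, Units 1 (X t)) {s : S} {r : I → ℝ}
    (hs : ∀ t, s.1 t = (r t : ℂ) • 1) {e : P → P → S}
    (he : ∀ i j t, (e i j).1 t = (r t : ℂ) • X t i j) : Units s e where
  mul i j k l := Subtype.ext <| ContinuousMap.ext fun t => by
    change (e i j).1 t * (e k l).1 t = _
    rw [he, he, smul_mul_smul_comm, (hX t).mul]
    split_ifs
    · change _ = s.1 t * (e i l).1 t
      rw [hs, he, smul_mul_smul_comm]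
    · exact smul_zero _
  star i j := Subtype.ext <| ContinuousMap.ext fun t => by
    change star ((e i j).1 t) = _
    rw [he, he, star_smul, (hX t).star, Complex.star_def, Complex.conj_ofReal]
  sum := Subtype.ext <| ContinuousMap.ext fun t => by
    rw [AddSubmonoidClass.coe_finsetSum, ContinuousMap.sum_apply, hs, ← (hX t).sum,
      Finset.smul_sum]
    exact Finset.sum_congr rfl fun i _ => he i i t

theorem twist_path {E : Type} [CStarAlgebra E] {L : P → P → E} {R : Q → Q → E} (hL : Units 1 L)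
    (hR : Units 1 R) (hc : ∀ i j k l, Commute (L i j) (R k l)) (V : I → unitary E)
    (hV : Continuous fun t => (V t : E)) {E0 E1 : StarSubalgebra ℂ E}
    (h0 : ∀ i j, V 0 * L i j * star (V 0 : E) ∈ E0) (h1 : ∀ i j, V 1 * R i j * star (V 1 : E) ∈ E1)
    (Γ : DD E0 E1 →⋆ₐ[ℂ] C) (hΓ : ∀ f, ‖Γ f‖ ≤ ‖f‖) :
    ∃ (z : C) (A : P → P → C) (B : Q → Q → C), Pair z A B := by
  let z : DD E0 E1 := ⟨⟨fun t => ((t : ℝ) : ℂ) • 1, by fun_prop⟩,
    mem_DD.2 ⟨by simp, by simp⟩⟩
  let A : P → P → DD E0 E1 := fun i j =>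
    ⟨⟨fun t => ((1 - t : ℝ) : ℂ) • (V t * L i j * star (V t : E)), by fun_prop⟩,
      mem_DD.2 ⟨by simpa using h0 i j, by simp⟩⟩
  let B : Q → Q → DD E0 E1 := fun i j =>
    ⟨⟨fun t => ((t : ℝ) : ℂ) • (V t * R i j * star (V t : E)), by fun_prop⟩,
      mem_DD.2 ⟨by simp, by simpa using h1 i j⟩⟩
  have hz : ∀ t, (1 - z).1 t = ((1 - t : ℝ) : ℂ) • 1 := fun t => by
    change 1 - ((t : ℝ) : ℂ) • (1 : E) = _
    simp [sub_smul]
  have hn : ∀ (s : DD E0 E1) (r : I → ℝ), (∀ t, s.1 t = (r t : ℂ) • 1) → (∀ t, |r t| ≤ 1) →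
      ‖Γ s‖ ≤ 1 := fun s r hs hr => (hΓ s).trans <|
    (ContinuousMap.norm_le s.1 zero_le_one).2 fun t => by
      rw [hs, norm_smul, Complex.norm_real]
      exact mul_le_one₀ (hr t) (norm_nonneg _)
        (IsStarProjection.norm_le _ (IsStarProjection.one E))
  have hA : Units (1 - z) A := twist_units
    (fun t => by simpa using hL.map (Unitary.conjStarAlgAut ℂ E (V t))) hz fun _ _ _ => rfl
  have hB : Units z B := twist_units
    (fun t => by simpa using hR.map (Unitary.conjStarAlgAut ℂ E (V t))) (fun _ => rfl)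
    fun _ _ _ => rfl
  have hz1 : Γ (1 - z) = 1 - Γ z := (map_sub Γ 1 z).trans (congrArg (· - Γ z) (map_one Γ))
  refine ⟨Γ z, fun i j => Γ (A i j), fun i j => Γ (B i j), ⟨hB.sa.map Γ, ?_, ?_⟩,
    hz1 ▸ hA.map Γ, hB.map Γ, fun i j k l => Commute.map ?_ Γ⟩
  · exact hn z _ (fun _ => rfl) fun t => abs_le.2 ⟨by linarith [t.2.1], t.2.2⟩
  · rw [← hz1]
    exact hn _ _ hz fun t => abs_le.2 ⟨by linarith [t.2.2], by linarith [t.2.1]⟩
  · exact Subtype.ext <| ContinuousMap.ext fun t =>
      ((((hc i j k l).map (Unitary.conjStarAlgAut ℂ E (V t))).smul_left _).smul_right _).eq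

theorem twist_perm {ι : Type} [Fintype ι] [DecidableEq ι] (τ : Equiv.Perm ι) :
    ∃ (κ : Matrix ι ι ℂ →⋆ₐ[ℂ] Matrix ι ι ℂ) (g : I → Matrix ι ι ℂ), Function.Injective κ ∧
      (∀ X, κ X = X.submatrix τ.symm τ.symm) ∧ Continuous g ∧ g 0 = 1 ∧
      (∀ X, κ X = g 1 * X * star (g 1)) ∧ ∀ t, g t ∈ unitary (Matrix ι ι ℂ) := by
  have hU : τ⁻¹.permMatrix ℂ ∈ unitary (Matrix ι ι ℂ) := by
    constructor <;>
      simp [Matrix.star_eq_conjTranspose, ← Matrix.permMatrix_mul]
  obtain ⟨g, g1, g2, g3, g4⟩ := exists_matrix_path _ hU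
  refine ⟨(Unitary.conjStarAlgAut ℂ _ ⟨_, hU⟩ : _ ≃⋆ₐ[ℂ] _), g,
    (Unitary.conjStarAlgAut ℂ _ ⟨_, hU⟩).injective, fun X => ?_, g1, g2, fun X => ?_, g4⟩
  · change τ⁻¹.permMatrix ℂ * X * star (τ⁻¹.permMatrix ℂ) = _
    rw [Matrix.star_eq_conjTranspose, Matrix.conjTranspose_permMatrix, inv_inv,
      PEquiv.toMatrix_toPEquiv_mul, PEquiv.mul_toMatrix_toPEquiv]
    rfl
  · rw [g3]
    rfl

theorem twist_left {z : C} {B : P → P → C} {M : P × Q → P × Q → C}
    (c0 : ∀ i j, z * B i j = ∑ k, M (i, k) (j, k)) (X : Matrix P P ℂ) :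
    z * theta (StarAlgHom.ofId ℂ C) B X = theta (StarAlgHom.ofId ℂ C) M (extL Q X) := by
  simp only [theta_apply, extL_apply, Fintype.sum_prod_type, apply_ite (StarAlgHom.ofId ℂ C),
    map_zero, ite_mul, zero_mul, Finset.sum_ite_eq, Finset.mem_univ, if_true, Finset.mul_sum]
  refine Finset.sum_congr rfl fun i _ => ?_
  rw [Finset.sum_comm]
  refine Finset.sum_congr rfl fun j _ => ?_
  rw [← Finset.mul_sum, ← c0, (commute_ofId _ z).left_comm]

theorem twist_right {z : C} {A : Q → Q → C} {M : P × Q → P × Q → C} (τ : Equiv.Perm (P × Q))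
    (c1 : ∀ k l, z * A k l = ∑ i, M (τ (i, k)) (τ (i, l))) (X : Matrix Q Q ℂ) :
    z * theta (StarAlgHom.ofId ℂ C) A X
      = theta (StarAlgHom.ofId ℂ C) M ((extR P X).submatrix τ.symm τ.symm) := by
  have h : theta (StarAlgHom.ofId ℂ C) M ((extR P X).submatrix τ.symm τ.symm)
      = theta (StarAlgHom.ofId ℂ C) (fun u v => M (τ u) (τ v)) (extR P X) := by
    rw [theta_apply, theta_apply, ← Equiv.sum_comp τ]
    refine Finset.sum_congr rfl fun u _ => ?_
    rw [← Equiv.sum_comp τ]
    simp only [Matrix.submatrix_apply, Equiv.symm_apply_apply]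
  rw [h]
  simp only [theta_apply, extR_apply, Fintype.sum_prod_type_right,
    apply_ite (StarAlgHom.ofId ℂ C), map_zero, ite_mul, zero_mul, Finset.sum_ite_eq,
    Finset.mem_univ, if_true, Finset.mul_sum]
  refine Finset.sum_congr rfl fun i _ => ?_
  rw [Finset.sum_comm]
  refine Finset.sum_congr rfl fun j _ => ?_
  rw [← Finset.mul_sum, ← c1, (commute_ofId _ z).left_comm]

theorem twist_pair [Nonempty P] [Nonempty Q] {z : C} (hz : PC z) {B : P → P → C} {A : Q → Q → C}
    {M : P × Q → P × Q → C} (hB : Units (1 - z) B) (hA : Units z A) (hM : Units (z * (1 - z)) M)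
    (hc : ∀ u v, Commute z (M u v)) (τ : Equiv.Perm (P × Q))
    (c0 : ∀ i j, z * B i j = ∑ k, M (i, k) (j, k))
    (c1 : ∀ k l, (1 - z) * A k l = ∑ i, M (τ (i, k)) (τ (i, l))) :
    ∃ (z : C) (A : P → P → C) (B : Q → Q → C), Pair z A B := by
  obtain ⟨κ, g, hκ1, hκ, g1, g2, g3, g4⟩ := twist_perm τ
  obtain ⟨Γ, h1, -⟩ := exists_gamma
    (toMCh.comp ((extL Q).comp (ofMCh : MC P ℂ →⋆ₐ[ℂ] _)))
    (toMCh.comp (κ.comp ((extR P).comp (ofMCh : MC Q ℂ →⋆ₐ[ℂ] _))))
    (toMC.injective.comp (extL_injective.comp toMC.symm.injective))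
    (toMC.injective.comp (hκ1.comp (extR_injective.comp toMC.symm.injective))) hz
    (oz_theta hM _ fun c _ _ => commute_ofId c _) (oz_theta hB _ fun c _ _ => commute_ofId c _)
    (oz_theta hA _ fun c _ _ => commute_ofId c _)
    (fun x => commute_theta (fun c => (commute_ofId c z).symm) hc _)
    (fun x => by
      change z * theta _ B (toMC.symm x) = theta _ _ (toMC.symm (toMC (extL Q (toMC.symm x))))
      rw [StarAlgEquiv.symm_apply_apply, twist_left c0])
    (fun x => by
      change (1 - z) * theta _ A (toMC.symm x)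
        = theta _ _ (toMC.symm (toMC (κ (extR P (toMC.symm x)))))
      rw [StarAlgEquiv.symm_apply_apply, hκ, twist_right τ c1])
  have hL : Units (1 : MC (P × Q) ℂ) fun i j => toMCh (extL Q (Matrix.single i j 1)) := by
    have := ((units_single (B := ℂ) (ι := P)).map (extL Q)).map toMCh
    rwa [map_one, map_one] at this
  have hR : Units (1 : MC (P × Q) ℂ) fun i j => toMCh (extR P (Matrix.single i j 1)) := by
    have := ((units_single (B := ℂ) (ι := Q)).map (extR P)).map toMCh
    rwa [map_one, map_one] at this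
  refine twist_path hL hR (fun i j k l => (commute_extL_extR i j k l).map _)
    (fun t => ⟨toMCh (g t), Unitary.map_mem toMCh (g4 t)⟩) (continuous_toMC.comp g1)
    (fun i j => ?_) (fun i j => ?_) Γ h1
  · refine ⟨toMC (Matrix.single i j 1), ?_⟩
    change toMCh (extL Q (toMC.symm (toMC _))) = toMCh (g 0) * _ * star (toMCh (g 0))
    rw [StarAlgEquiv.symm_apply_apply, g2, map_one, star_one, one_mul, mul_one]
  · refine ⟨toMC (Matrix.single i j 1), ?_⟩
    change toMCh (κ (extR P (toMC.symm (toMC _)))) = toMCh (g 1) * _ * star (toMCh (g 1))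
    rw [StarAlgEquiv.symm_apply_apply, g3, map_mul, map_mul, map_star]

theorem twist_w {w : P → C} {y : C} (hy : ‖y‖ ≤ 1)
    (hw : ∀ i j, star (w i) * w j = if i = j then star y * y else 0) :
    PC (1 - ∑ i, w i * star (w i)) := by
  let := CStarAlgebra.spectralOrder C
  let := CStarAlgebra.spectralOrderedRing C
  set b := ∑ i, w i * star (w i) with hb
  have h0 : 0 ≤ b := Finset.sum_nonneg fun i _ => mul_star_self_nonneg _
  have h1 : star y * y ≤ 1 := by
    rw [← CStarAlgebra.norm_le_one_iff_of_nonneg _ (star_mul_self_nonneg y),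
      CStarRing.norm_star_mul_self]
    exact mul_le_one₀ hy (norm_nonneg _) hy
  have h2 : b * b ≤ b := by
    conv_lhs => rw [hb, Finset.sum_mul_sum]
    refine Finset.sum_le_sum fun i _ => ?_
    rw [Finset.sum_eq_single i (fun j _ hj => by
      rw [mul_assoc, ← mul_assoc (star _), hw, if_neg hj.symm, zero_mul, mul_zero]) (by simp),
      mul_assoc, ← mul_assoc (star _), hw, if_pos rfl, ← mul_assoc]
    simpa using star_right_conjugate_le_conjugate h1 (w i)
  have h3 : ‖b‖ ≤ 1 := by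
    have h4 := CStarAlgebra.norm_le_norm_of_nonneg_of_le
      (IsSelfAdjoint.of_nonneg h0).mul_self_nonneg h2
    rw [(IsSelfAdjoint.of_nonneg h0).norm_mul_self] at h4
    nlinarith [norm_nonneg b]
  have h5 := sub_nonneg.2 ((CStarAlgebra.norm_le_one_iff_of_nonneg _ h0).1 h3)
  exact ⟨.of_nonneg h5, (CStarAlgebra.norm_le_one_iff_of_nonneg _ h5).2 (sub_le_self _ h0),
    by rwa [sub_sub_cancel]⟩

end

theorem twist {N : Type} [Fintype N] [DecidableEq N] {o : N} {a v : C} {E : N → N → C}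
    (ha : PC a) (hE : Units a E) (hv : star v * v = (1 - a) * (1 - a)) (hEv : E o o * v = v) :
    ∃ (z : C) (A : Option N → Option N → C) (B : N → N → C), Pair z A B := by
  have : Nonempty N := ⟨o⟩
  obtain ⟨ρ, hρ⟩ : ∃ ρ, ρ = 1 - a := ⟨_, rfl⟩
  rw [← hρ] at hv
  have hρs : star ρ = ρ := by rw [hρ, star_sub, star_one, ha.sa.star_eq]
  have hρE : ∀ i j, Commute ρ (E i j) := fun i j => by
    rw [hρ]; exact (Commute.one_left _).sub_left (hE.comm i j)
  have hav : a * v = v := by rw [← hEv, ← mul_assoc, ← hE.mul_same o o o, mul_assoc, hEv, hEv]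
  have hρv : ρ * v = 0 := by rw [hρ, sub_mul, one_mul, hav, sub_self]
  have hva : star v * a = star v := by
    rw [← ha.sa.star_eq, ← star_mul, hav]
  let w : Option N → C := fun i => i.elim ρ fun j => E j o * v
  have hws : ∀ j, star (w (some j)) = star v * E o j := fun j => by
    change star (E j o * v) = _
    rw [star_mul, hE.star]
  have hρw : ∀ j, ρ * w (some j) = 0 := fun j => by
    change ρ * (E j o * v) = 0
    rw [(hρE _ _).left_comm, hρv, mul_zero]
  have hwρ : ∀ j, star (w (some j)) * ρ = 0 := fun j => by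
    rw [← hρs, ← star_mul, hρw, star_zero]
  have hw : ∀ i j, star (w i) * w j = if i = j then ρ * ρ else 0 := by
    rintro (_ | i) (_ | j)
    · exact congrArg (· * ρ) hρs
    · exact (congrArg (· * _) hρs).trans (hρw j)
    · exact hwρ i
    · change _ * (E j o * v) = _
      rw [hws, mul_assoc, ← mul_assoc (E o i), hE.mul]
      by_cases h : i = j
      · rw [if_pos h, if_pos (congrArg _ h), mul_assoc, hEv, hav, hv]
      · rw [if_neg h, if_neg fun h' => h (Option.some_injective _ h'), zero_mul, mul_zero]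
  obtain ⟨c, hc⟩ : ∃ c, c = ∑ j, w (some j) * star (w (some j)) := ⟨_, rfl⟩
  obtain ⟨z, hz⟩ : ∃ z, z = 1 - ∑ i, w i * star (w i) := ⟨_, rfl⟩
  have hpc : PC z := hz ▸ twist_w (y := ρ) (hρ ▸ ha.le') (by rwa [hρs])
  have hz' : 1 - z = ∑ i, w i * star (w i) := by rw [hz, sub_sub_cancel]
  have hb : 1 - z = ρ * ρ + c := by
    rw [hz', Fintype.sum_option, hc]; exact congrArg (ρ * · + _) hρs
  have hz1 : z = 1 - ρ * ρ - c := by rw [sub_sub, ← hb, sub_sub_cancel]
  have hcs : star c = c := by simp only [hc, star_sum, star_mul, star_star]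
  have hρc : ρ * c = 0 := by
    simp only [hc, Finset.mul_sum, ← mul_assoc, hρw, zero_mul, Finset.sum_const_zero]
  have hcρ : c * ρ = 0 := by rw [← hρs, ← hcs, ← star_mul, hρc, star_zero]
  have hbw : ∀ i, (1 - z) * w i = w i * (ρ * ρ) := fun i => by
    simp only [hz', Finset.sum_mul, mul_assoc, hw, mul_ite, mul_zero, Finset.sum_ite_eq',
      Finset.mem_univ, if_true]
  have hzw : ∀ i, Commute z (w i) := fun i => by
    have h1 : w i * c = 0 := by
      rw [← CStarRing.star_mul_self_eq_zero_iff, star_mul, mul_assoc, ← mul_assoc (star (w i)),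
        hw, if_pos rfl, mul_assoc, hρc, mul_zero, mul_zero]
    have h2 : w i * (1 - z) = (1 - z) * w i := by rw [hbw, hb, mul_add, h1, add_zero]
    simpa using (Commute.one_left (w i)).sub_left (Commute.symm h2)
  have hzw' : ∀ i, Commute z (star (w i)) := fun i => by
    simpa [hpc.sa.star_eq] using (hzw i).star_star
  have hcE : ∀ k l, c * E k l = w (some k) * star (w (some l)) := fun k l => by
    simp only [hc, hws, Finset.sum_mul, mul_assoc, hE.mul, mul_ite, mul_zero, Finset.sum_ite_eq',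
      Finset.mem_univ, if_true]
    rw [← mul_assoc (star v), hva]
  have hcE' : ∀ k l, Commute c (E k l) := fun k l => by
    have := congrArg star (hcE l k)
    rw [star_mul, star_mul, star_star, hcs, hE.star] at this
    exact (hcE k l).trans this.symm
  obtain ⟨κ, hκ⟩ : ∃ κ, κ = 1 + ρ - c := ⟨_, rfl⟩
  have hκs : star κ = κ := by rw [hκ, star_sub, star_add, star_one, hρs, hcs]
  have hκE : ∀ k l, Commute κ (E k l) := fun k l => by
    rw [hκ]; exact ((Commute.one_left _).add_left (hρE k l)).sub_left (hcE' k l)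
  have hρκ : Commute ρ κ := by
    rw [hκ]
    exact ((Commute.one_right _).add_right (.refl _)).sub_right (hρc.trans hcρ.symm)
  have haκ : a * κ = z := by
    have : a = 1 - ρ := by rw [hρ, sub_sub_cancel]
    rw [this, hκ, hz1, mul_sub, sub_mul 1 ρ c, hρc]
    noncomm_ring
  have hA : Units z fun k l => E k l * κ :=
    { mul := fun i j k l => by
        rw [(hκE k l).mul_mul_mul_comm, hE.mul]
        split_ifs
        · rw [← haκ, (hκE i l).mul_mul_mul_comm]
        · exact zero_mul _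
      star := fun i j => by rw [star_mul, hκs, hE.star, (hκE j i).eq]
      sum := by rw [← Finset.sum_mul, hE.sum, haκ] }
  have hρA : ∀ k l, Commute ρ (E k l * κ) := fun k l => (hρE k l).mul_right hρκ
  have hρz : Commute ρ z := hA.commute_of hρA
  have hB : Units (1 - z) fun i j => w i * star (w j) :=
    { mul := fun i j k l => by
        rw [mul_assoc, ← mul_assoc (star _), hw]
        split_ifs
        · rw [← mul_assoc (1 - z), hbw, mul_assoc (w i)]
        · rw [zero_mul, mul_zero]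
      star := fun i j => by rw [star_mul, star_star]
      sum := hz'.symm }
  have hM : Units (z * (1 - z)) fun x y : Option N × N =>
      w x.1 * (E x.2 y.2 * κ) * star (w y.1) :=
    { mul := fun x y x' y' => by
        generalize hA' : (fun k l => E k l * κ) = A at hA
        have e : ∀ k l, E k l * κ = A k l := fun k l => congrFun (congrFun hA' k) l
        simp only [e] at hρA ⊢
        rw [mul_assoc, mul_assoc (w x'.1), ← mul_assoc (star _), hw]
        by_cases h1 : y.1 = x'.1
        · rw [if_pos h1, mul_assoc (w x.1), ← ((hρA _ _).mul_left (hρA _ _)).left_comm,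
            ← mul_assoc (A _ _), hA.mul]
          by_cases h2 : y.2 = x'.2
          · rw [if_pos h2, if_pos (Prod.ext h1 h2), mul_assoc z (1 - z), mul_assoc (w x.1),
              ← mul_assoc (1 - z), hbw, mul_assoc (w x.1), (hzw _).left_comm, mul_assoc z,
              (hρz.mul_left hρz).left_comm]
          · rw [if_neg h2, if_neg fun h => h2 (congrArg Prod.snd h), zero_mul, mul_zero, mul_zero]
        · rw [if_neg h1, if_neg fun h => h1 (congrArg Prod.fst h), zero_mul, mul_zero]
      star := fun x y => by rw [star_mul, star_mul, star_star, hA.star, mul_assoc (w y.1)]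
      sum := by
        rw [Fintype.sum_prod_type, hz', Finset.mul_sum]
        refine Finset.sum_congr rfl fun i _ => ?_
        dsimp only
        rw [← Finset.sum_mul, ← Finset.mul_sum, hA.sum, ← (hzw i).eq, mul_assoc] }
  let τ : Option N × N → Option N × N := fun x => x.1.elim x fun j => (some x.2, j)
  have hτ : Function.Involutive τ := by rintro ⟨_ | j, k⟩ <;> rfl
  refine twist_pair hpc hB hA hM (fun x y => ((hzw _).mul_right (hA.comm _ _)).mul_right (hzw' _))
    hτ.toPerm (fun i j => ?_) fun k l => ?_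
  · dsimp only
    rw [← Finset.sum_mul, ← Finset.mul_sum, hA.sum, ← (hzw i).eq, mul_assoc]
  · rw [Fintype.sum_option, hb, add_mul]
    change _ = ρ * (E k l * κ) * star ρ +
      ∑ m, w (some k) * (E m m * κ) * star (w (some l))
    rw [← Finset.sum_mul, ← Finset.mul_sum, hA.sum, hρs, mul_assoc ρ _ ρ, ← (hρA k l).eq,
      mul_assoc ρ ρ, ← mul_assoc c, hcE, mul_assoc _ z, (hzw' _).eq, ← haκ, hws, mul_assoc (w _),
      mul_assoc (star v) _ (a * κ), ← (hE.comm o l).left_comm, ← mul_assoc (star v) a, hva,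
      mul_assoc (star v)]

theorem pair_of_coprime (h : ∀ n : ℕ, ∃ (z : C)
      (A : Option (Fin (n + 1)) → Option (Fin (n + 1)) → C) (B : Fin (n + 1) → Fin (n + 1) → C),
      Pair z A B) {P Q : ℕ} (hP : 0 < P) (hQ : 0 < Q) (hPQ : P.Coprime Q) :
    ∃ (z : C) (A : Fin P → Fin P → C) (B : Fin Q → Fin Q → C), Pair z A B := by
  obtain ⟨k, h1, h2⟩ := Nat.chineseRemainder hPQ (P - 1) 0
  obtain ⟨n, hn⟩ : ∃ n, k + P * Q = n + 1 :=
    ⟨k + P * Q - 1, by have := Nat.mul_pos hP hQ; omega⟩
  obtain ⟨s, hs⟩ : P ∣ n + 1 + 1 := by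
    have h3 := (h1.add_right 1).add_right (P * Q)
    rw [Nat.sub_add_cancel hP, add_right_comm, hn] at h3
    exact (h3.dvd_iff dvd_rfl).2 (dvd_add dvd_rfl (dvd_mul_right _ _))
  obtain ⟨s', hs'⟩ : Q ∣ n + 1 :=
    hn ▸ dvd_add ((Nat.modEq_zero_iff_dvd).1 h2) (dvd_mul_left _ _)
  obtain ⟨z, A, B, hp⟩ := h n
  let e : Fin P × Fin s ≃ Option (Fin (n + 1)) := Fintype.equivOfCardEq (by simp [hs])
  let e' : Fin Q × Fin s' ≃ Fin (n + 1) := Fintype.equivOfCardEq (by simp [hs'])
  exact ⟨z, _, _, hp.pc, (hp.ua.reindex e).left, (hp.ub.reindex e').left, fun i j k l =>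
    Commute.sum_left _ _ _ fun _ _ => Commute.sum_right _ _ _ fun _ _ => hp.comm _ _ _ _⟩

end Vale.Agent.P101
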