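import Vale.Agent.P101.Comm
import Vale.Agent.P101.Merge
import Vale.Agent.P101.Init
import Vale.Agent.P101.Twist

/-! From the absence of characters to pairs. -/

open Real

namespace Vale.Agent.P101

variable {F D : Type} [CStarAlgebra F] [CStarAlgebra D]

theorem exists_gap {h : D} (hh : IsSelfAdjoint h) (H : ∀ J, CI J → ∃ z, h * z - z * h ∉ J) :
    ∃ δ > 0, ∀ J, CI J → ∃ u ∈ Sp J h, ∃ v ∈ Sp J h, u + δ ≤ v := by
  obtain ⟨n, s, y, t, h1, h2⟩ := exists_fin (S := {s | ∃ z, h * z - z * h = s}) fun J hJ =>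
    (H J hJ).elim fun z hz => ⟨_, ⟨z, rfl⟩, hz⟩
  choose z hz using h1
  set K := ∑ i, ‖y i‖ * (2 * ‖z i‖ * ‖t i‖)
  have hK : 0 ≤ K := by positivity
  refine ⟨1 / (K + 1), by positivity, fun J hJ => ?_⟩
  by_contra hn
  push Not at hn
  obtain ⟨u, hu⟩ := hJ.sp_nonempty hh
  obtain ⟨w, h3, h4⟩ := hJ.exists_near hh (u := u) (δ := 1 / (K + 1)) (by positivity) fun t ht =>
    abs_le.2 ⟨by linarith [hn t ht u hu], by linarith [hn u hu t ht]⟩
  have h5 := hJ.not_near (hJ.sum Finset.univ fun i _ => hJ.ml (y i) (hJ.mr (t i)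
    (hJ.sub (hJ.mr (z i) h4) (hJ.ml (z i) h4))))
  rw [← h2, ← Finset.sum_sub_distrib] at h5
  have h6 : ∀ i, ‖y i * (s i * t i) - y i * (((h - algebraMap ℝ D u - w) * z i
      - z i * (h - algebraMap ℝ D u - w)) * t i)‖ ≤ 1 / (K + 1) * (‖y i‖ * (2 * ‖z i‖ * ‖t i‖)) := by
    intro i
    have : y i * (s i * t i) - y i * (((h - algebraMap ℝ D u - w) * z i
      - z i * (h - algebraMap ℝ D u - w)) * t i) = y i * ((w * z i - z i * w) * t i) := by
      rw [← hz]
      linear_combination (norm := noncomm_ring) y i * (Algebra.commutes u (z i)) * t i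
    rw [this]
    have h7 : ‖w * z i - z i * w‖ ≤ 1 / (K + 1) * (2 * ‖z i‖) := by
      nlinarith [norm_sub_le (w * z i) (z i * w), norm_mul_le w (z i), norm_mul_le (z i) w,
        norm_nonneg (z i)]
    calc _ ≤ ‖y i‖ * (‖w * z i - z i * w‖ * ‖t i‖) :=
          (norm_mul_le _ _).trans (by gcongr; exact norm_mul_le _ _)
      _ ≤ ‖y i‖ * (1 / (K + 1) * (2 * ‖z i‖) * ‖t i‖) := by gcongr
      _ = _ := by ring
  have h8 := h5.trans (norm_sum_le_of_le _ fun i _ => h6 i)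
  rw [← Finset.mul_sum, div_mul_eq_mul_div, one_mul, le_div_iff₀ (by positivity)] at h8
  linarith

theorem exists_long (hR : Rich F) (hD : Adm F D) {h : D} (hh : IsSelfAdjoint h) {δ : ℝ}
    (H : ∀ J, CI J → ∃ u ∈ Sp J h, ∃ v ∈ Sp J h, u + δ ≤ v) (k : ℕ) :
    ∃ (E : Type) (_ : CStarAlgebra E) (x : E), Adm F E ∧ IsSelfAdjoint x ∧ ∀ J, CI J →
      ∃ a b, a + k * δ ≤ b ∧ b ∈ Sp J x ∧
        ∀ s, a ≤ s → s ≤ b → ∃ t ∈ Sp J x, s ≤ t ∧ t ≤ s + 2 * ‖h‖ := by
  induction k with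
  | zero =>
    refine ⟨D, inferInstance, h, hD, hh, fun J hJ => ?_⟩
    obtain ⟨u, hu⟩ := hJ.sp_nonempty hh
    exact ⟨u, u, by simp, hu, fun s h1 h2 => ⟨u, hu, h2, by linarith [norm_nonneg h]⟩⟩
  | succ k ih =>
    obtain ⟨D1, _, x, h1, hx, h2⟩ := ih
    obtain ⟨E, _, i1, i2, hE, hc, hp⟩ := double hR h1 hD
    refine ⟨E, inferInstance, i1 x + i2 h, hE, (hx.map i1).add (hh.map i2), fun J hJ => ?_⟩
    obtain ⟨M, h3, hM, h4⟩ := hp J hJ
    obtain ⟨a, b, h5, h6, h7⟩ := h2 _ (hM.comap i1)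
    obtain ⟨u, hu, v, hv, h8⟩ := H _ (hM.comap i2)
    have key : ∀ s ∈ Sp (i1 ⁻¹' M) x, ∀ t ∈ Sp (i2 ⁻¹' M) h, s + t ∈ Sp J (i1 x + i2 h) :=
      fun s hs t ht => Sp.mono h3 _ (hM.sp_add (hx.map i1) (hh.map i2) (hc _ _)
        (fun f g hf hg => by rw [← map_cfc' i1 hx hf, ← map_cfc' i2 hh hg]; exact h4 _ _)
        (by rwa [Sp.map i1 hx]) (by rwa [Sp.map i2 hh]))
    have h9 := abs_le.1 (Sp.abs_le (hM.comap i2) hu)
    have h10 := abs_le.1 (Sp.abs_le (hM.comap i2) hv)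
    refine ⟨a + u, b + v, by push_cast; linarith, key _ h6 _ hv, fun s h11 h12 => ?_⟩
    rcases le_total (s - u) b with h13 | h13
    · obtain ⟨t, ht, h14, h15⟩ := h7 (s - u) (by linarith) h13
      exact ⟨t + u, key _ ht _ hu, by linarith, by linarith⟩
    · exact ⟨b + v, key _ h6 _ hv, h12, by linarith⟩

theorem exists_orth (hR : Rich F) (hF : ∀ χ : F →⋆ₙₐ[ℂ] ℂ, χ = 0) :
    ∃ (D : Type) (_ : CStarAlgebra D) (g1 g2 : D), Adm F D ∧ g1 * g2 = 0 ∧ g2 * g1 = 0 ∧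
      Full (g1 * g1) ∧ Full (g2 * g2) := by
  obtain ⟨D, _, h, hD, hh, H⟩ := exists_gen hR hF
  obtain ⟨δ, hδ, H1⟩ := exists_gap hh H
  set c := ‖h‖ + 1 with hc
  have c0 : 0 < c := by positivity
  obtain ⟨k, hk⟩ := exists_nat_ge (2 * π * c / δ)
  rw [div_le_iff₀ hδ] at hk
  obtain ⟨E, _, x, hE, hx, H2⟩ := exists_long hR hD hh H1 k
  let g : ℝ → ℝ → ℝ := fun θ t => max (sin (t / c - θ)) 0
  have hg : ∀ θ, Continuous (g θ) := fun θ => by fun_prop
  have h0 : ∀ t, g 0 t * g π t = 0 := fun t => by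
    simp only [g, sub_zero, sin_sub_pi]
    rcases le_total (sin (t / c)) 0 with h | h
    · simp [h]
    · simp [h]
  have hf : ∀ θ, Full (cfc (g θ) x * cfc (g θ) x) := fun θ J hJ hm => by
    rw [← cfc_mul _ _ x (hg θ).continuousOn (hg θ).continuousOn] at hm
    obtain ⟨a, b, h1, -, h2⟩ := H2 J hJ
    set m := ⌈(a / c - θ - 1 / 2) / (2 * π)⌉
    have h3 : (a / c - θ - 1 / 2) ≤ m * (2 * π) := by
      rw [← div_le_iff₀ two_pi_pos]; exact Int.le_ceil _
    have h4 : m * (2 * π) ≤ (a / c - θ - 1 / 2) + 2 * π := by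
      rw [← le_div_iff₀ two_pi_pos, add_div, div_self two_pi_pos.ne']
      exact (Int.ceil_lt_add_one _).le
    have h5 : a / c * c = a := div_mul_cancel₀ a c0.ne'
    obtain ⟨t, ht, h6, h7⟩ := h2 ((m * (2 * π) + θ + 1 / 2) * c) (by nlinarith) (by nlinarith)
    have h8 := ht _ ((hg θ).fun_mul (hg θ)) hm
    have h9 : 0 < sin (t / c - θ) := by
      rw [← sin_sub_int_mul_two_pi _ m]
      rw [← le_div_iff₀ c0] at h6
      have : t / c ≤ m * (2 * π) + θ + 1 / 2 + 2 := by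
        rw [div_le_iff₀ c0]; linarith
      exact sin_pos_of_pos_of_lt_pi (by linarith) (by linarith [pi_gt_three])
    simp [g, max_eq_left h9.le, h9.ne'] at h8
  refine ⟨E, inferInstance, cfc (g 0) x, cfc (g π) x, hE, ?_, ?_, hf 0, hf π⟩
  · rw [← cfc_mul _ _ x (hg _).continuousOn (hg _).continuousOn]
    simp [h0]
  · rw [← cfc_mul _ _ x (hg _).continuousOn (hg _).continuousOn]
    simp [mul_comm (g π _), h0]

theorem exists_sq_zero (hR : Rich F) (hF : ∀ χ : F →⋆ₙₐ[ℂ] ℂ, χ = 0) :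
    ∃ (D : Type) (_ : CStarAlgebra D) (x : D), Adm F D ∧ x * x = 0 ∧ Full x := by
  obtain ⟨D, _, g1, g2, hD, h12, h21, f1, f2⟩ := exists_orth hR hF
  obtain ⟨n, s, y, t, h1, h2⟩ := exists_fin (S := {s | ∃ z, g1 * z * g2 = s}) fun J hJ => by
    by_contra hn
    have h3 : ∀ z, g1 * z * g2 ∈ J := fun z => not_not.1 fun h => hn ⟨_, ⟨z, rfl⟩, h⟩
    refine f1 {w | ∀ z, w * z * g2 ∈ J} ⟨⟨fun e => by simpa using hJ.zero,
      fun h1 h2 e => by simpa [add_mul] using hJ.add (h1 e) (h2 e),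
      fun x _ h1 e => by simpa [mul_assoc] using hJ.ml x (h1 e),
      fun x h1 e => by simpa [mul_assoc] using h1 (x * e),
      fun h1 => f2 J hJ (by simpa using h1 g2)⟩, ?_⟩ fun z => by simpa [mul_assoc] using h3 (g1 * z)
    simp only [Set.setOf_forall]
    exact isClosed_iInter fun z => hJ.closed.preimage (f := fun w => w * z * g2) (by fun_prop)
  choose z hz using h1
  obtain ⟨E, _, hE, x, h3, h4⟩ := reduce (F := F) (fun k D _ => ∃ x : Fin k → D,
    (∀ a b, x a * x b = 0) ∧ ∀ J, CI J → ∃ a, x a ∉ J) (fun k D1 _ hD1 ⟨x, h3, h4⟩ => by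
      obtain ⟨E, _, i1, i2, hE, hc, -⟩ := double hR hD1 hD
      refine ⟨E, inferInstance, hE, fun a => i1 (x a.castSucc) * i2 g1 + i1 (x (Fin.last _)) * i2 g2,
        fun a b => ?_, fun J hJ => ?_⟩
      · simp only [add_mul, mul_add, (hc _ _).symm.mul_mul_mul_comm, ← map_mul, h3]
        simp
      · by_contra hn
        push Not at hn
        obtain ⟨a, ha⟩ := h4 _ (hJ.comap i1)
        revert ha
        refine Fin.lastCases (fun h => h ?_) (fun a h => h ?_) a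
        · refine f2.cancel i2 hJ (hc _) ?_
          simpa [add_mul, mul_assoc, ← map_mul, h12] using hJ.mr (i2 g2) (hn 0)
        · refine f1.cancel i2 hJ (hc _) ?_
          simpa [add_mul, mul_assoc, ← map_mul, h21] using hJ.mr (i2 g1) (hn a))
    n D hD ⟨Fin.cons 0 s, Fin.cases (by simp) fun a => Fin.cases (by simp) fun b => by
      simp only [Fin.cons_succ, ← hz, mul_assoc]
      rw [← mul_assoc g2, h21]; simp, fun J hJ => by
      by_contra hn
      push Not at hn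
      exact hJ.one (h2 ▸ hJ.sum _ fun i _ => hJ.ml _ (hJ.mr _ (hn i.succ)))⟩
  refine ⟨E, inferInstance, x 0, hE, h3 0 0, fun J hJ => ?_⟩
  obtain ⟨a, ha⟩ := h4 J hJ
  rwa [Subsingleton.elim a 0] at ha

theorem units_of_fam {ι : Type} [Fintype ι] [DecidableEq ι] {c : ι → D} {b : D}
    (h : ∀ i j, c i * star (c j) = if i = j then b else 0) :
    Units (∑ i, star (c i) * c i) (fun i j => star (c i) * c j) where
  mul i j k l := by
    have : ∀ m, star (c m) * c m * (star (c i) * c l)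
        = if m = i then star (c m) * (b * c l) else 0 := fun m => by
      rw [mul_assoc, ← mul_assoc (c m), h]; split_ifs <;> simp
    rw [mul_assoc, ← mul_assoc (c j), h, Finset.sum_mul]
    simp only [this]
    split_ifs <;> simp
  star i j := by simp
  sum := rfl

theorem Units.restrict {ι κ : Type} [Fintype ι] [DecidableEq ι] [Fintype κ] [DecidableEq κ]
    {a : D} {e : ι → ι → D} (h : Units a e) (σ : κ ↪ ι) :
    Units (∑ i, e (σ i) (σ i)) (fun i j => e (σ i) (σ j)) where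
  mul i j k l := by simp [h.mul, Finset.sum_mul]
  star i j := h.star _ _
  sum := rfl

theorem exists_units (hR : Rich F) (hF : ∀ χ : F →⋆ₙₐ[ℂ] ℂ, χ = 0) (n : ℕ) :
    ∃ (D : Type) (_ : CStarAlgebra D) (a : D) (e : Fin (n + 1) → Fin (n + 1) → D),
      Adm F D ∧ Units a e ∧ ∀ i, Full (e i i) := by
  obtain ⟨D, _, x, hD, h1, h2⟩ := exists_sq_zero hR hF
  have hh : IsSelfAdjoint (x * star x) := IsSelfAdjoint.mul_star_self x
  have hs : IsSelfAdjoint (cfc Real.sqrt (x * star x)) := cfc_predicate _ _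
  have h3 : cfc Real.sqrt (x * star x) * star x = 0 := by
    rw [cfc_mul_eigen hh (s := 0) (by rw [mul_assoc, ← star_mul, h1]; simp) continuous_sqrt]
    simp
  have h4 : cfc Real.sqrt (x * star x) * cfc Real.sqrt (x * star x) = x * star x := by
    rw [← cfc_mul ..]
    conv_rhs => rw [← cfc_id' ℝ (x * star x) hh]
    exact cfc_congr fun t ht => Real.mul_self_sqrt
      (spectrum_star_mul_self_nonneg (b := star x) t (by rwa [star_star]))
  have h5 : ∀ i j : Fin 2, ![x, cfc Real.sqrt (x * star x)] i *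
      star (![x, cfc Real.sqrt (x * star x)] j) = if i = j then x * star x else 0 := by
    have := congrArg star h3
    rw [star_mul, star_star, star_zero, hs.star_eq] at this
    simp [Fin.forall_fin_two, h3, this, hs.star_eq, h4]
  have h6 := units_of_fam h5
  have h7 : ∀ i : Fin 2, Full (star (![x, cfc Real.sqrt (x * star x)] i) *
      ![x, cfc Real.sqrt (x * star x)] i) := fun i J hJ hm => by
    have := hJ.mr (star (![x, cfc Real.sqrt (x * star x)] i)) (hJ.of_star_mul hm)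
    rw [h5, if_pos rfl] at this
    exact h2 J hJ (hJ.of_star_mul (hJ.mr x (hJ.of_star_mul (by rwa [star_star]))))
  induction n with
  | zero => exact ⟨D, inferInstance, _, _, hD, h6.restrict (Fin.castLEEmb (by simp)), fun i => h7 _⟩
  | succ n ih =>
    obtain ⟨D1, _, a, e, hD1, he, hf⟩ := ih
    obtain ⟨E, _, i1, i2, hE, hc, -⟩ := double hR hD1 hD
    obtain ⟨σ⟩ := Function.Embedding.nonempty_of_card_le (α := Fin (n + 1 + 1))
      (β := Fin (n + 1) × Fin 2) (by simp)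
    exact ⟨E, inferInstance, _, _, hE,
      ((he.map i1).prod (h6.map i2) fun _ _ _ _ => hc _ _).restrict σ,
      fun i J hJ hm => (hf _).map i1 J hJ ((h7 _).cancel i2 hJ (hc _) hm)⟩

theorem exists_pair (hR : Rich F) (hF : ∀ χ : F →⋆ₙₐ[ℂ] ℂ, χ = 0) (P Q : ℕ) (hP : 0 < P)
    (hQ : 0 < Q) (hPQ : P.Coprime Q) :
    ∃ (z : F) (A : Fin P → Fin P → F) (B : Fin Q → Fin Q → F), Pair z A B := by
  refine pair_of_coprime (fun n => ?_) hP hQ hPQ
  obtain ⟨D, _, a, e, hD, he, hf⟩ := exists_units hR hF n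
  obtain ⟨k, hk⟩ := St.init (o := 0) he (Ideal.span_mono (by
    rintro _ ⟨_, rfl, t, rfl⟩
    exact ⟨t, rfl⟩) (one_mem_span (S := {e 0 0}) fun J hJ => ⟨_, rfl, hf 0 J hJ⟩))
  obtain ⟨E, _, ⟨-, ⟨ψ⟩⟩, hE⟩ := reduce (F := F) (fun k D _ => St (0 : Fin (n + 1)) k D)
    (fun k D _ hD h => by
      obtain ⟨E, _, i1, i2, hE, hc, -⟩ := double hR hD hD
      exact ⟨E, inferInstance, hE, h.merge i1 i2 hc⟩) k D hD hk
  obtain ⟨a, v, E, h1, h2, h3, h4⟩ := hE.final
  obtain ⟨z, A, B, h⟩ := twist h1 h2 h3 h4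
  exact ⟨_, _, _, h.map ψ⟩

end Vale.Agent.P101
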