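import Mathlib

/-! Definitions for the Kirchberg-Rordam character question, second presentation. -/

open Filter Topology
open scoped Kronecker Matrix BoundedContinuousFunction TensorProduct ComplexOrder

namespace Vale.Agent.P101.V2

/-- `π` presents `U` as the norm ultrapower of `A` along `ω`. -/
def IsUltrapower {A U : Type} [CStarAlgebra A] [CStarAlgebra U] (ω : Ultrafilter ℕ)
    (π : (ℕ →ᵇ A) →⋆ₐ[ℂ] U) : Prop :=
  Function.Surjective π ∧ ∀ x, π x = 0 ↔ Tendsto (fun n => ‖x n‖) (ω : Filter ℕ) (𝓝 0)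

/-- The central sequence algebra: the commutant in `U` of the constant sequences. -/
noncomputable def centralSeq {A U : Type} [CStarAlgebra A] [CStarAlgebra U]
    (π : (ℕ →ᵇ A) →⋆ₐ[ℂ] U) : StarSubalgebra ℂ U :=
  StarSubalgebra.centralizer ℂ (Set.range fun a : A => π (BoundedContinuousFunction.const ℕ a))

/-- The subalgebra `F` has no character (nonzero star homomorphism to `ℂ`). -/
def NoCharacters {U : Type} [CStarAlgebra U] (F : StarSubalgebra ℂ U) : Prop :=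
  ∀ χ : F →⋆ₙₐ[ℂ] ℂ, χ = 0

/-- Complex `pq × pq` matrices, `M_p ⊗ M_q`. -/
abbrev Mat (p q : ℕ) : Type := Matrix (Fin p × Fin q) (Fin p × Fin q) ℂ

/-- `b ↦ (t ↦ ev t b)` is a star isomorphism of `B` onto the dimension drop algebra. -/
def IsDimDrop (p q : ℕ) {B : Type} [CStarAlgebra B]
    (ev : unitInterval → (B →⋆ₐ[ℂ] Mat p q)) : Prop :=
  (∀ b, (∀ t, ev t b = 0) → b = 0) ∧
  ∀ f : unitInterval → Mat p q, (∃ b, ∀ t, ev t b = f t) ↔ Continuous f ∧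
    (∃ x : Matrix (Fin p) (Fin p) ℂ, f 0 = x ⊗ₖ (1 : Matrix (Fin q) (Fin q) ℂ)) ∧
    (∃ y : Matrix (Fin q) (Fin q) ℂ, f 1 = (1 : Matrix (Fin p) (Fin p) ℂ) ⊗ₖ y)

/-- `φ f = u* diag (f ∘ ξ₁, …, f ∘ ξ_k) u`. -/
def IsStdMap {p q p' q' : ℕ} {B B' : Type} [CStarAlgebra B] [CStarAlgebra B']
    (ev : unitInterval → (B →⋆ₐ[ℂ] Mat p q)) (ev' : unitInterval → (B' →⋆ₐ[ℂ] Mat p' q'))
    (φ : B →⋆ₐ[ℂ] B') : Prop :=
  ∃ (k : ℕ) (ξ : Fin k → unitInterval → unitInterval)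
    (u : unitInterval → Matrix ((Fin p × Fin q) × Fin k) (Fin p' × Fin q') ℂ),
    (∀ i x y, dist (ξ i x) (ξ i y) ≤ dist x y / 2) ∧
    Continuous u ∧ (∀ t, (u t)ᴴ * u t = 1) ∧ (∀ t, u t * (u t)ᴴ = 1) ∧
    ∀ b t, ev' t (φ b) = (u t)ᴴ * Matrix.blockDiagonal (fun i => ev (ξ i t) b) * u t

/-- `φ, ι` are injective and `ι' ∘ φ = ι` -/
def IsStep {B B' Z : Type} [CStarAlgebra B] [CStarAlgebra B'] [CStarAlgebra Z]
    (φ : B →⋆ₐ[ℂ] B') (ι : B →⋆ₐ[ℂ] Z) (ι' : B' →⋆ₐ[ℂ] Z) : Prop :=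
  Function.Injective φ ∧ Function.Injective ι ∧ ∀ b, ι' (φ b) = ι b

/-- the image of a homomorphism -/
def img {B Z : Type} [CStarAlgebra B] [CStarAlgebra Z] (ι : B →⋆ₐ[ℂ] Z) : Set Z := Set.range ι

/-- `Z` is the inductive limit of the Jiang-Su sequence `(B, φ)`. -/
def IsJiangSuLimit (p q : ℕ → ℕ) {B : ℕ → Type} [∀ n, CStarAlgebra (B n)] {Z : Type}
    [CStarAlgebra Z] (ev : ∀ n, unitInterval → (B n →⋆ₐ[ℂ] Mat (p n) (q n)))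
    (φ : ∀ n, B n →⋆ₐ[ℂ] B (n + 1)) (ι : ∀ n, B n →⋆ₐ[ℂ] Z) : Prop :=
  (∀ n, 1 < p n ∧ 1 < q n ∧ (p n).Coprime (q n) ∧ p n ∣ p (n + 1) ∧ q n ∣ q (n + 1)) ∧
  (∀ n, IsDimDrop (p n) (q n) (ev n)) ∧
  (∀ n, IsStdMap (ev n) (ev (n + 1)) (φ n)) ∧
  (∀ n, IsStep (φ n) (ι n) (ι (n + 1))) ∧ Dense (⋃ n, img (ι n))

/-- `Z` is the limit of some Jiang-Su sequence. -/
def IsJiangSu (Z : Type) [CStarAlgebra Z] : Prop :=
  ∃ (p q : ℕ → ℕ) (B : ℕ → Type) (_ : ∀ n, CStarAlgebra (B n))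
    (ev : ∀ n, unitInterval → (B n →⋆ₐ[ℂ] Mat (p n) (q n)))
    (φ : ∀ n, B n →⋆ₐ[ℂ] B (n + 1)) (ι : ∀ n, B n →⋆ₐ[ℂ] Z), IsJiangSuLimit p q ev φ ι

/-- simple, infinite dimensional, with a unique tracial state -/
def SimpleMonotracial (Z : Type) [CStarAlgebra Z] : Prop :=
  IsSimpleRing Z ∧ ¬ FiniteDimensional ℂ Z ∧
    ∃! τ : Z →L[ℂ] ℂ, τ 1 = 1 ∧ (∀ x, 0 ≤ τ (star x * x)) ∧ ∀ x y, τ (x * y) = τ (y * x)

/-- `ρ`, `σ` are faithful and the norm of `ι x` is the operator norm of `(ρ ⊗ σ) x` on `H ⊗ K` -/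
def IsSpatial {A Z B H K : Type} [CStarAlgebra A] [CStarAlgebra Z] [CStarAlgebra B]
    [NormedAddCommGroup H] [InnerProductSpace ℂ H] [CompleteSpace H]
    [NormedAddCommGroup K] [InnerProductSpace ℂ K] [CompleteSpace K]
    (ρ : A →⋆ₐ[ℂ] (H →L[ℂ] H)) (σ : Z →⋆ₐ[ℂ] (K →L[ℂ] K)) (ι : A ⊗[ℂ] Z →⋆ₐ[ℂ] B) : Prop :=
  Function.Injective ρ ∧ Function.Injective σ ∧ ∀ (n : ℕ) (a : Fin n → A) (z : Fin n → Z),
    ‖ι (∑ i, a i ⊗ₜ z i)‖ = ‖∑ i, TensorProduct.mapL (ρ (a i)) (σ (z i))‖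

/-- `ι` presents `B` as the minimal (spatial) tensor product of `A` and `Z` -/
def IsMinTensor {A Z B : Type} [CStarAlgebra A] [CStarAlgebra Z] [CStarAlgebra B]
    (ι : A ⊗[ℂ] Z →⋆ₐ[ℂ] B) : Prop :=
  DenseRange ι ∧ ∃ (H K : Type) (_ : NormedAddCommGroup H) (_ : InnerProductSpace ℂ H)
    (_ : CompleteSpace H) (_ : NormedAddCommGroup K) (_ : InnerProductSpace ℂ K)
    (_ : CompleteSpace K) (ρ : A →⋆ₐ[ℂ] (H →L[ℂ] H)) (σ : Z →⋆ₐ[ℂ] (K →L[ℂ] K)), IsSpatial ρ σ ι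

/-- the minimal tensor product of `A` and `Z` exists -/
def HasMinTensor (A Z : Type) [CStarAlgebra A] [CStarAlgebra Z] : Prop :=
  ∃ (B : Type) (_ : CStarAlgebra B) (ι : A ⊗[ℂ] Z →⋆ₐ[ℂ] B), IsMinTensor ι

/-- the ultrapower of `A` along `ω` exists -/
def HasUltrapower (A : Type) [CStarAlgebra A] (ω : Ultrafilter ℕ) : Prop :=
  ∃ (U : Type) (_ : CStarAlgebra U) (π : (ℕ →ᵇ A) →⋆ₐ[ℂ] U), IsUltrapower ω π

end Vale.Agent.P101.V2
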