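import Vale.Agent.P101.Osc
import Vale.Agent.P101.HalfAux

/-! The Jiang-Su algebra has a unique tracial state.

Plan. Uniqueness: `hp_of_std` gives `HP`. For a continuous trace `τ` with `τ 1 = 1` put
`τr X = (1/r) ∑ i, τ (X i i)` on `Matrix (Fin r) (Fin r) Z`; it is a trace, and
`|τr X| ≤ ‖τ‖ ‖toMC X‖` (entries have norm `≤ ‖toMC X‖`: `single i i 1 * X * single i i 1`, or
`CStarMatrix.norm_entry_le_norm`; push `B n → Z` entrywise with `norm_map_le_toMC`). With
`W diag (μ f) W* ≈ φ f` we get `|τ (ι m f) - tr (φ f) / r| ≤ ‖τ‖ ε`, where the middle term does not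
depend on `τ`; so two tracial states agree on the dense union.
Existence: `τ_k = tr ∘ ev k 0` normalised is a tracial state of norm `≤ 1` on `B k`; extend
`τ_k ∘ (ι k)⁻¹` to `ρ_k : Z →L[ℂ] ℂ` with norm `≤ 1` (Hahn-Banach, `exists_extension_norm_eq`, `ι k` is
isometric), and let `τ z` be the limit of `ρ_k z` along `hyperfilter ℕ`. On `range (ι m)`, which is
contained in `range (ι k)` for `k ≥ m`, `τ` is a limit of tracial positive unital values; extend the
identities by density and continuity. -/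

open scoped ComplexOrder

namespace Vale.Agent.P101

theorem tr_entry {B κ : Type} [CStarAlgebra B] [Fintype κ] [DecidableEq κ] (X : Matrix κ κ B)
    (i : κ) : ‖X i i‖ ≤ ‖toMC X‖ := by
  let σ : B →⋆ₙₐ[ℂ] MC κ B :=
    { toFun := fun b => toMC (Matrix.single i i b)
      map_smul' := fun c b => by rw [← Matrix.smul_single, map_smul]; rfl
      map_zero' := by rw [Matrix.single_zero, map_zero]
      map_add' := fun a b => by rw [Matrix.single_add, map_add]
      map_mul' := fun a b => by rw [← map_mul, Matrix.single_mul_single_same]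
      map_star' := fun a => by
        rw [← map_star, Matrix.star_eq_conjTranspose, Matrix.conjTranspose_single] }
  have h1 : Function.Injective σ := fun a b hab => by
    simpa using congrFun (congrFun (toMC.injective hab) i) i
  have h3 : Units 1 fun i j : κ => toMCh (Matrix.single i j (1 : B)) := by
    simpa using (units_single (B := B) (ι := κ)).map toMCh
  have h4 : σ (X i i) = toMCh (Matrix.single i i 1) * toMC X * toMCh (Matrix.single i i 1) := by
    rw [toMCh_apply, ← map_mul, ← map_mul, Matrix.single_mul_mul_single, one_mul, mul_one]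
    rfl
  rw [← NonUnitalStarAlgHom.norm_map σ h1, h4]
  have h5 := h3.norm_le i i
  refine (norm_mul_le _ _).trans ((mul_le_of_le_one_right (norm_nonneg _) h5).trans ?_)
  exact (norm_mul_le _ _).trans (mul_le_of_le_one_left (norm_nonneg _) h5)

theorem tr_zero {B Z : Type} [CStarAlgebra B] [CStarAlgebra Z] {r : ℕ} (hr : 0 < r)
    (θ : B →⋆ₐ[ℂ] Z) (δ : Z →L[ℂ] ℂ) (h1 : δ 1 = 0) (ht : ∀ x y, δ (x * y) = δ (y * x))
    {W : Matrix (Fin r) (Fin r) B} (hW : W ∈ unitary (Matrix (Fin r) (Fin r) B)) {x : B}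
    {y : Matrix (Fin r) (Fin r) ℂ} {ε : ℝ}
    (H : ‖toMC (W * Matrix.diagonal (fun _ => x) * star W - y.map (algebraMap ℂ B))‖ ≤ ε) :
    ‖δ (θ x)‖ ≤ ‖δ‖ * ε := by
  let T : Matrix (Fin r) (Fin r) B → ℂ := fun X => ∑ i, δ (θ (X i i))
  have t1 : ∀ X Y, T (X * Y) = T (Y * X) := fun X Y => by
    simp only [T, Matrix.mul_apply, map_sum, map_mul]
    rw [Finset.sum_comm]
    exact Finset.sum_congr rfl fun i _ => Finset.sum_congr rfl fun j _ => ht _ _
  have t2 : ∀ X Y, T (X - Y) = T X - T Y := fun X Y => by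
    simp only [T, Matrix.sub_apply, map_sub, Finset.sum_sub_distrib]
  have t3 : T (y.map (algebraMap ℂ B)) = 0 := Finset.sum_eq_zero fun i _ => by
    rw [Matrix.map_apply, AlgHomClass.commutes, Algebra.algebraMap_eq_smul_one, map_smul, h1,
      smul_zero]
  have t4 : T (W * Matrix.diagonal (fun _ => x) * star W) = r * δ (θ x) := by
    rw [t1, ← mul_assoc, hW.1, one_mul]
    simp [T]
  have t5 : ∀ X, ‖T X‖ ≤ r * (‖δ‖ * ‖toMC X‖) := fun X => by
    refine (norm_sum_le_of_le (n := fun _ => ‖δ‖ * ‖toMC X‖) _ fun i _ => ?_).trans (by simp)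
    exact (δ.le_opNorm _).trans (mul_le_mul_of_nonneg_left
      ((NonUnitalStarAlgHom.norm_apply_le θ _).trans (tr_entry X i)) (norm_nonneg _))
  have t6 := t5 (W * Matrix.diagonal (fun _ => x) * star W - y.map (algebraMap ℂ B))
  rw [t2, t3, t4, sub_zero, norm_mul, Complex.norm_natCast] at t6
  exact (le_of_mul_le_mul_left t6 (by exact_mod_cast hr)).trans
    (mul_le_mul_of_nonneg_left H (norm_nonneg _))

theorem tr_ext {B Z κ : Type} [CStarAlgebra B] [CStarAlgebra Z] [Fintype κ] [DecidableEq κ]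
    [Nonempty κ] (e : B →⋆ₐ[ℂ] Matrix κ κ ℂ) (ι : B →⋆ₐ[ℂ] Z) (hι : Function.Injective ι) :
    ∃ ρ : Z →L[ℂ] ℂ, ‖ρ‖ ≤ 1 ∧ ρ 1 = 1 ∧ (∀ x ∈ Set.range ι, 0 ≤ ρ (star x * x)) ∧
      ∀ x ∈ Set.range ι, ∀ y ∈ Set.range ι, ρ (x * y) = ρ (y * x) := by
  have hN : (0 : ℝ) < Fintype.card κ := by exact_mod_cast Fintype.card_pos
  let t : B →ₗ[ℂ] ℂ := ((Fintype.card κ : ℝ)⁻¹ : ℝ) •
    (Matrix.traceLinearMap κ ℂ ℂ ∘ₗ (e : B →ₐ[ℂ] Matrix κ κ ℂ).toLinearMap)
  have ht : ∀ b, t b = ((Fintype.card κ : ℝ)⁻¹ : ℝ) • (e b).trace := fun _ => rfl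
  have hb : ∀ b, ‖t b‖ ≤ 1 * ‖b‖ := fun b => by
    rw [ht, norm_smul, norm_inv, Real.norm_natCast, one_mul, inv_mul_le_iff₀ hN]
    refine (norm_sum_le_of_le (n := fun _ => ‖b‖) _ fun i _ => ?_).trans (by simp)
    exact (tr_entry (e b) i).trans (NonUnitalStarAlgHom.norm_apply_le (toMCh.comp e) b)
  let j : B →ₗᵢ[ℂ] Z := ⟨(ι : B →ₐ[ℂ] Z).toLinearMap, NonUnitalStarAlgHom.norm_map ι hι⟩
  obtain ⟨ρ, h1, h2⟩ := exists_extension_norm_eq j.toLinearMap.range
    (t.mkContinuous 1 hb ∘L j.equivRange.symm.toContinuousLinearEquiv.toContinuousLinearMap)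
  have h3 : ∀ b, ρ (ι b) = t b := fun b => by
    refine (h1 (j.equivRange b)).trans ?_
    simp
  refine ⟨ρ, h2.trans_le (ContinuousLinearMap.opNorm_le_bound _ zero_le_one fun x => ?_), ?_, ?_,
    ?_⟩
  · exact (hb _).trans_eq (by rw [← j.equivRange.symm.norm_map x]; rfl)
  · rw [← map_one ι, h3, ht, map_one, Matrix.trace_one]
    simp
  · rintro _ ⟨b, rfl⟩
    rw [← map_star, ← map_mul, h3, ht, map_mul, map_star]
    exact smul_nonneg (by positivity) (Matrix.posSemidef_conjTranspose_mul_self _).trace_nonneg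
  · rintro _ ⟨a, rfl⟩ _ ⟨b, rfl⟩
    rw [← map_mul, ← map_mul, h3, h3, ht, ht, map_mul, map_mul, Matrix.trace_mul_comm]

theorem IsJiangSu.existsUnique_trace {Z : Type} [CStarAlgebra Z] (h : IsJiangSu Z) :
    ∃! τ : Z →L[ℂ] ℂ, τ 1 = 1 ∧ (∀ x, 0 ≤ τ (star x * x)) ∧ ∀ x y, τ (x * y) = τ (y * x) := by
  obtain ⟨p, q, B, _, ev, φ, ι, h1, h2, h3, h4, h5, h6⟩ := h
  have hpos : ∀ n, 0 < p n ∧ 0 < q n := fun n => ⟨by linarith [(h1 n).1], by linarith [(h1 n).2.1]⟩
  have hp := hp_of_std p q B ev φ ι hpos (fun n => (h1 n).2.2.2) h2 (fun n => (h3 n).2) h5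
  have hmono : Monotone fun n => Set.range (ι n) :=
    monotone_nat_of_le_succ fun n => by
      rintro _ ⟨b, rfl⟩
      exact ⟨φ n b, h5 n b⟩
  refine existsUnique_of_exists_of_unique ?_ fun τ τ' hτ hτ' => ?_
  · let C : ℕ → Set (WeakDual ℂ Z) := fun n => WeakDual.toStrongDual ⁻¹' Metric.closedBall 0 1 ∩
      ({ρ | ρ 1 = 1} ∩ ((⋂ x ∈ Set.range (ι n), {ρ | 0 ≤ ρ (star x * x)}) ∩
        ⋂ x ∈ Set.range (ι n), ⋂ y ∈ Set.range (ι n), {ρ | ρ (x * y) = ρ (y * x)}))
    have hC : ∀ n ρ, ρ ∈ C n ↔ ‖WeakDual.toStrongDual ρ‖ ≤ 1 ∧ ρ 1 = 1 ∧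
        (∀ x ∈ Set.range (ι n), 0 ≤ ρ (star x * x)) ∧
        ∀ x ∈ Set.range (ι n), ∀ y ∈ Set.range (ι n), ρ (x * y) = ρ (y * x) := fun n ρ => by
      simp only [C, Set.mem_inter_iff, Set.mem_preimage, mem_closedBall_zero_iff, Set.mem_iInter,
        Set.mem_ofPred_eq]
    have hcl : ∀ n, IsClosed (C n) := fun n => (WeakDual.isClosed_closedBall _ _).inter
      ((isClosed_eq (WeakDual.eval_continuous _) continuous_const).inter
        ((isClosed_biInter fun x _ =>
          isClosed_le continuous_const (WeakDual.eval_continuous _)).inter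
          (isClosed_biInter fun x _ => isClosed_biInter fun y _ =>
            isClosed_eq (WeakDual.eval_continuous _) (WeakDual.eval_continuous _))))
    obtain ⟨ρ, hρ⟩ := IsCompact.nonempty_iInter_of_sequence_nonempty_isCompact_isClosed C
      (fun n ρ hρ => by
        rw [hC] at hρ ⊢
        have hm := hmono (Nat.le_succ n)
        exact ⟨hρ.1, hρ.2.1, fun x hx => hρ.2.2.1 x (hm hx),
          fun x hx y hy => hρ.2.2.2 x (hm hx) y (hm hy)⟩)
      (fun n => by
        have : Nonempty (Fin (p n) × Fin (q n)) := ⟨(⟨0, (hpos n).1⟩, ⟨0, (hpos n).2⟩)⟩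
        obtain ⟨ρ, hρ⟩ := tr_ext (ev n 0) (ι n) (h4 n)
        exact ⟨StrongDual.toWeakDual ρ, (hC n _).2 hρ⟩)
      ((WeakDual.isCompact_closedBall _ _).of_isClosed_subset (hcl 0) Set.inter_subset_left) hcl
    have hρ' := fun n => (hC n ρ).1 (Set.mem_iInter.1 hρ n)
    have hc : Continuous ρ := map_continuous ρ
    refine ⟨WeakDual.toStrongDual ρ, (hρ' 0).2.1, fun x => ?_, fun x y => ?_⟩
    · refine h6.induction (P := fun x => 0 ≤ ρ (star x * x)) (fun x hx => ?_)
        (isClosed_le continuous_const (by fun_prop)) x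
      obtain ⟨n, hn⟩ := Set.mem_iUnion.1 hx
      exact (hρ' n).2.2.1 x hn
    · refine (h6.prod h6).induction (P := fun z => ρ (z.1 * z.2) = ρ (z.2 * z.1))
        (fun z hz => ?_) (isClosed_eq (by fun_prop) (by fun_prop)) (x, y)
      obtain ⟨n, hn⟩ := Set.mem_iUnion.1 hz.1
      obtain ⟨m, hm⟩ := Set.mem_iUnion.1 hz.2
      exact (hρ' (max n m)).2.2.2 _ (hmono (le_max_left _ _) hn) _ (hmono (le_max_right _ _) hm)
  · refine sub_eq_zero.1 (ContinuousLinearMap.ext fun z => ?_)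
    refine h6.induction (P := fun z => (τ - τ') z = 0) (fun z hz => ?_)
      (isClosed_eq (map_continuous _) continuous_const) z
    obtain ⟨m, f, rfl⟩ := Set.mem_iUnion.1 hz
    refine norm_le_zero_iff.1 (le_of_forall_pos_le_add fun ε hε => ?_)
    have hd : 0 < ‖τ - τ'‖ + 1 := by positivity
    obtain ⟨n, μ, h7, -, -, ⟨W, φ', hW, H⟩, -⟩ := hp m {f} _ (div_pos hε hd)
    have h8 := tr_zero (hpos n).1 (ι n) (τ - τ') (by simp [hτ.1, hτ'.1])
      (fun x y => by simp only [sub_apply, hτ.2.2 x y, hτ'.2.2 x y]) hW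
      (H f (Finset.mem_singleton_self f))
    rw [h7] at h8
    refine h8.trans ?_
    rw [zero_add, ← mul_div_assoc, div_le_iff₀ hd]
    nlinarith

end Vale.Agent.P101
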