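import Vale.Agent.P101.Final
import Vale.Agent.P101.Simple
import Vale.Agent.P101.Trace
import Vale.Agent.P101.Spatial
import Vale.Agent.P101.Defs2

/-! The two presentations of the definitions agree. -/

namespace Vale.Agent.P101

theorem isJiangSu_iff {Z : Type} [CStarAlgebra Z] : V2.IsJiangSu Z ↔ IsJiangSu Z :=
  ⟨fun ⟨p, q, B, i, ev, φ, ι, h1, h2, h3, h4, h5⟩ => ⟨p, q, B, i, ev, φ, ι, h1, h2,
    fun n => ⟨(h4 n).1, h3 n⟩, fun n => (h4 n).2.1, fun n => (h4 n).2.2, h5⟩,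
  fun ⟨p, q, B, i, ev, φ, ι, h1, h2, h3, h4, h5, h6⟩ => ⟨p, q, B, i, ev, φ, ι, h1, h2,
    fun n => (h3 n).2, fun n => ⟨(h3 n).1, h4 n, h5 n⟩, h6⟩⟩

theorem exists_jiangSu2 : ∃ (Z : Type) (_ : CStarAlgebra Z), V2.IsJiangSu Z :=
  let ⟨Z, i, h⟩ := exists_jiangSu
  ⟨Z, i, isJiangSu_iff.2 h⟩

end Vale.Agent.P101
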