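import Vale.Agent.P101.Basic

/-! One-sided Elliott intertwining. -/

namespace Vale.Agent.P101

open Filter Topology

theorem inter_aut {A B : Type} [CStarAlgebra A] [CStarAlgebra B] (j : A →⋆ₐ[ℂ] B)
    (H : ∀ (S : Finset A) (T : Finset B) (ε : ℝ), 0 < ε → ∃ w ∈ unitary B,
      (∀ a ∈ S, ‖w * j a - j a * w‖ ≤ ε) ∧ ∀ x ∈ T, ∃ a, ‖star w * x * w - j a‖ ≤ ε)
    (α : B ≃⋆ₐ[ℂ] B) (S : Finset A) (T : Finset B) (ε : ℝ) (hε : 0 < ε) :
    ∃ (β : B ≃⋆ₐ[ℂ] B) (S' : Finset A), (∀ a ∈ S, dist (α (j a)) (β (j a)) ≤ ε) ∧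
      ∀ x ∈ T, ∃ a ∈ S', dist x (β (j a)) ≤ ε := by
  classical
  obtain ⟨w, hw, h1, h2⟩ := H S (T.image α.symm) ε hε
  choose! c hc using h2
  refine ⟨(Unitary.conjStarAlgAut ℂ B ⟨w, hw⟩).trans α, (T.image α.symm).image c,
    fun a ha => ?_, fun x hx => ?_⟩
  · rw [StarAlgEquiv.trans_apply, (StarAlgEquiv.isometry α).dist_eq, dist_comm, dist_eq_norm,
      Unitary.conjStarAlgAut_apply]
    refine le_of_eq_of_le ?_ (h1 a ha)
    rw [← CStarRing.norm_mul_mem_unitary (w * j a - j a * w) (Unitary.star_mem hw), sub_mul,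
      mul_assoc (j a), Unitary.mul_star_self_of_mem hw, mul_one]
  · have hx' := Finset.mem_image_of_mem α.symm hx
    refine ⟨_, Finset.mem_image_of_mem c hx', le_of_eq_of_le ?_ (hc _ hx')⟩
    rw [← (StarAlgEquiv.isometry ((Unitary.conjStarAlgAut ℂ B ⟨w, hw⟩).trans α).symm).dist_eq,
      StarAlgEquiv.symm_apply_apply, dist_eq_norm]
    rfl

theorem inter_seq {A B : Type} [CStarAlgebra A] [CStarAlgebra B] (j : A →⋆ₐ[ℂ] B)
    (H : ∀ (S : Finset A) (T : Finset B) (ε : ℝ), 0 < ε → ∃ w ∈ unitary B,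
      (∀ a ∈ S, ‖w * j a - j a * w‖ ≤ ε) ∧ ∀ x ∈ T, ∃ a, ‖star w * x * w - j a‖ ≤ ε)
    (a : ℕ → A) (b : ℕ → B) : ∃ (α : ℕ → B ≃⋆ₐ[ℂ] B) (S : ℕ → Finset A), Monotone S ∧
      (∀ n, a n ∈ S (n + 1)) ∧
      (∀ n, ∀ x ∈ S n, dist (α n (j x)) (α (n + 1) (j x)) ≤ (1 / 2) ^ n) ∧
      ∀ n, ∀ i ≤ n, ∃ x ∈ S (n + 1), dist (b i) (α (n + 1) (j x)) ≤ (1 / 2) ^ n := by
  classical
  choose β S' h1 h2 using fun (p : (B ≃⋆ₐ[ℂ] B) × Finset A) (n : ℕ) =>
    inter_aut j H p.1 p.2 ((Finset.range (n + 1)).image b) ((1 / 2) ^ n) (by positivity)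
  let st : ℕ → (B ≃⋆ₐ[ℂ] B) × Finset A := fun n =>
    Nat.rec (StarAlgEquiv.refl ℂ B, ∅) (fun n p => (β p n, insert (a n) (p.2 ∪ S' p n))) n
  refine ⟨fun n => (st n).1, fun n => (st n).2, monotone_nat_of_le_succ fun n =>
    Finset.subset_union_left.trans (Finset.subset_insert _ _), fun n => Finset.mem_insert_self _ _,
    fun n => h1 (st n) n, fun n i hi => ?_⟩
  obtain ⟨x, hx, hx'⟩ := h2 (st n) n (b i)
    (Finset.mem_image_of_mem b (Finset.mem_range.2 (Nat.lt_succ_of_le hi)))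
  exact ⟨x, Finset.mem_insert_of_mem (Finset.mem_union_right _ hx), hx'⟩

theorem inter_lim {A B : Type} [CStarAlgebra A] [CStarAlgebra B] (φ : ℕ → A →⋆ₐ[ℂ] B)
    (h : ∀ x, CauchySeq fun n => φ n x) :
    ∃ ψ : A →⋆ₐ[ℂ] B, ∀ x, Tendsto (fun n => φ n x) atTop (𝓝 (ψ x)) := by
  choose f hf using fun x => cauchySeq_tendsto_of_complete (h x)
  refine ⟨⟨⟨⟨⟨⟨f, ?_⟩, fun x y => ?_⟩, ?_, fun x y => ?_⟩, fun r => ?_⟩, fun x => ?_⟩, hf⟩
  · exact tendsto_nhds_unique (hf 1) (by simp)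
  · exact tendsto_nhds_unique (hf _) (by simpa using (hf x).mul (hf y))
  · exact tendsto_nhds_unique (hf 0) (by simp)
  · exact tendsto_nhds_unique (hf _) (by simpa using (hf x).add (hf y))
  · exact tendsto_nhds_unique (hf _) (tendsto_const_nhds.congr fun n => ((φ n).commutes r).symm)
  · exact tendsto_nhds_unique (hf _) (by simpa [map_star] using (hf x).star)

theorem intertwine {A B : Type} [CStarAlgebra A] [CStarAlgebra B]
    [TopologicalSpace.SeparableSpace A] [TopologicalSpace.SeparableSpace B]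
    (j : A →⋆ₐ[ℂ] B) (hj : Function.Injective j)
    (H : ∀ (S : Finset A) (T : Finset B) (ε : ℝ), 0 < ε → ∃ w ∈ unitary B,
      (∀ a ∈ S, ‖w * j a - j a * w‖ ≤ ε) ∧ ∀ x ∈ T, ∃ a, ‖star w * x * w - j a‖ ≤ ε) :
    Nonempty (A ≃⋆ₐ[ℂ] B) := by
  obtain ⟨a, ha⟩ := TopologicalSpace.exists_dense_seq A
  obtain ⟨b, hb⟩ := TopologicalSpace.exists_dense_seq B
  obtain ⟨α, S, hS, h1, h2, h3⟩ := inter_seq j H a b
  have hiso : ∀ n, Isometry fun x => α n (j x) := fun n =>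
    (StarAlgEquiv.isometry (α n)).comp (NonUnitalStarAlgHom.isometry j hj)
  have hg : ∀ m, ∀ x ∈ S m, ∀ n, dist (α (n + m) (j x)) (α (n + 1 + m) (j x)) ≤
      (1 / 2) ^ m * (1 / 2) ^ n := fun m x hx n => by
    rw [← pow_add, add_comm m n, add_right_comm]
    exact h2 _ x (hS (Nat.le_add_left _ _) hx)
  have hc : ∀ x, CauchySeq fun n => α n (j x) := fun x => by
    refine Metric.cauchySeq_iff'.2 fun ε hε => ?_
    obtain ⟨i, hi⟩ := ha.exists_dist_lt x (by positivity : 0 < ε / 3)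
    have h4 : CauchySeq fun n => α n (j (a i)) := (cauchySeq_shift (i + 1)).1
      (cauchySeq_of_le_geometric _ _ (by norm_num) (hg _ _ (h1 i)))
    obtain ⟨N, hN⟩ := Metric.cauchySeq_iff'.1 h4 _ (by positivity : 0 < ε / 3)
    refine ⟨N, fun n hn => (dist_triangle4 _ (α n (j (a i))) (α N (j (a i))) _).trans_lt ?_⟩
    have h5 := (hiso n).dist_eq x (a i)
    have h6 := (hiso N).dist_eq (a i) x
    rw [dist_comm (a i)] at h6
    linarith [hN n hn]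
  obtain ⟨ψ, hψ⟩ := inter_lim (fun n => ((α n : B →⋆ₐ[ℂ] B)).comp j) hc
  have hψ' : ∀ x, Tendsto (fun n => α n (j x)) atTop (𝓝 (ψ x)) := hψ
  have h4 : Isometry ψ := Isometry.of_dist_eq fun x y =>
    tendsto_nhds_unique ((hψ' x).dist (hψ' y))
      (tendsto_const_nhds.congr fun n => ((hiso n).dist_eq x y).symm)
  refine ⟨StarAlgEquiv.ofBijective ψ ⟨h4.injective, ?_⟩⟩
  rw [← Set.range_eq_univ, ← h4.isClosedEmbedding.isClosed_range.closure_eq,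
    ← Set.univ_subset_iff, ← hb.closure_range, isClosed_closure.closure_subset_iff]
  rintro _ ⟨i, rfl⟩
  refine Metric.mem_closure_iff.2 fun ε hε => ?_
  obtain ⟨n, hn, hn'⟩ := (((tendsto_pow_atTop_nhds_zero_of_lt_one (r := (1 / 2 : ℝ))
    (by norm_num) (by norm_num)).eventually_lt_const (half_pos hε)).and
      (eventually_ge_atTop i)).exists
  obtain ⟨x, hx, hx'⟩ := h3 n i hn'
  have h5 := dist_le_of_le_geometric_of_tendsto₀ _ _ (by norm_num) (hg _ x hx)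
    ((tendsto_add_atTop_iff_nat (n + 1)).2 (hψ' x))
  rw [zero_add, pow_succ, mul_div_assoc, show (1 / 2 / (1 - 1 / 2) : ℝ) = 1 by norm_num] at h5
  refine ⟨ψ x, ⟨x, rfl⟩, (dist_triangle _ (α (n + 1) (j x)) _).trans_lt ?_⟩
  linarith

end Vale.Agent.P101
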