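import Vale.Agent.P101.Half
import Vale.Agent.P101.Ultra
import Vale.Agent.P101.Osc
import Vale.Agent.P101.Inter
import Vale.Agent.P101.Sep

/-! From pairs in the central sequence algebra to the absorption of the Jiang-Su algebra.

Plan. Unpack `IsJiangSu Z` (data `p q B ev φ ι`), `hp_of_std` gives `HP`. `j = κ ∘ includeLeft`,
`jZ = κ ∘ includeRight` (as star homs; `j` injective as `Z` is nontrivial; ranges commute). `D` is
separable (`IsDimDrop.separable`, span of products). Apply `intertwine j`. Given `S, T, ε`: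
approximate each `x ∈ T` within `ε/3` by `∑ i, j (a i) * jZ (ι m (f i))` with one common level `m`
(the set of such sums at level `m` increases with `m` by `ι (n+1) (φ n b) = ι n b`; its union is
dense). Let `F` be the finite set of the `f i`, `ε'` small, take `L μ P Q` from `half`.
`α0 : B L → centralSeq π` by `Pair.exists_dimDrop` from `hpair (p L) (q L)`. Take a pair for `P, Q`
commuting with the range of `α0`: apply `hR` to the closed star subalgebra generated by the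
finitely many pair elements (separable, `exists_sep` in file Sep) and `Pair.map`; to view the pair
inside the subalgebra use `Subtype.ext`. Let `π'` be an ultrapower of `D` (`exists_ultrapower`),
`J` from `IsUltrapower.exists_map h h' j`, `cst x = π' (const x)`, `C = StarSubalgebra.centralizer ℂ
(range (cst ∘ j))` (closed, so a C*-algebra), `α = J ∘ α0`, `β = cst ∘ jZ ∘ ι L`, pair pushed by `J`;
all land in `C`; `β` commutes with the whole range of `J`. Get `W`, lift it to unitaries `w n`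
(`IsUltrapower.exists_unitary`). With `π (y f) = α0 (μ f)`:
`W* cst (∑ j (a i) jZ (ι f i)) W - J (π (∑ a i y (f i)))` has norm `≤ ∑ ‖a i‖ ε'`, and `W`
commutes with `cst (j a)`; `IsUltrapower.tendsto_norm` gives an index `n` where all finitely many
estimates hold. -/

open Filter
open scoped TensorProduct BoundedContinuousFunction

namespace Vale.Agent.P101

open TopologicalSpace

theorem main_move {F P Q : Type} [CStarAlgebra F] [Fintype P] [DecidableEq P] [Fintype Q]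
    [DecidableEq Q] (hR : Rich F) {z : F} {a : P → P → F} {b : Q → Q → F} (h : Pair z a b)
    {T : Set F} (hT : IsSeparable T) : ∃ (z : F) (a : P → P → F) (b : Q → Q → F), Pair z a b ∧
      (∀ t ∈ T, ∀ i j, Commute t (a i j)) ∧ ∀ t ∈ T, ∀ i j, Commute t (b i j) := by
  obtain ⟨D, _, ψ, hD, inj, hT', -⟩ := exists_sep (((Set.finite_range (Function.uncurry a)).union
    (Set.finite_range (Function.uncurry b))).insert z).isSeparable
  obtain ⟨z0, rfl⟩ := hT' (Set.mem_insert _ _)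
  choose a0 ha using fun i j => hT' (Set.mem_insert_of_mem _ (Or.inl ⟨(i, j), rfl⟩))
  choose b0 hb using fun i j => hT' (Set.mem_insert_of_mem _ (Or.inr ⟨(i, j), rfl⟩))
  have hu : ∀ {ι : Type} [Fintype ι] [DecidableEq ι] {s : D} {e : ι → ι → D},
      Units (ψ s) (fun i j => ψ (e i j)) → Units s e := fun h =>
    ⟨fun i j k l => inj (by rw [map_mul, h.mul]; split_ifs <;> simp),
      fun i j => inj (by rw [map_star, h.star]), inj (by rw [map_sum, h.sum])⟩
  obtain rfl : a = fun i j => ψ (a0 i j) := funext₂ fun i j => (ha i j).symm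
  obtain rfl : b = fun i j => ψ (b0 i j) := funext₂ fun i j => (hb i j).symm
  have h1 : ψ (1 - z0) = 1 - ψ z0 := by rw [map_sub, map_one]
  have h0 : Pair z0 a0 b0 :=
    ⟨⟨inj (by rw [map_star, h.pc.sa.star_eq]),
      (NonUnitalStarAlgHom.norm_map ψ inj _).symm.trans_le h.pc.le,
      (NonUnitalStarAlgHom.norm_map ψ inj _).symm.trans_le (h1 ▸ h.pc.le')⟩,
      hu (h1 ▸ h.ua), hu h.ub, fun i j k l => inj (by
        rw [map_mul, map_mul]; exact h.comm i j k l)⟩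
  obtain ⟨ψ', h2⟩ := hR D ψ T hT
  exact ⟨_, _, _, h0.map ψ', fun t ht i j => (h2 _ t ht).symm, fun t ht i j => (h2 _ t ht).symm⟩

theorem main_flip {Z F C : Type} [CStarAlgebra Z] [CStarAlgebra F] [CStarAlgebra C]
    {p q : ℕ → ℕ} {B : ℕ → Type} [∀ n, CStarAlgebra (B n)]
    {ev : ∀ n, unitInterval → (B n →⋆ₐ[ℂ] Mat (p n) (q n))} {ι : ∀ n, B n →⋆ₐ[ℂ] Z}
    (hpos : ∀ n, 0 < p n ∧ 0 < q n) (hcop : ∀ n, (p n).Coprime (q n))
    (hdd : ∀ n, IsDimDrop (p n) (q n) (ev n)) (hp : HP p q B ι) (hR : Rich F)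
    (hpair : ∀ P Q : ℕ, 0 < P → 0 < Q → P.Coprime Q → ∃ (z : F)
      (a : Fin P → Fin P → F) (b : Fin Q → Fin Q → F), Pair z a b)
    (J : F →⋆ₐ[ℂ] C) (β : Z →⋆ₐ[ℂ] C) (hc : ∀ x y, Commute (J x) (β y))
    (m : ℕ) (G : Finset (B m)) {ε : ℝ} (hε : 0 < ε) :
    ∃ W ∈ unitary C, ∀ f ∈ G, ∃ u, ‖star W * β (ι m f) * W - J u‖ ≤ ε := by
  obtain ⟨L, μ, P, Q, hP, hQ, hPQ, hμ, H⟩ := half hpos hcop hp m G hε
  obtain ⟨z0, a0, b0, h0⟩ := hpair _ _ (hpos L).1 (hpos L).2 (hcop L)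
  obtain ⟨α⟩ := h0.exists_dimDrop (hpos L).1 (hpos L).2 (hdd L)
  obtain ⟨z1, a1, b1, h1⟩ := hpair P Q hP hQ hPQ
  have := (hdd L).separable
  obtain ⟨z, a, b, h2, ha, hb⟩ := main_move hR h1 (isSeparable_range (continuous_hom α))
  obtain ⟨W, hW, h3⟩ := H C (J.comp α) (β.comp (ι L)) _ _ _ (h2.map J) (fun x y => hc _ _)
    (fun x i j => (ha _ ⟨x, rfl⟩ i j).map J) (fun x i j => (hb _ ⟨x, rfl⟩ i j).map J)
    (fun x i j => (hc _ _).symm) (fun x i j => (hc _ _).symm)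
  refine ⟨W, hW, fun f hf => ⟨α (μ f), (le_of_eq ?_).trans (h3 f hf)⟩⟩
  rw [norm_sub_rev, ← CStarRing.norm_mem_unitary_mul _ hW,
    ← CStarRing.norm_mul_mem_unitary _ (Unitary.star_mem hW), mul_sub, sub_mul, ← hμ]
  simp only [← mul_assoc, hW.2, one_mul]
  rw [mul_assoc _ W, hW.2, mul_one]
  rfl

theorem main_span {A B D U E : Type} [CStarAlgebra A] [CStarAlgebra D] [CStarAlgebra U]
    [CStarAlgebra E] (j : A →⋆ₐ[ℂ] D) (g : B → D) (J : U →⋆ₐ[ℂ] E) (c : D →⋆ₐ[ℂ] E)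
    (hj : ∀ a, ∃ u, J u = c (j a)) {x : D}
    (hx : x ∈ Submodule.span ℂ (Set.range fun y : A × B => j y.1 * g y.2)) :
    ∃ (G : Finset B) (M : ℝ), 0 ≤ M ∧ ∀ (ε : ℝ) (W : E), 0 ≤ ε → W ∈ unitary E →
      (∀ a, Commute W (c (j a))) → (∀ f ∈ G, ∃ u, ‖star W * c (g f) * W - J u‖ ≤ ε) →
      ∃ u, ‖star W * c x * W - J u‖ ≤ M * ε := by
  classical
  induction hx using Submodule.span_induction with
  | mem x hx =>
    obtain ⟨⟨a, f⟩, rfl⟩ := hx
    refine ⟨{f}, ‖c (j a)‖, norm_nonneg _, fun ε W _ hW h1 h2 => ?_⟩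
    obtain ⟨u, hu⟩ := h2 f (Finset.mem_singleton_self f)
    obtain ⟨v, hv⟩ := hj a
    have h3 : Commute (star W) (c (j a)) := by
      simpa only [← map_star, star_star] using (h1 (star a)).star_star
    refine ⟨v * u, ?_⟩
    rw [map_mul, map_mul, hv, h3.left_comm, mul_assoc, ← mul_sub]
    exact (norm_mul_le _ _).trans (mul_le_mul_of_nonneg_left hu (norm_nonneg _))
  | zero => exact ⟨∅, 0, le_rfl, fun ε W _ _ _ _ => ⟨0, by simp⟩⟩
  | add x y _ _ hx hy =>
    obtain ⟨G, M, hM, hx⟩ := hx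
    obtain ⟨G', M', hM', hy⟩ := hy
    refine ⟨G ∪ G', M + M', add_nonneg hM hM', fun ε W hε hW h1 h2 => ?_⟩
    obtain ⟨u, hu⟩ := hx ε W hε hW h1 fun f hf => h2 f (Finset.mem_union_left _ hf)
    obtain ⟨v, hv⟩ := hy ε W hε hW h1 fun f hf => h2 f (Finset.mem_union_right _ hf)
    refine ⟨u + v, ?_⟩
    rw [map_add, map_add, mul_add, add_mul, add_sub_add_comm, add_mul]
    exact (norm_add_le _ _).trans (add_le_add hu hv)
  | smul r x _ hx =>
    obtain ⟨G, M, hM, hx⟩ := hx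
    refine ⟨G, ‖r‖ * M, mul_nonneg (norm_nonneg _) hM, fun ε W hε hW h1 h2 => ?_⟩
    obtain ⟨u, hu⟩ := hx ε W hε hW h1 h2
    refine ⟨r • u, ?_⟩
    rw [map_smul, map_smul, mul_smul_comm, smul_mul_assoc, ← smul_sub, norm_smul, mul_assoc ‖r‖]
    exact mul_le_mul_of_nonneg_left hu (norm_nonneg _)

theorem main_dense {A Z D : Type} [CStarAlgebra A] [CStarAlgebra Z] [CStarAlgebra D]
    {B : ℕ → Type} {ι : ∀ n, B n → Z} (hmono : Monotone fun n => Set.range (ι n))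
    (hι : Dense (⋃ n, Set.range (ι n))) (κ : A ⊗[ℂ] Z →⋆ₐ[ℂ] D) (hd : DenseRange κ)
    (j : A →⋆ₐ[ℂ] D) (k : Z →⋆ₐ[ℂ] D) (hjk : ∀ a z, κ (a ⊗ₜ z) = j a * k z) :
    Monotone (fun n => Submodule.span ℂ (Set.range fun y : A × B n => j y.1 * k (ι n y.2))) ∧
    Dense (⋃ n, (Submodule.span ℂ (Set.range fun y : A × B n => j y.1 * k (ι n y.2)) : Set D)) := by
  set K := fun n => Submodule.span ℂ (Set.range fun y : A × B n => j y.1 * k (ι n y.2)) with hK
  have h1 : Monotone K := fun n m h => Submodule.span_mono <| by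
    rintro _ ⟨⟨a, f⟩, rfl⟩
    obtain ⟨f', hf⟩ := hmono h ⟨f, rfl⟩
    exact ⟨(a, f'), by simp only [hf]⟩
  refine ⟨h1, ?_⟩
  rw [← Submodule.coe_iSup_of_directed _ h1.directed_le]
  have h2 : ∀ x, κ x ∈ (iSup K).topologicalClosure := fun x => by
    induction x using TensorProduct.induction_on with
    | zero => rw [map_zero]; exact zero_mem _
    | add x y hx hy => rw [map_add]; exact add_mem hx hy
    | tmul a z =>
      rw [hjk]
      refine map_mem_closure (f := fun z => j a * k z)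
        (continuous_const.mul (continuous_hom k)) (hι z) ?_
      rintro _ ⟨_, ⟨n, rfl⟩, f, rfl⟩
      exact Submodule.mem_iSup_of_mem n (Submodule.subset_span ⟨(a, f), rfl⟩)
  exact fun x => closure_minimal (Set.range_subset_iff.2 h2) isClosed_closure (hd x)

theorem main_descend {A D U E : Type} [CStarAlgebra A] [CStarAlgebra D] [CStarAlgebra U]
    [CStarAlgebra E] {ω : Ultrafilter ℕ} {π : (ℕ →ᵇ A) →⋆ₐ[ℂ] U} {π' : (ℕ →ᵇ D) →⋆ₐ[ℂ] E}
    (h : IsUltrapower ω π) (h' : IsUltrapower ω π') (j : A →⋆ₐ[ℂ] D) {J : U → E}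
    (hJ : ∀ x, J (π x) = π' (seqMap j x)) (S : Finset A) (T : Finset D) {ε : ℝ} (hε : 0 < ε)
    {W : E} (hW : W ∈ unitary E)
    (h1 : ∀ a, Commute W (π' (BoundedContinuousFunction.const ℕ (j a))))
    (h2 : ∀ x ∈ T, ∃ u, ‖star W * π' (BoundedContinuousFunction.const ℕ x) * W - J u‖ < ε) :
    ∃ w ∈ unitary D, (∀ a ∈ S, ‖w * j a - j a * w‖ ≤ ε) ∧
      ∀ x ∈ T, ∃ a, ‖star w * x * w - j a‖ ≤ ε := by
  obtain ⟨w, rfl, hw⟩ := h'.exists_unitary hW
  have key : ∀ y : ℕ →ᵇ D, ‖π' y‖ < ε → ∀ᶠ n in (ω : Filter ℕ), ‖y n‖ ≤ ε := fun y hy =>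
    (h'.tendsto_norm y).eventually (Iic_mem_nhds hy)
  have h3 : ∀ᶠ n in (ω : Filter ℕ), ∀ a ∈ S, ‖w n * j a - j a * w n‖ ≤ ε :=
    (eventually_all_finset S).2 fun a _ =>
      key (w * .const ℕ (j a) - .const ℕ (j a) * w) <| by
        rwa [map_sub, map_mul, map_mul, (h1 a).eq, sub_self, norm_zero]
  have h4 : ∀ᶠ n in (ω : Filter ℕ), ∀ x ∈ T, ∃ a, ‖star (w n) * x * w n - j a‖ ≤ ε :=
    (eventually_all_finset T).2 fun x hx => by
      obtain ⟨u, hu⟩ := h2 x hx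
      obtain ⟨y, rfl⟩ := h.1 u
      rw [hJ, ← map_star, ← map_mul, ← map_mul, ← map_sub] at hu
      exact (key _ hu).mono fun n hn => ⟨y n, hn⟩
  obtain ⟨n, hn⟩ := (h3.and h4).exists
  exact ⟨w n, hw n, hn⟩

/-- constant sequences -/
noncomputable def mainConst (D : Type) [CStarAlgebra D] : D →⋆ₐ[ℂ] (ℕ →ᵇ D) where
  toFun := BoundedContinuousFunction.const ℕ
  map_one' := rfl
  map_mul' _ _ := rfl
  map_zero' := rfl
  map_add' _ _ := rfl
  commutes' c := by ext n; simp [Algebra.algebraMap_eq_smul_one]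
  map_star' _ := rfl

theorem main_key {A B D U E : Type} [CStarAlgebra A] [CStarAlgebra D] [CStarAlgebra U]
    [CStarAlgebra E] (j : A →⋆ₐ[ℂ] D) (g : B → D) (J : U →⋆ₐ[ℂ] E) (c : D →⋆ₐ[ℂ] E)
    (hj : ∀ a, ∃ u, J u = c (j a))
    (H : ∀ (G : Finset B) (ε : ℝ), 0 < ε → ∃ W ∈ unitary E, (∀ a, Commute W (c (j a))) ∧
      ∀ f ∈ G, ∃ u, ‖star W * c (g f) * W - J u‖ ≤ ε) (T : Finset D) {ε : ℝ} (hε : 0 < ε)
    (hT : ∀ x ∈ T, ∃ y ∈ Submodule.span ℂ (Set.range fun y : A × B => j y.1 * g y.2),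
      ‖x - y‖ < ε) : ∃ W ∈ unitary E, (∀ a, Commute W (c (j a))) ∧
      ∀ x ∈ T, ∃ u, ‖star W * c x * W - J u‖ < 2 * ε := by
  classical
  choose! y hy hxy using hT
  choose! G M hM hG using fun x hx => main_span j g J c hj (hy x hx)
  have h0 : 0 ≤ ∑ x ∈ T, M x := Finset.sum_nonneg hM
  have h1 : 0 < ε / (∑ x ∈ T, M x + 1) := by positivity
  obtain ⟨W, hW, h2, h3⟩ := H (T.biUnion G) _ h1
  refine ⟨W, hW, h2, fun x hx => ?_⟩
  obtain ⟨u, hu⟩ := hG x hx _ W h1.le hW h2 fun f hf => h3 f (Finset.mem_biUnion.2 ⟨x, hx, hf⟩)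
  refine ⟨u, ?_⟩
  have h4 : M x * (ε / (∑ x ∈ T, M x + 1)) ≤ ε := by
    rw [mul_comm, div_mul_eq_mul_div, div_le_iff₀ (by positivity)]
    exact mul_le_mul_of_nonneg_left (by linarith [Finset.single_le_sum hM hx]) hε.le
  have h5 : ‖star W * c (x - y x) * W‖ < ε := by
    rw [CStarRing.norm_mul_mem_unitary _ hW, CStarRing.norm_mem_unitary_mul _ (Unitary.star_mem hW)]
    exact (NonUnitalStarAlgHom.norm_apply_le c _).trans_lt (hxy x hx)
  rw [map_sub, mul_sub, sub_mul] at h5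
  linarith [norm_sub_le_norm_sub_add_norm_sub (star W * c x * W) (star W * c (y x) * W) (J u)]

theorem absorb {Z : Type} [CStarAlgebra Z] (hZ : IsJiangSu Z) {A : Type} [CStarAlgebra A]
    [TopologicalSpace.SeparableSpace A] {ω : Ultrafilter ℕ} {U : Type} [CStarAlgebra U]
    {π : (ℕ →ᵇ A) →⋆ₐ[ℂ] U} (h : IsUltrapower ω π) (hR : Rich (centralSeq π))
    (hpair : ∀ P Q : ℕ, 0 < P → 0 < Q → P.Coprime Q → ∃ (z : centralSeq π)
      (a : Fin P → Fin P → centralSeq π) (b : Fin Q → Fin Q → centralSeq π), Pair z a b)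
    {D : Type} [CStarAlgebra D] (κ : A ⊗[ℂ] Z →⋆ₐ[ℂ] D) (hκ : Function.Injective κ)
    (hd : DenseRange κ) : Nonempty (A ≃⋆ₐ[ℂ] D) := by
  obtain ⟨p, q, B, _, ev, φ, ι, hpq, hdd, hφ, hinj, hι, hU⟩ := hZ
  have hpos : ∀ n, 0 < p n ∧ 0 < q n := fun n =>
    ⟨zero_lt_one.trans (hpq n).1, zero_lt_one.trans (hpq n).2.1⟩
  have hp := hp_of_std p q B ev φ ι hpos (fun n => (hpq n).2.2.2) hdd (fun n => (hφ n).2) hι
  let j : A →⋆ₐ[ℂ] D := κ.comp ⟨Algebra.TensorProduct.includeLeft, fun a => by simp⟩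
  let k : Z →⋆ₐ[ℂ] D := κ.comp ⟨Algebra.TensorProduct.includeRight, fun a => by simp⟩
  have hjk : ∀ a z, κ (a ⊗ₜ z) = j a * k z := fun a z => by
    change _ = κ (a ⊗ₜ 1) * κ (1 ⊗ₜ z)
    rw [← map_mul, Algebra.TensorProduct.tmul_mul_tmul, mul_one, one_mul]
  have hc : ∀ a z, Commute (j a) (k z) := fun a z => by
    change _ = κ (1 ⊗ₜ z) * κ (a ⊗ₜ 1)
    rw [← hjk, ← map_mul, Algebra.TensorProduct.tmul_mul_tmul, mul_one, one_mul]
  have hj : Function.Injective j := by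
    have : Nonempty (Fin (p 0) × Fin (q 0)) := ⟨⟨0, (hpos 0).1⟩, ⟨0, (hpos 0).2⟩⟩
    have : Nontrivial (B 0) := (ev 0 0).toAlgHom.toRingHom.domain_nontrivial
    have : Nontrivial Z := (hinj 0).nontrivial
    exact hκ.comp (Algebra.TensorProduct.includeLeft_injective (S := ℂ) (algebraMap ℂ Z).injective)
  obtain ⟨hmono, hdense⟩ := main_dense (ι := fun n => ι n)
    (monotone_nat_of_le_succ fun n => Set.range_subset_iff.2 fun b => ⟨φ n b, hι n b⟩) hU κ hd
    j k hjk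
  have : SeparableSpace D := isSeparable_univ_iff.1 <| by
    rw [← hdense.closure_eq, TopologicalSpace.isSeparable_closure]
    refine .iUnion fun n => .span ?_
    have := (hdd n).separable
    exact isSeparable_range (((continuous_hom j).comp continuous_fst).mul
      ((continuous_hom (k.comp (ι n))).comp continuous_snd))
  obtain ⟨E, _, π', h'⟩ := exists_ultrapower D ω
  obtain ⟨J, hJ⟩ := h.exists_map h' j
  let c : D →⋆ₐ[ℂ] E := π'.comp (mainConst D)
  have hJ' : ∀ x, J (π x) = π' (seqMap j x) := fun x => hJ x _ fun _ => rfl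
  have hJc : ∀ a, J (π (.const ℕ a)) = c (j a) := fun a => hJ _ _ fun _ => rfl
  let C : StarSubalgebra ℂ E := StarSubalgebra.centralizer ℂ (Set.range fun a => c (j a))
  have hC : ∀ x, x ∈ C ↔ ∀ a, Commute (c (j a)) x := fun x => by
    rw [StarSubalgebra.mem_centralizer_iff, Set.forall_mem_range]
    exact ⟨fun H a => (H a).1, fun H a => ⟨H a, by
      rw [← map_star, ← map_star]; exact H _⟩⟩
  have : IsClosed (C : Set E) := Set.isClosed_centralizer _
  let J0 : centralSeq π →⋆ₐ[ℂ] C := (J.comp (centralSeq π).subtype).codRestrict C fun x =>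
    (hC _).2 fun a => hJc a ▸ Commute.map
      ((StarSubalgebra.mem_centralizer_iff ℂ).1 x.2 _ ⟨a, rfl⟩).1 J
  let β : Z →⋆ₐ[ℂ] C := (c.comp k).codRestrict C fun z => (hC _).2 fun a => (hc a z).map c
  have hJβ : ∀ x z, Commute (J0 x) (β z) := fun x z => Subtype.ext <| by
    obtain ⟨y, hy⟩ := h.1 x.1
    change J x.1 * π' (mainConst D (k z)) = π' (mainConst D (k z)) * J x.1
    rw [← hy, hJ', ← map_mul, ← map_mul]
    exact congrArg π' (BoundedContinuousFunction.ext fun n => hc (y n) z)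
  refine intertwine j hj fun S T ε hε => ?_
  have hε2 := half_pos hε
  obtain ⟨m, hm⟩ := ((eventually_all_finset T).2 fun x _ => by
    obtain ⟨y, hy, hxy⟩ := Metric.mem_closure_iff.1 (hdense x) _ hε2
    obtain ⟨n, hn⟩ := Set.mem_iUnion.1 hy
    exact (eventually_ge_atTop n).mono fun m hm => ⟨y, hmono hm hn, by rwa [← dist_eq_norm]⟩ :
    ∀ᶠ m in atTop, ∀ x ∈ T, ∃ y ∈ Submodule.span ℂ
      (Set.range fun y : A × B m => j y.1 * k (ι m y.2)), ‖x - y‖ < ε / 2).exists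
  obtain ⟨W, hW, h1, h2⟩ := main_key j (fun f => k (ι m f)) J c (fun a => ⟨_, hJc a⟩)
    (fun G δ hδ => by
      obtain ⟨W, hW, h3⟩ := main_flip hpos (fun n => (hpq n).2.2.1) hdd hp hR hpair J0 β hJβ m G hδ
      exact ⟨W, Unitary.map_mem C.subtype hW, fun a => ((hC _).1 W.2 a).symm,
        fun f hf => (h3 f hf).imp' Subtype.val fun u hu => hu⟩) T hε2 hm
  rw [mul_div_cancel₀ _ two_ne_zero] at h2
  exact main_descend h h' j hJ' S T hε hW h1 h2

end Vale.Agent.P101
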