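import Vale.Agent.P101.Gamma

/-! Homomorphisms from dimension drop algebras with coefficients. -/

open scoped unitInterval Kronecker

set_option linter.unusedSectionVars false

namespace Vale.Agent.P101

section Ext

variable {B : Type*} [Ring B] [StarRing B] [Algebra ℂ B] [StarModule ℂ B]
  {P Q : Type*} [Fintype P] [DecidableEq P] [Fintype Q] [DecidableEq Q]

variable (Q) in
/-- `x ↦ x ⊗ 1` -/
def extL : Matrix P P B →⋆ₐ[ℂ] Matrix (P × Q) (P × Q) B :=
  mkHom
    { toFun x := Matrix.of fun u v => if u.2 = v.2 then x u.1 v.1 else 0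
      map_add' x y := by ext u v; simp only [Matrix.of_apply, Matrix.add_apply]; split_ifs <;> simp
      map_smul' c x := by ext u v; simp }
    (by ext ⟨i, k⟩ ⟨j, l⟩; simp [Matrix.one_apply, ite_and]; split_ifs <;> rfl)
    (fun x y => by
      ext ⟨i, k⟩ ⟨j, l⟩
      simp only [LinearMap.coe_mk, AddHom.coe_mk, Matrix.of_apply, Matrix.mul_apply,
        Fintype.sum_prod_type, ite_mul, zero_mul, Finset.sum_ite_eq, Finset.mem_univ, if_true]
      split_ifs <;> simp)
    (fun x => by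
      ext ⟨i, k⟩ ⟨j, l⟩
      simp only [LinearMap.coe_mk, AddHom.coe_mk, Matrix.of_apply, Matrix.star_apply, eq_comm]
      split_ifs <;> simp)

theorem extL_apply (x : Matrix P P B) (u v : P × Q) :
    extL Q x u v = if u.2 = v.2 then x u.1 v.1 else 0 := rfl

variable (P) in
/-- `y ↦ 1 ⊗ y` -/
def extR : Matrix Q Q B →⋆ₐ[ℂ] Matrix (P × Q) (P × Q) B :=
  mkHom
    { toFun x := Matrix.of fun u v => if u.1 = v.1 then x u.2 v.2 else 0
      map_add' x y := by ext u v; simp only [Matrix.of_apply, Matrix.add_apply]; split_ifs <;> simp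
      map_smul' c x := by ext u v; simp }
    (by ext ⟨i, k⟩ ⟨j, l⟩; simp [Matrix.one_apply, ite_and])
    (fun x y => by
      ext ⟨i, k⟩ ⟨j, l⟩
      simp only [LinearMap.coe_mk, AddHom.coe_mk, Matrix.of_apply, Matrix.mul_apply,
        Fintype.sum_prod_type_right, ite_mul, zero_mul, Finset.sum_ite_eq, Finset.mem_univ, if_true]
      split_ifs <;> simp)
    (fun x => by
      ext ⟨i, k⟩ ⟨j, l⟩
      simp only [LinearMap.coe_mk, AddHom.coe_mk, Matrix.of_apply, Matrix.star_apply, eq_comm]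
      split_ifs <;> simp)

theorem extR_apply (x : Matrix Q Q B) (u v : P × Q) :
    extR P x u v = if u.1 = v.1 then x u.2 v.2 else 0 := rfl

variable (P) in
/-- constant diagonal matrices -/
def dg : B →⋆ₐ[ℂ] Matrix P P B :=
  mkHom
    { toFun x := Matrix.diagonal fun _ => x
      map_add' x y := by simp
      map_smul' c x := by ext u v; simp [Matrix.diagonal_apply] }
    (by simp) (fun x y => by simp)
    (fun x => by simp [Matrix.star_eq_conjTranspose, Pi.star_def])

theorem dg_apply (x : B) : dg P x = Matrix.diagonal fun _ => x := rfl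

theorem extL_injective [Nonempty Q] : Function.Injective (extL Q : Matrix P P B → _) := by
  intro x y h
  ext i j
  obtain ⟨k⟩ := ‹Nonempty Q›
  simpa [extL_apply] using congrFun (congrFun h (i, k)) (j, k)

theorem extR_injective [Nonempty P] : Function.Injective (extR P : Matrix Q Q B → _) := by
  intro x y h
  ext i j
  obtain ⟨k⟩ := ‹Nonempty P›
  simpa [extR_apply] using congrFun (congrFun h (k, i)) (k, j)

theorem extL_dg (x : B) : extL Q (dg P x) = dg (P × Q) x := by
  ext ⟨i, k⟩ ⟨j, l⟩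
  simp [extL_apply, dg_apply, Matrix.diagonal_apply, ite_and]
  split_ifs <;> rfl

theorem extR_dg (x : B) : extR P (dg Q x) = dg (P × Q) x := by
  ext ⟨i, k⟩ ⟨j, l⟩
  simp [extR_apply, dg_apply, Matrix.diagonal_apply, ite_and]

theorem commute_dg_single (x : B) (i j : P) : Commute (dg P x) (Matrix.single i j 1) := by
  ext a b
  simp [dg_apply, Matrix.single_apply]

theorem commute_extL_extR (i j : P) (k l : Q) :
    Commute (extL Q (Matrix.single i j (1 : B))) (extR P (Matrix.single k l 1)) := by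
  ext ⟨a, b⟩ ⟨c, d⟩
  simp [Matrix.mul_apply, extL_apply, extR_apply, Matrix.single_apply, Fintype.sum_prod_type,
    ite_and]
  grind

theorem extL_eq_kronecker (x : Matrix P P ℂ) : extL Q x = x ⊗ₖ (1 : Matrix Q Q ℂ) := by
  ext u v
  simp [extL_apply, Matrix.one_apply]

theorem extR_eq_kronecker (x : Matrix Q Q ℂ) : extR P x = (1 : Matrix P P ℂ) ⊗ₖ x := by
  ext u v
  simp [extR_apply, Matrix.one_apply]

end Ext

variable {C C0 : Type} [CStarAlgebra C] [CStarAlgebra C0] {P Q : Type} [Fintype P] [DecidableEq P]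
  [Fintype Q] [DecidableEq Q] {z : C} {a : P → P → C} {b : Q → Q → C}

theorem oz_theta {t : C} {e : P → P → C} (h : Units t e) (ι : C0 →⋆ₐ[ℂ] C)
    (hc : ∀ c i j, Commute (ι c) (e i j)) :
    OZ t (theta ι e ∘ₗ (ofMCh : MC P C0 →⋆ₐ[ℂ] _).toAlgHom.toLinearMap) where
  mul x y := by simp [theta_mul h hc]
  star x := by simp [theta_star h hc, map_star]
  one := by simp [theta_one h]

theorem Pair.exists_hom [Nonempty P] [Nonempty Q] (h : Pair z a b) (ι : C0 →⋆ₐ[ℂ] C)
    (ha : ∀ c i j, Commute (ι c) (a i j)) (hb : ∀ c i j, Commute (ι c) (b i j)) :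
    ∃ Γ : DD (toMCh.comp ((extL Q).comp (ofMCh : MC P C0 →⋆ₐ[ℂ] _))).range
        (toMCh.comp ((extR P).comp (ofMCh : MC Q C0 →⋆ₐ[ℂ] _))).range →⋆ₐ[ℂ] C,
      (∀ f, ‖Γ f‖ ≤ ‖f‖) ∧ ∀ f c, (∀ t, f.1 t = toMC (dg (P × Q) c)) → Γ f = ι c := by
  have hab := h.ua.prod h.ub h.comm
  have hz : (1 - z) * z = z * (1 - z) := by noncomm_ring
  rw [hz] at hab
  have hza : ∀ i j, Commute z (a i j) := fun i j => by
    simpa using ((Commute.one_left _).sub_left (h.ua.comm i j))
  have hzι : ∀ c, Commute z (ι c) := fun c => (h.ub.commute_of (hb c)).symm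
  obtain ⟨Γ, h1, h2⟩ := exists_gamma
    (toMCh.comp ((extL Q).comp (ofMCh : MC P C0 →⋆ₐ[ℂ] _)))
    (toMCh.comp ((extR P).comp (ofMCh : MC Q C0 →⋆ₐ[ℂ] _)))
    (toMC.injective.comp (extL_injective.comp toMC.symm.injective))
    (toMC.injective.comp (extR_injective.comp toMC.symm.injective)) h.pc
    (oz_theta hab ι fun c i j => (ha _ _ _).mul_right (hb _ _ _)) (oz_theta h.ua ι ha)
    (oz_theta h.ub ι hb)
    (fun x => commute_theta hzι (fun i j => (hza _ _).mul_right (h.ub.comm _ _)) _)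
    (fun x => by
      change z * theta ι a (toMC.symm x) = theta ι _ (toMC.symm (toMC (extL Q (toMC.symm x))))
      rw [StarAlgEquiv.symm_apply_apply, (commute_theta hzι hza _).eq]
      simp only [theta_apply, extL_apply, Fintype.sum_prod_type, apply_ite ι, map_zero, ite_mul,
        zero_mul, Finset.sum_ite_eq, Finset.mem_univ, if_true, Finset.sum_mul]
      refine Finset.sum_congr rfl fun i _ => ?_
      rw [Finset.sum_comm]
      refine Finset.sum_congr rfl fun j _ => ?_
      rw [← h.ub.sum, Finset.mul_sum]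
      simp only [mul_assoc])
    (fun x => by
      change (1 - z) * theta ι b (toMC.symm x)
        = theta ι _ (toMC.symm (toMC (extR P (toMC.symm x))))
      rw [StarAlgEquiv.symm_apply_apply]
      simp only [theta_apply, extR_apply, Fintype.sum_prod_type_right, apply_ite ι, map_zero,
        ite_mul, zero_mul, Finset.sum_ite_eq, Finset.mem_univ, if_true, Finset.mul_sum]
      refine Finset.sum_congr rfl fun i _ => ?_
      rw [Finset.sum_comm]
      refine Finset.sum_congr rfl fun j _ => ?_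
      rw [← h.ua.sum, Finset.sum_mul]
      refine Finset.sum_congr rfl fun k _ => ?_
      rw [← mul_assoc, ← (ha _ _ _).eq, mul_assoc])
  refine ⟨Γ, h1, fun f c hf => ?_⟩
  rw [h2 f (toMC (dg P c)) (toMC (dg Q c)) fun t => ?_]
  · simp [dg_apply, theta_diagonal h.ua, theta_diagonal h.ub, mul_sub]
  · simp [hf, extL_dg, extR_dg, sub_smul]

theorem Pair.model [Nonempty P] [Nonempty Q] (h : Pair z a b) (ι : C0 →⋆ₐ[ℂ] C)
    (ha : ∀ c i j, Commute (ι c) (a i j)) (hb : ∀ c i j, Commute (ι c) (b i j)) :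
    ∃ (E : Type) (_ : CStarAlgebra E) (κ : C0 →⋆ₐ[ℂ] E) (L : P → P → E) (R : Q → Q → E)
      (E0 E1 : StarSubalgebra ℂ E) (Γ : DD E0 E1 →⋆ₐ[ℂ] C), Units 1 L ∧ Units 1 R ∧
      (∀ c i j, Commute (κ c) (L i j)) ∧ (∀ c i j, Commute (κ c) (R i j)) ∧
      (∀ i j k l, Commute (L i j) (R k l)) ∧ (∀ c, κ c ∈ E0) ∧ (∀ c, κ c ∈ E1) ∧
      (∀ i j, L i j ∈ E0) ∧ (∀ i j, R i j ∈ E1) ∧ (∀ f, ‖Γ f‖ ≤ ‖f‖) ∧
      ∀ f c, (∀ t, f.1 t = κ c) → Γ f = ι c := by
  obtain ⟨Γ, h1, h2⟩ := h.exists_hom ι ha hb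
  refine ⟨MC (P × Q) C0, inferInstance, toMCh.comp (dg (P × Q)),
    fun i j => toMCh (extL Q (Matrix.single i j 1)),
    fun i j => toMCh (extR P (Matrix.single i j 1)), _, _, Γ,
    by simpa using ((units_single (B := C0) (ι := P)).map (extL Q)).map toMCh,
    by simpa using ((units_single (B := C0) (ι := Q)).map (extR P)).map toMCh,
    fun c i j => ?_, fun c i j => ?_,
    fun i j k l => (commute_extL_extR i j k l).map _, fun c => ⟨toMC (dg P c), ?_⟩,
    fun c => ⟨toMC (dg Q c), ?_⟩, fun i j => ⟨toMC (Matrix.single i j 1), ?_⟩,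
    fun i j => ⟨toMC (Matrix.single i j 1), ?_⟩, h1, h2⟩
  · have := ((commute_dg_single c i j).map (extL Q)).map toMCh
    rwa [extL_dg] at this
  · have := ((commute_dg_single c i j).map (extR P)).map toMCh
    rwa [extR_dg] at this
  · simp [extL_dg]
  · simp [extR_dg]
  · simp
  · simp

theorem Pair.exists_dimDrop {p q : ℕ} (hp : 0 < p) (hq : 0 < q) {a : Fin p → Fin p → C}
    {b : Fin q → Fin q → C} (h : Pair z a b) {B : Type} [CStarAlgebra B]
    {ev : I → (B →⋆ₐ[ℂ] Mat p q)} (hB : IsDimDrop p q ev) : Nonempty (B →⋆ₐ[ℂ] C) := by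
  have : Nonempty (Fin p) := ⟨⟨0, hp⟩⟩
  have : Nonempty (Fin q) := ⟨⟨0, hq⟩⟩
  obtain ⟨Γ, -, -⟩ := h.exists_hom (StarAlgHom.ofId ℂ C) (fun c _ _ => commute_ofId c _)
    (fun c _ _ => commute_ofId c _)
  have h1 := fun x : B => (hB.2 fun t => ev t x).1 ⟨x, fun _ => rfl⟩
  let j : B →⋆ₐ[ℂ] C(I, MC (Fin p × Fin q) ℂ) :=
    { toFun x := ⟨fun t => toMC (ev t x), continuous_toMC.comp (h1 x).1⟩
      map_one' := by ext; simp
      map_mul' x y := by ext; simp
      map_zero' := by ext; simp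
      map_add' x y := by ext; simp
      commutes' c := by ext; simp [Algebra.algebraMap_eq_smul_one]
      map_star' x := by ext; simp [map_star] }
  refine ⟨Γ.comp (j.codRestrict _ fun x => mem_DD.2 ⟨?_, ?_⟩)⟩
  · obtain ⟨y, hy⟩ := (h1 x).2.1
    exact ⟨toMC y, by simp [j, hy, extL_eq_kronecker]⟩
  · obtain ⟨y, hy⟩ := (h1 x).2.2
    exact ⟨toMC y, by simp [j, hy, extR_eq_kronecker]⟩

end Vale.Agent.P101
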