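import Vale.Agent.P101.Quot

/-! Fibres of a C*-algebra over a central positive contraction. -/

open Filter Topology
open scoped unitInterval ComplexStarModule

namespace Vale.Agent.P101

variable {C : Type} [CStarAlgebra C]

/-- joint functional calculus of two commuting self-adjoint elements -/
theorem exists_joint {a b : C} (ha : IsSelfAdjoint a) (hb : IsSelfAdjoint b) (hab : Commute a b) :
    ∃ n : C, IsStarNormal n ∧
      (∀ f : ℝ → ℝ, Continuous f → cfc (fun x : ℂ => (f x.re : ℂ)) n = cfc f a) ∧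
      (∀ f : ℝ → ℝ, Continuous f → cfc (fun x : ℂ => (f x.im : ℂ)) n = cfc f b) ∧
      (∀ f : ℝ → ℝ, Continuous f → cfc (fun x : ℂ => (f (x.re + x.im) : ℂ)) n = cfc f (a + b)) ∧
      ∀ x ∈ spectrum ℂ n, x.re ∈ spectrum ℝ a ∧ x.im ∈ spectrum ℝ b := by
  have h1 : (ℜ (a + Complex.I • b) : C) = a := by
    simp [ha.coe_realPart, hb.imaginaryPart]
  have h2 : (ℑ (a + Complex.I • b) : C) = b := by
    simp [hb.coe_realPart, ha.imaginaryPart]
  have hn : IsStarNormal (a + Complex.I • b) := by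
    rw [isStarNormal_iff_commute_realPart_imaginaryPart, h1, h2]; exact hab
  refine ⟨a + Complex.I • b, hn, fun f hf => ?_, fun f hf => ?_, fun f hf => ?_, fun x hx => ?_⟩
  · rw [cfc_comp_re f _ hf.continuousOn, h1]
  · rw [cfc_comp_im f _ hf.continuousOn, h2]
  · have h3 : cfc (fun x : ℂ => (x.re : ℂ) + (x.im : ℂ)) (a + Complex.I • b) = a + b := by
      rw [cfc_add .., cfc_re_id _, cfc_im_id _, h1, h2]
    rw [cfc_real_eq_complex f (ha.add hb), ← h3, ← cfc_comp' _ _ _ (by fun_prop)]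
    simp
  · have h3 := spectrum_realPart' _ hn
    have h4 := spectrum_imaginaryPart' _ hn
    rw [h1] at h3
    rw [h2] at h4
    rw [h3, h4]
    exact ⟨⟨x, hx, rfl⟩, ⟨x, hx, rfl⟩⟩

theorem exists_bump {z : C} (hz : IsSelfAdjoint z) (t : ℝ) {δ : ℝ} (hδ : 0 < δ) :
    ∃ (g : ℝ → ℝ) (k : C), Continuous g ∧ g t = 1 ∧ ‖cfc g z‖ ≤ 1 ∧
      ‖cfc g z * (z - algebraMap ℝ C t)‖ ≤ δ ∧ 1 - cfc g z = (z - algebraMap ℝ C t) * k := by
  have hpos : ∀ s : ℝ, 0 < δ ^ 2 + (s - t) ^ 2 := fun s => by positivity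
  have hg : Continuous fun s : ℝ => δ ^ 2 / (δ ^ 2 + (s - t) ^ 2) :=
    continuous_const.div (by fun_prop) fun s => (hpos s).ne'
  have hk : Continuous fun s : ℝ => (s - t) / (δ ^ 2 + (s - t) ^ 2) :=
    Continuous.div (by fun_prop) (by fun_prop) fun s => (hpos s).ne'
  have hw : z - algebraMap ℝ C t = cfc (fun s : ℝ => s - t) z := by
    rw [cfc_sub .., cfc_id' ℝ z, cfc_const t z]
  refine ⟨_, cfc (fun s : ℝ => (s - t) / (δ ^ 2 + (s - t) ^ 2)) z, hg, by field_simp; ring,
    norm_cfc_le zero_le_one fun s _ => ?_, ?_, ?_⟩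
  · rw [Real.norm_eq_abs, abs_of_nonneg (by positivity), div_le_one (hpos s)]
    nlinarith [sq_nonneg (s - t)]
  · rw [hw, ← cfc_mul _ _ z hg.continuousOn (by fun_prop)]
    refine norm_cfc_le hδ.le fun s _ => ?_
    rw [Real.norm_eq_abs, abs_mul, abs_of_nonneg (by positivity), div_mul_eq_mul_div,
      div_le_iff₀ (hpos s), ← sq_abs (s - t)]
    nlinarith [sq_nonneg (|s - t| - δ), abs_nonneg (s - t), mul_pos hδ hδ]
  · rw [hw, ← cfc_mul _ _ z (by fun_prop) hk.continuousOn, ← cfc_one ℝ z,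
      ← cfc_sub _ _ z (by fun_prop) hg.continuousOn]
    refine cfc_congr fun s _ => ?_
    have := hpos s
    simp only [Pi.one_apply]
    field_simp
    ring

/-- distance to the ideal generated by `w` -/
noncomputable def fn (w c : C) : ℝ := ⨅ d : C, ‖c - w * d‖

theorem fn_le (w c d : C) : fn w c ≤ ‖c - w * d‖ :=
  ciInf_le ⟨0, by rintro _ ⟨_, rfl⟩; exact norm_nonneg _⟩ d

theorem fn_nonneg (w c : C) : 0 ≤ fn w c := le_ciInf fun _ => norm_nonneg _

theorem le_fn {w c : C} {r : ℝ} (h : ∀ d, r ≤ ‖c - w * d‖) : r ≤ fn w c := le_ciInf h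

theorem exists_fn (w c : C) {ε : ℝ} (hε : 0 < ε) : ∃ d, ‖c - w * d‖ ≤ fn w c + ε := by
  obtain ⟨d, hd⟩ := exists_lt_of_ciInf_lt (lt_add_of_pos_right (fn w c) hε)
  exact ⟨d, hd.le⟩

theorem fn_mul_self (w d : C) : fn w (w * d) = 0 :=
  le_antisymm (by simpa using fn_le w (w * d) d) (fn_nonneg _ _)

theorem fn_smul_le (w : C) (c : ℂ) (x : C) : fn w (c • x) ≤ ‖c‖ * fn w x := by
  refine le_of_forall_pos_le_add fun ε hε => ?_
  obtain ⟨d, hd⟩ := exists_fn w x (show 0 < ε / (‖c‖ + 1) by positivity)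
  refine (fn_le w _ (c • d)).trans ?_
  rw [mul_smul_comm, ← smul_sub, norm_smul]
  have h1 : ‖c‖ * (ε / (‖c‖ + 1)) ≤ ε := by
    rw [mul_div_assoc', div_le_iff₀ (by positivity)]; nlinarith
  nlinarith [norm_nonneg c]

theorem exists_fiber {z : C} (hz : IsSelfAdjoint z) (hc : ∀ c, Commute z c) (t : ℝ) :
    ∃ (U : Type) (_ : CStarAlgebra U) (π : C →⋆ₐ[ℂ] U),
      Function.Surjective π ∧ ∀ x, ‖π x‖ = fn (z - algebraMap ℝ C t) x := by
  set w := z - algebraMap ℝ C t with hw
  have hws : star w = w := (hz.sub (IsSelfAdjoint.algebraMap C (.all t))).star_eq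
  have hwc : ∀ c, Commute w c := fun c => (hc c).sub_left (Algebra.commutes t c)
  have hstar : ∀ x, fn w (star x) ≤ fn w x := fun x => le_fn fun d => by
    refine (fn_le w _ (star d)).trans (le_of_eq ?_)
    rw [← norm_star (x - w * d), star_sub, star_mul, hws, (hwc _).eq]
  refine exists_quot (fn w) (fun x y => ?_) (fun c x => ?_) (fun x y => ?_) (fun x => ?_)
    (fun x => ?_) (fun x => by simpa using fn_le w x 0) (fun x ε hε => ?_)
  · refine le_of_forall_pos_le_add fun ε hε => ?_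
    obtain ⟨d, hd⟩ := exists_fn w x (half_pos hε)
    obtain ⟨d', hd'⟩ := exists_fn w y (half_pos hε)
    refine (fn_le w _ (d + d')).trans ?_
    rw [mul_add, add_sub_add_comm]
    linarith [norm_add_le (x - w * d) (y - w * d')]
  · refine le_antisymm (fn_smul_le w c x) ?_
    by_cases h0 : c = 0
    · simpa [h0] using fn_nonneg w 0
    · have := fn_smul_le w c⁻¹ (c • x)
      rw [inv_smul_smul₀ h0, norm_inv] at this
      have h1 := norm_pos_iff.2 h0
      calc _ ≤ ‖c‖ * (‖c‖⁻¹ * fn w (c • x)) := by gcongr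
        _ = _ := by field_simp
  · have h1 : ∀ d d', fn w (x * y) ≤ ‖x - w * d‖ * ‖y - w * d'‖ := fun d d' => by
      refine (fn_le w _ (d * y + x * d' - d * (w * d'))).trans
        (le_trans (le_of_eq ?_) (norm_mul_le _ _))
      congr 1
      clear_value w
      have : w * (x * d') = x * (w * d') := by rw [← mul_assoc, (hwc x).eq, mul_assoc]
      simp only [mul_sub, mul_add, sub_mul, mul_assoc, this]
      abel
    have h2 : ContinuousAt (fun ε : ℝ => (fn w x + ε) * (fn w y + ε)) 0 := by fun_prop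
    have h3 := h2.tendsto.mono_left (nhdsWithin_le_nhds (s := Set.Ioi 0))
    simp only [add_zero] at h3
    refine ge_of_tendsto h3 (eventually_nhdsWithin_of_forall fun ε hε => ?_)
    obtain ⟨d, hd⟩ := exists_fn w x hε
    obtain ⟨d', hd'⟩ := exists_fn w y hε
    exact (h1 d d').trans (mul_le_mul hd hd' (norm_nonneg _) ((norm_nonneg _).trans hd))
  · exact le_antisymm (hstar x) (by simpa using hstar (star x))
  · refine le_fn fun d => le_of_forall_pos_le_add fun ε hε => ?_
    obtain ⟨g, k, -, -, h1, h2, h3⟩ := exists_bump hz t (show 0 < ε / (‖d‖ + 1) by positivity)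
    rw [← hw] at h2 h3
    set ψ := cfc g z
    have hψ : star ψ = ψ := (cfc_predicate g z).star_eq
    have hψc : ∀ c, Commute ψ c := fun c => (hc c).cfc_real g
    have h4 : fn w x ≤ ‖ψ * x‖ := by
      refine (fn_le w x (k * x)).trans (le_of_eq ?_)
      rw [← mul_assoc, ← h3, sub_mul, one_mul, sub_sub_cancel]
    have h5 : ‖ψ * x‖ * ‖ψ * x‖ = ‖ψ * (ψ * (star x * x - w * d) + ψ * w * d)‖ := by
      rw [← CStarRing.norm_star_mul_self, star_mul, hψ, ← (hψc (star x)).eq]
      congr 1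
      rw [mul_assoc, ← mul_assoc (star x), ← (hψc (star x)).eq]
      noncomm_ring
    have h6 : ‖ψ * w * d‖ ≤ ε := by
      refine (norm_mul_le _ _).trans ((mul_le_mul_of_nonneg_right h2 (norm_nonneg _)).trans ?_)
      rw [div_mul_eq_mul_div, div_le_iff₀ (by positivity)]; nlinarith
    have h7 : ∀ y : C, ‖ψ * y‖ ≤ ‖y‖ := fun y =>
      (norm_mul_le _ _).trans (mul_le_of_le_one_left (norm_nonneg _) h1)
    calc _ ≤ ‖ψ * x‖ * ‖ψ * x‖ := mul_self_le_mul_self (fn_nonneg _ _) h4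
      _ ≤ _ := by
        rw [h5]
        exact (h7 _).trans ((norm_add_le _ _).trans (add_le_add (h7 _) h6))
  · obtain ⟨d, hd⟩ := exists_fn w x hε
    exact ⟨x - w * d, by rw [sub_sub_cancel, fn_mul_self], hd⟩

theorem exists_fibers {z : C} (hz : PC z) (hc : ∀ c, Commute z c) :
    ∃ (F : I → Type) (_ : ∀ t, CStarAlgebra (F t)) (π : ∀ t, C →⋆ₐ[ℂ] F t),
      (∀ t, π t z = ((t : ℝ) : ℂ) • 1) ∧
      ∀ (c : C) (K : ℝ), 0 ≤ K → (∀ t, ‖π t c‖ ≤ K) → ‖c‖ ≤ K := by
  choose F inst π _ hπ using fun t : I => exists_fiber hz.sa hc t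
  refine ⟨F, inst, π, fun t => ?_, fun c K hK h => ?_⟩
  · have := hπ t ((z - algebraMap ℝ C t) * 1)
    rw [fn_mul_self, norm_eq_zero, mul_one, map_sub, sub_eq_zero] at this
    rw [this, IsScalarTower.algebraMap_apply ℝ ℂ C, AlgHomClass.commutes,
      Algebra.algebraMap_eq_smul_one]
    rfl
  · obtain (_ | _) := subsingleton_or_nontrivial C
    · simpa [Subsingleton.elim c 0]
    obtain ⟨n, hn, h1, h2, -, h3⟩ := exists_joint hz.sa (IsSelfAdjoint.star_mul_self c) (hc _)
    have h4 := h2 id continuous_id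
    rw [cfc_id ℝ _ (IsSelfAdjoint.star_mul_self c)] at h4
    obtain ⟨x, hx, hx'⟩ := (IsGreatest.norm_cfc (fun x : ℂ => (x.im : ℂ)) n).1
    simp only [id] at h4
    simp only [h4] at hx'
    let t : I := ⟨x.re, hz.spec (h3 x hx).1⟩
    have h5 : ‖star c * c‖ ≤ ‖π t (star c * c)‖ := by
      rw [hπ]
      refine le_fn fun d => le_of_forall_pos_le_add fun ε hε => ?_
      obtain ⟨g, k, hg, hg1, h6, h7, -⟩ :=
        exists_bump hz.sa x.re (show 0 < ε / (‖d‖ + 1) by positivity)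
      have h8 : ‖star c * c‖ ≤ ‖cfc g z * (star c * c)‖ := by
        rw [← hx', ← h1 g hg, ← h4, ← cfc_mul _ _ n (by fun_prop) (by fun_prop)]
        simpa [hg1] using norm_apply_le_norm_cfc (fun x : ℂ => (g x.re : ℂ) * (x.im : ℂ)) n hx
          (by fun_prop)
      have h9 : ‖cfc g z * (z - algebraMap ℝ C x.re) * d‖ ≤ ε := by
        refine (norm_mul_le _ _).trans ((mul_le_mul_of_nonneg_right h7 (norm_nonneg _)).trans ?_)
        rw [div_mul_eq_mul_div, div_le_iff₀ (by positivity)]; nlinarith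
      refine h8.trans ?_
      have : cfc g z * (star c * c) = cfc g z * (star c * c - (z - algebraMap ℝ C x.re) * d)
          + cfc g z * (z - algebraMap ℝ C x.re) * d := by noncomm_ring
      rw [this]
      exact (norm_add_le _ _).trans (add_le_add ((norm_mul_le _ _).trans
        (mul_le_of_le_one_left (norm_nonneg _) h6)) h9)
    rw [map_mul, map_star, CStarRing.norm_star_mul_self, CStarRing.norm_star_mul_self] at h5
    exact abs_le_of_sq_le_sq' (by nlinarith [h t, norm_nonneg (π t c)]) hK |>.2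

end Vale.Agent.P101
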