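import Vale.Agent.P101.Sep
import Vale.Agent.P101.Fiber

/-! Closed ideals and the spectrum of a self-adjoint element modulo an ideal. -/

namespace Vale.Agent.P101

variable {D E : Type} [CStarAlgebra D] [CStarAlgebra E]

/-- a proper two-sided ideal -/
structure PI (J : Set D) : Prop where
  zero : 0 ∈ J
  add : ∀ {x y}, x ∈ J → y ∈ J → x + y ∈ J
  ml : ∀ (x) {y}, y ∈ J → x * y ∈ J
  mr : ∀ {x} (y), x ∈ J → x * y ∈ J
  one : 1 ∉ J

/-- a closed proper two-sided ideal -/
structure CI (J : Set D) : Prop extends PI J where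
  closed : IsClosed J

variable {J : Set D}

theorem PI.sub (h : PI J) {x y : D} (hx : x ∈ J) (hy : y ∈ J) : x - y ∈ J := by
  simpa [sub_eq_add_neg] using h.add hx (h.ml (-1) hy)

theorem PI.smul (h : PI J) (c : ℂ) {x : D} (hx : x ∈ J) : c • x ∈ J := by
  rw [Algebra.smul_def]; exact h.ml _ hx

theorem PI.sum (h : PI J) {ι : Type*} (s : Finset ι) {f : ι → D} (hf : ∀ i ∈ s, f i ∈ J) :
    ∑ i ∈ s, f i ∈ J :=
  Finset.sum_induction f (· ∈ J) (fun _ _ => h.add) h.zero hf

theorem PI.not_near (h : PI J) {x : D} (hx : x ∈ J) : 1 ≤ ‖1 - x‖ := by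
  by_contra hn
  apply h.one
  have := h.ml (↑(Units.oneSub (1 - x) (not_le.1 hn))⁻¹) hx
  have h2 := (Units.oneSub (1 - x) (not_le.1 hn)).inv_mul
  rw [Units.val_oneSub, sub_sub_cancel] at h2
  rwa [h2] at this

theorem PI.closure (h : PI J) : CI (closure J) where
  zero := subset_closure h.zero
  add hx hy := map_mem_closure₂ continuous_add hx hy fun _ a _ b => h.add a b
  ml x _ hy := map_mem_closure (continuous_const_mul x) hy fun _ a => h.ml x a
  mr y hx := map_mem_closure (f := (· * y)) (continuous_mul_const y) hx fun _ a => h.mr y a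
  one hn := by
    obtain ⟨x, hx, h1⟩ := Metric.mem_closure_iff.1 hn 1 one_pos
    rw [dist_eq_norm] at h1
    exact absurd (h.not_near hx) (not_le.2 h1)
  closed := isClosed_closure

theorem PI.exists_prime (h : PI J) : ∃ M, J ⊆ M ∧ CI M ∧
    ∀ x y, (∀ e, x * e * y ∈ M) → x ∈ M ∨ y ∈ M := by
  obtain ⟨M, h1, h2⟩ := zorn_subset_nonempty {M : Set D | PI M} (fun c hc hch hne => by
    refine ⟨⋃₀ c, ⟨?_, ?_, ?_, ?_, ?_⟩, fun s hs => Set.subset_sUnion_of_mem hs⟩
    · obtain ⟨s, hs⟩ := hne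
      exact ⟨s, hs, (hc hs).zero⟩
    · rintro x y ⟨s, hs, hx⟩ ⟨t, ht, hy⟩
      rcases hch.total hs ht with h | h
      · exact ⟨t, ht, (hc ht).add (h hx) hy⟩
      · exact ⟨s, hs, (hc hs).add hx (h hy)⟩
    · rintro x y ⟨s, hs, hx⟩
      exact ⟨s, hs, (hc hs).ml x hx⟩
    · rintro x y ⟨s, hs, hx⟩
      exact ⟨s, hs, (hc hs).mr y hx⟩
    · rintro ⟨s, hs, hx⟩
      exact (hc hs).one hx) J h
  have hM : PI M := h2.prop
  refine ⟨M, h1, ⟨hM, ?_⟩, fun x y hxy => ?_⟩
  · exact closure_subset_iff_isClosed.1 (h2.le_of_ge hM.closure.toPI subset_closure)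
  · by_contra hn
    rw [not_or] at hn
    have : PI {w | ∀ e, w * e * y ∈ M} :=
      ⟨fun e => by simpa using hM.zero,
        fun h1 h2 e => by simpa [add_mul] using hM.add (h1 e) (h2 e),
        fun x _ h1 e => by simpa [mul_assoc] using hM.ml x (h1 e),
        fun x h1 e => by simpa [mul_assoc] using h1 (x * e),
        fun h1 => hn.2 (by simpa using h1 1)⟩
    exact hn.1 (h2.le_of_ge this (fun w hw e => hM.mr _ (hM.mr _ hw)) hxy)

theorem hom_continuous (ψ : D →⋆ₐ[ℂ] E) : Continuous ψ :=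
  AddMonoidHomClass.continuous_of_bound ψ 1 (by simpa using NonUnitalStarAlgHom.norm_apply_le ψ)

theorem CI.comap {J : Set E} (h : CI J) (ψ : D →⋆ₐ[ℂ] E) : CI (ψ ⁻¹' J) where
  zero := by simpa using h.zero
  add hx hy := by simpa using h.add hx hy
  ml x _ hy := by simpa using h.ml (ψ x) hy
  mr y hx := by simpa using h.mr (ψ y) hx
  one := by simpa using h.one
  closed := h.closed.preimage (hom_continuous ψ)

theorem one_mem_span {S : Set D} (h : ∀ J, CI J → ∃ s ∈ S, s ∉ J) :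
    (1 : D) ∈ Ideal.span {x | ∃ s ∈ S, ∃ t, s * t = x} := by
  by_contra hn
  have : PI (Ideal.span {x | ∃ s ∈ S, ∃ t, s * t = x} : Set D) := by
    refine ⟨zero_mem _, add_mem, fun x _ hy => Ideal.mul_mem_left _ x hy, fun y hx => ?_, hn⟩
    induction hx using Submodule.span_induction with
    | mem x hx =>
      obtain ⟨s, hs, t, rfl⟩ := hx
      exact Ideal.subset_span ⟨s, hs, t * y, by rw [mul_assoc]⟩
    | zero => simp
    | add x z _ _ h1 h2 => rw [add_mul]; exact add_mem h1 h2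
    | smul a x _ h1 => rw [smul_eq_mul, mul_assoc]; exact Ideal.mul_mem_left _ a h1
  obtain ⟨s, hs, h1⟩ := h _ this.closure
  exact h1 (subset_closure (Ideal.subset_span ⟨s, hs, 1, mul_one s⟩))

/-- an element contained in no closed proper ideal -/
def Full (x : D) : Prop := ∀ J, CI J → x ∉ J

theorem Full.map {x : D} (h : Full x) (ψ : D →⋆ₐ[ℂ] E) : Full (ψ x) :=
  fun _ hJ hx => h _ (hJ.comap ψ) hx

theorem Full.cancel {y : D} (h : Full y) (ψ : D →⋆ₐ[ℂ] E) {J : Set E} (hJ : CI J) {w : E}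
    (hw : ∀ u, Commute w (ψ u)) (hm : w * ψ y ∈ J) : w ∈ J := by
  by_contra hn
  refine h {u | w * ψ u ∈ J} ⟨⟨?_, fun h1 h2 => ?_, fun x u h1 => ?_, fun x h1 => ?_, ?_⟩, ?_⟩ hm
  · simpa using hJ.zero
  · simpa [mul_add] using hJ.add h1 h2
  · have := hJ.ml (ψ x) h1
    rwa [← mul_assoc, ← (hw x).eq, mul_assoc, ← map_mul] at this
  · simpa [mul_assoc] using hJ.mr (ψ x) h1
  · simpa using hn
  · exact hJ.closed.preimage (continuous_const.mul (hom_continuous ψ))

/-- the spectrum of `h` modulo `J` -/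
def Sp (J : Set D) (h : D) : Set ℝ := {t | ∀ g : ℝ → ℝ, Continuous g → cfc g h ∈ J → g t = 0}

theorem Sp.mono {J' : Set D} (hJ : J ⊆ J') (h : D) : Sp J' h ⊆ Sp J h :=
  fun _ ht g hg hm => ht g hg (hJ hm)

theorem map_cfc' (ψ : D →⋆ₐ[ℂ] E) {h : D} (hh : IsSelfAdjoint h) {g : ℝ → ℝ} (hg : Continuous g) :
    ψ (cfc g h) = cfc g (ψ h) :=
  StarAlgHomClass.map_cfc ψ g h hg.continuousOn (hom_continuous ψ) hh (hh.map ψ)

theorem Sp.map {J : Set E} (ψ : D →⋆ₐ[ℂ] E) {h : D} (hh : IsSelfAdjoint h) :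
    Sp J (ψ h) = Sp (ψ ⁻¹' J) h := by
  ext t
  refine forall₂_congr fun g hg => ?_
  rw [Set.mem_preimage, map_cfc' ψ hh hg]

theorem CI.cfc_mem (hJ : CI J) {h : D} (hh : IsSelfAdjoint h) {g : ℝ → ℝ} (hg : Continuous g)
    (h0 : ∀ t ∈ Sp J h, g t = 0) : cfc g h ∈ J := by
  let I : Ideal C(spectrum ℝ h, ℝ) :=
    { carrier := {f | cfcHom hh f ∈ J}
      zero_mem' := by simpa using hJ.zero
      add_mem' h1 h2 := by simpa using hJ.add h1 h2
      smul_mem' c _ h1 := by simpa using hJ.ml _ h1 }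
  have hI : IsClosed (I : Set C(spectrum ℝ h, ℝ)) := hJ.closed.preimage (cfcHom_continuous hh)
  rw [cfc_apply g h]
  change _ ∈ I
  rw [← I.closure_eq_of_isClosed hI, ← ContinuousMap.idealOfSet_ofIdeal_eq_closure,
    ContinuousMap.mem_idealOfSet]
  intro x hx
  refine h0 x fun k hk hm => ?_
  rw [cfc_apply k h] at hm
  exact ContinuousMap.notMem_setOfIdeal.1 hx (show _ ∈ I from hm)

theorem Sp.abs_le (hJ : CI J) {h : D} {t : ℝ} (ht : t ∈ Sp J h) : |t| ≤ ‖h‖ := by
  have : Nontrivial D := ⟨⟨0, 1, fun h => hJ.one (h ▸ hJ.zero)⟩⟩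
  have h1 := ht (fun s => max (|s| - ‖h‖) 0) (by fun_prop) (by
    rw [cfc_congr (f := fun s : ℝ => max (|s| - ‖h‖) 0) (g := fun _ => 0) fun s hs => max_eq_right
      (sub_nonpos.2 (spectrum.norm_le_norm_of_mem hs)), cfc_const_zero]
    exact hJ.zero)
  linarith [le_max_left (|t| - ‖h‖) 0]

theorem CI.exists_near (hJ : CI J) {h : D} (hh : IsSelfAdjoint h) {u δ : ℝ} (hδ : 0 ≤ δ)
    (h0 : ∀ t ∈ Sp J h, |t - u| ≤ δ) : ∃ y, ‖y‖ ≤ δ ∧ h - algebraMap ℝ D u - y ∈ J := by
  refine ⟨cfc (fun s => max (-δ) (min δ (s - u))) h, norm_cfc_le hδ fun s _ => ?_, ?_⟩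
  · rw [Real.norm_eq_abs, abs_le]
    exact ⟨le_max_left _ _, max_le (by linarith) (min_le_left _ _)⟩
  · have := hJ.cfc_mem hh (g := fun s => s - u - max (-δ) (min δ (s - u))) (by fun_prop)
      fun t ht => by
        have := abs_le.1 (h0 t ht)
        rw [min_eq_right this.2, max_eq_right this.1, sub_self]
    rwa [cfc_sub .., cfc_sub .., cfc_id' ℝ h, cfc_const u h] at this

theorem CI.sp_nonempty (hJ : CI J) {h : D} (hh : IsSelfAdjoint h) : (Sp J h).Nonempty := by
  by_contra hn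
  apply hJ.one
  have := hJ.cfc_mem hh (g := fun _ => 1) continuous_const fun t ht => (hn ⟨t, ht⟩).elim
  rwa [cfc_const_one ℝ h] at this

theorem CI.of_star_mul (hJ : CI J) {x : D} (hx : star x * x ∈ J) : x ∈ J := by
  have hh := IsSelfAdjoint.star_mul_self x
  refine hJ.closed.closure_subset (Metric.mem_closure_iff.2 fun ε hε => ?_)
  have hε2 : 0 < ε ^ 2 / 2 := by positivity
  let g : ℝ → ℝ := fun s => min (|s| / (ε ^ 2 / 2)) 1
  have hg : Continuous g := by fun_prop
  refine ⟨x * cfc g (star x * x), hJ.ml _ (hJ.cfc_mem hh hg fun t ht => ?_), ?_⟩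
  · have := ht id continuous_id (by rwa [cfc_id ℝ _ hh])
    simp only [id] at this
    simp [g, this]
  · have h1 : x - x * cfc g (star x * x) = x * cfc (fun s => 1 - g s) (star x * x) := by
      rw [cfc_sub .., cfc_const_one ℝ _ hh, mul_sub, mul_one]
    have h2 : IsSelfAdjoint (cfc (fun s => 1 - g s) (star x * x)) := cfc_predicate _ _
    have h3 : ‖cfc (fun s => (1 - g s) * s * (1 - g s)) (star x * x)‖ ≤ ε ^ 2 / 2 := by
      refine norm_cfc_le hε2.le fun s _ => ?_
      rw [Real.norm_eq_abs, mul_right_comm, abs_mul, abs_mul_self]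
      have h4 : 0 ≤ g s := le_min (by positivity) zero_le_one
      have h5 : g s ≤ 1 := min_le_right _ _
      rcases le_total |s| (ε ^ 2 / 2) with h | h
      · nlinarith [abs_nonneg s, mul_nonneg h4 (abs_nonneg s)]
      · have : g s = 1 := min_eq_right (by rw [le_div_iff₀ hε2]; linarith)
        rw [this]; simp; positivity
    rw [cfc_mul .., cfc_mul .., cfc_id' ℝ _ hh] at h3
    rw [dist_eq_norm, h1]
    refine lt_of_pow_lt_pow_left₀ 2 hε.le ?_
    rw [sq, ← CStarRing.norm_star_mul_self, star_mul, h2.star_eq]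
    simp only [mul_assoc] at h3 ⊢
    nlinarith

theorem CI.sp_add (hJ : CI J) {a b : D} (ha : IsSelfAdjoint a) (hb : IsSelfAdjoint b)
    (hab : Commute a b) (hp : ∀ f g : ℝ → ℝ, Continuous f → Continuous g →
      cfc f a * cfc g b ∈ J → cfc f a ∈ J ∨ cfc g b ∈ J) {s t : ℝ} (hs : s ∈ Sp J a)
    (ht : t ∈ Sp J b) : s + t ∈ Sp J (a + b) := by
  intro g hg hm
  by_contra h0
  obtain ⟨n, hn, h1, h2, h3, -⟩ := exists_joint ha hb hab
  have hc : 0 < g (s + t) ^ 2 / 2 := by positivity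
  obtain ⟨δ, hδ, h4⟩ := Metric.eventually_nhds_iff.1
    ((hg.pow 2).continuousAt.eventually (lt_mem_nhds (half_lt_self (sq_pos_of_ne_zero h0))))
  let φ : ℝ → ℝ → ℝ := fun c u => max (δ / 2 - |u - c|) 0
  have hφ : ∀ c, Continuous (φ c) := fun c => by fun_prop
  let k : ℝ → ℝ := fun u => g u / max (g u ^ 2) (g (s + t) ^ 2 / 2)
  have hk : Continuous k := hg.div (by fun_prop) fun u => (hc.trans_le (le_max_right _ _)).ne'
  have key : cfc (φ s) a * cfc (φ t) b = cfc (φ s) a * cfc (φ t) b * cfc k (a + b)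
      * cfc g (a + b) := by
    have c1 : Continuous fun x : ℂ => (φ s x.re : ℂ) := Complex.continuous_ofReal.comp
      ((hφ s).comp Complex.continuous_re)
    have c2 : Continuous fun x : ℂ => (φ t x.im : ℂ) := Complex.continuous_ofReal.comp
      ((hφ t).comp Complex.continuous_im)
    have c3 : Continuous fun x : ℂ => (k (x.re + x.im) : ℂ) := Complex.continuous_ofReal.comp
      (hk.comp (Complex.continuous_re.add Complex.continuous_im))
    have c4 : Continuous fun x : ℂ => (g (x.re + x.im) : ℂ) := Complex.continuous_ofReal.comp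
      (hg.comp (Complex.continuous_re.add Complex.continuous_im))
    rw [← h1 _ (hφ s), ← h2 _ (hφ t), ← h3 _ hk, ← h3 _ hg,
      ← cfc_mul _ _ n c1.continuousOn c2.continuousOn,
      ← cfc_mul _ _ n (c1.fun_mul c2).continuousOn c3.continuousOn,
      ← cfc_mul _ _ n ((c1.fun_mul c2).fun_mul c3).continuousOn c4.continuousOn]
    refine cfc_congr fun x _ => ?_
    norm_cast
    by_cases h5 : |x.re - s| < δ / 2 ∧ |x.im - t| < δ / 2
    · have h6 : g (s + t) ^ 2 / 2 < g (x.re + x.im) ^ 2 := h4 (y := x.re + x.im) (by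
        rw [Real.dist_eq, show x.re + x.im - (s + t) = (x.re - s) + (x.im - t) by ring]
        linarith [abs_add_le (x.re - s) (x.im - t)])
      have h7 : g (x.re + x.im) ≠ 0 := fun h => by rw [h] at h6; linarith
      simp only [k, max_eq_left h6.le]
      field_simp
    · rcases not_and_or.1 h5 with h | h
      · simp [φ, max_eq_right (sub_nonpos.2 (not_lt.1 h))]
      · simp [φ, max_eq_right (sub_nonpos.2 (not_lt.1 h))]
  have h8 : ∀ c, φ c c ≠ 0 := fun c => by simp [φ, hδ]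
  rcases hp _ _ (hφ s) (hφ t) (key ▸ hJ.ml _ hm) with h | h
  · exact h8 s (hs _ (hφ s) h)
  · exact h8 t (ht _ (hφ t) h)

end Vale.Agent.P101
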