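import Vale.Agent.P101.Ideal

/-! Commutators generate when there is no character; doubling. -/

open TopologicalSpace

namespace Vale.Agent.P101

variable {F D : Type} [CStarAlgebra F] [CStarAlgebra D]

theorem exists_fin {S : Set D} (h : ∀ J, CI J → ∃ s ∈ S, s ∉ J) :
    ∃ (n : ℕ) (s y t : Fin n → D), (∀ i, s i ∈ S) ∧ ∑ i, y i * (s i * t i) = 1 := by
  obtain ⟨n, y, g, hg⟩ := Submodule.mem_span_set'.1 (one_mem_span h)
  choose s hs t ht using fun i => (g i).2
  exact ⟨n, s, y, t, hs, by simpa [ht] using hg⟩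

theorem exists_comm (hF : ∀ χ : F →⋆ₙₐ[ℂ] ℂ, χ = 0) (J : Set F) (hJ : CI J) :
    ∃ s ∈ {s : F | ∃ h z, IsSelfAdjoint h ∧ h * z - z * h = s}, s ∉ J := by
  by_contra hn
  obtain ⟨M, h1, hM, h2⟩ := hJ.exists_prime
  have hc : ∀ h z, IsSelfAdjoint h → h * z - z * h ∈ M := fun h z hh =>
    h1 (not_not.1 fun h3 => hn ⟨_, ⟨h, z, hh, rfl⟩, h3⟩)
  have h3 : ∀ h, IsSelfAdjoint h → ∃ u : ℝ, h - algebraMap ℝ F u ∈ M := fun h hh => by
    obtain ⟨u, hu⟩ := hM.sp_nonempty hh
    have key : ∀ s ∈ Sp M h, ∀ t ∈ Sp M h, s ≤ t := fun s hs t ht => by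
      by_contra hst
      have h4 : cfc (fun x : ℝ => max (x - (s + t) / 2) 0) h
          * cfc (fun x : ℝ => max ((s + t) / 2 - x) 0) h = 0 := by
        rw [← cfc_mul .., ← cfc_const_zero ℝ h]
        refine cfc_congr fun x _ => ?_
        rcases le_total x ((s + t) / 2) with h | h
        · simp [max_eq_right (sub_nonpos.2 h)]
        · simp [max_eq_right (sub_nonpos.2 h)]
      rcases h2 _ _ (fun e => by
        have := hM.mr (cfc (fun x : ℝ => max ((s + t) / 2 - x) 0) h)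
          (hc _ e (cfc_predicate (fun x : ℝ => max (x - (s + t) / 2) 0) h))
        rwa [sub_mul, mul_assoc e, h4, mul_zero, sub_zero] at this) with h5 | h5
      · linarith [hs _ (by fun_prop) h5, le_max_left (s - (s + t) / 2) 0]
      · linarith [ht _ (by fun_prop) h5, le_max_left ((s + t) / 2 - t) 0]
    obtain ⟨y, h4, h5⟩ := hM.exists_near hh (u := u) le_rfl fun t ht => by
      rw [le_antisymm (key t ht u hu) (key u hu t ht), sub_self, abs_zero]
    exact ⟨u, by rwa [norm_le_zero_iff.1 h4, sub_zero] at h5⟩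
  have h4 : ∀ x, ∃ c : ℂ, x - c • 1 ∈ M ∧ star x - star c • 1 ∈ M := fun x => by
    obtain ⟨u, hu⟩ := h3 _ (realPart x).2
    obtain ⟨v, hv⟩ := h3 _ (imaginaryPart x).2
    rw [Algebra.algebraMap_eq_smul_one, ← Complex.coe_smul] at hu hv
    have e1 := realPart_add_I_smul_imaginaryPart x
    have e2 : star x = realPart x - Complex.I • (imaginaryPart x : F) := by
      conv_lhs => rw [← e1]
      simp [sub_eq_add_neg]
    refine ⟨u + Complex.I * v, ?_, ?_⟩
    · convert hM.add hu (hM.smul Complex.I hv) using 1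
      conv_lhs => rw [← e1]
      module
    · convert hM.sub hu (hM.smul Complex.I hv) using 1
      rw [e2]
      simp only [star_add, star_mul, Complex.star_def, Complex.conj_ofReal, Complex.conj_I]
      module
  choose χ h5 h6 using h4
  have uq : ∀ x c, x - c • 1 ∈ M → χ x = c := fun x c h => by
    by_contra hne
    apply hM.one
    have := hM.smul (χ x - c)⁻¹ (hM.sub h (h5 x))
    rwa [sub_sub_sub_cancel_left, ← sub_smul, inv_smul_smul₀ (sub_ne_zero.2 hne)] at this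
  let ψ : F →⋆ₙₐ[ℂ] ℂ :=
    { toFun := χ
      map_smul' c x := uq _ _ (by
        convert hM.smul c (h5 x) using 1
        simp [smul_sub, mul_smul])
      map_zero' := uq _ _ (by simpa using hM.zero)
      map_add' x y := uq _ _ (by
        convert hM.add (h5 x) (h5 y) using 1
        module)
      map_mul' x y := uq _ _ (by
        convert hM.add (hM.mr y (h5 x)) (hM.smul (χ x) (h5 y)) using 1
        simp [sub_mul, smul_sub, mul_smul])
      map_star' x := uq _ _ (h6 x) }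
  have h7 : ψ 1 = 1 := uq _ _ (by simpa using hM.zero)
  rw [hF ψ] at h7
  exact zero_ne_one h7

theorem double (hR : Rich F) {D1 D2 : Type} [CStarAlgebra D1] [CStarAlgebra D2] (h1 : Adm F D1)
    (h2 : Adm F D2) : ∃ (E : Type) (_ : CStarAlgebra E) (i1 : D1 →⋆ₐ[ℂ] E) (i2 : D2 →⋆ₐ[ℂ] E),
      Adm F E ∧ (∀ x y, Commute (i1 x) (i2 y)) ∧ ∀ J : Set E, CI J → ∃ M, J ⊆ M ∧ CI M ∧
        ∀ x y, i1 x * i2 y ∈ M → i1 x ∈ M ∨ i2 y ∈ M := by
  obtain ⟨_, ⟨θ1⟩⟩ := h1
  obtain ⟨_, ⟨θ⟩⟩ := h2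
  obtain ⟨θ2, hc⟩ := hR D2 θ _ (isSeparable_range (hom_continuous θ1))
  obtain ⟨E, _, ψ, hE, inj, hT, hK⟩ := exists_sep
    ((isSeparable_range (hom_continuous θ1)).union (isSeparable_range (hom_continuous θ2)))
  obtain ⟨i1, e1⟩ := exists_lift inj θ1 fun x => hT (.inl ⟨x, rfl⟩)
  obtain ⟨i2, e2⟩ := exists_lift inj θ2 fun x => hT (.inr ⟨x, rfl⟩)
  have hi : ∀ x y, Commute (i1 x) (i2 y) := fun x y => inj (by
    rw [map_mul, map_mul, e1, e2]; exact (hc y _ ⟨x, rfl⟩).symm)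
  refine ⟨E, inferInstance, i1, i2, ⟨hE, ⟨ψ⟩⟩, hi, fun J hJ => ?_⟩
  obtain ⟨M, h3, hM, h4⟩ := hJ.exists_prime
  refine ⟨M, h3, hM, fun x y hxy => h4 _ _ fun e => ?_⟩
  let K : Submodule ℂ E :=
    { carrier := {e | i1 x * e * i2 y ∈ M}
      zero_mem' := by simpa using hM.zero
      add_mem' h1 h2 := by simpa [mul_add, add_mul] using hM.add h1 h2
      smul_mem' c _ h1 := by simpa using hM.smul c h1 }
  have : K = ⊤ := hK K (hM.closed.preimage (f := fun e => i1 x * e * i2 y) (by fun_prop))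
    fun e he => by
      have : ∀ w ∈ Submonoid.closure ((Set.range θ1 ∪ Set.range θ2) ∪
          star (Set.range θ1 ∪ Set.range θ2)), ∃ u v, w = θ1 u * θ2 v := fun w hw => by
        induction hw using Submonoid.closure_induction with
        | mem w hw =>
          rcases hw with (⟨u, rfl⟩ | ⟨v, rfl⟩) | (⟨u, hu⟩ | ⟨v, hv⟩)
          · exact ⟨u, 1, by simp⟩
          · exact ⟨1, v, by simp⟩
          · exact ⟨star u, 1, by simp [map_star, hu]⟩
          · exact ⟨1, star v, by simp [map_star, hv]⟩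
        | one => exact ⟨1, 1, by simp⟩
        | mul w w' _ _ hw hw' =>
          obtain ⟨u, v, rfl⟩ := hw
          obtain ⟨u', v', rfl⟩ := hw'
          exact ⟨u * u', v * v', by
            rw [(hc v _ ⟨u', rfl⟩).mul_mul_mul_comm, map_mul, map_mul]⟩
      obtain ⟨u, v, huv⟩ := this _ he
      have he' : e = i1 u * i2 v := inj (by rw [huv, map_mul, e1, e2])
      have h5 := hM.mr (i1 u) (hM.ml (i2 v) hxy)
      change i1 x * e * i2 y ∈ M
      convert h5 using 1
      rw [he', ← mul_assoc (i2 v), ← (hi x v).eq, mul_assoc, mul_assoc, ← map_mul i2,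
        (hi u _).eq, map_mul, mul_assoc, mul_assoc, mul_assoc]
  exact (this.symm ▸ Submodule.mem_top : e ∈ K)

theorem reduce (P : ℕ → ∀ (D : Type) [CStarAlgebra D], Prop)
    (step : ∀ k (D : Type) [CStarAlgebra D], Adm F D → P (k + 2) D →
      ∃ (E : Type) (_ : CStarAlgebra E), Adm F E ∧ P (k + 1) E) (k : ℕ) :
    ∀ (D : Type) [CStarAlgebra D], Adm F D → P (k + 1) D →
      ∃ (E : Type) (_ : CStarAlgebra E), Adm F E ∧ P 1 E := by
  induction k with
  | zero => exact fun D _ h1 h2 => ⟨D, _, h1, h2⟩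
  | succ k ih =>
    intro D _ h1 h2
    obtain ⟨E, _, h3, h4⟩ := step k D h1 h2
    exact ih E h3 h4

/-- the commutators with `k` self-adjoint elements generate -/
def Gen (k : ℕ) (D : Type) [CStarAlgebra D] : Prop :=
  ∃ h : Fin k → D, (∀ a, IsSelfAdjoint (h a)) ∧ ∀ J, CI J → ∃ a z, h a * z - z * h a ∉ J

theorem gen_init (hF : ∀ χ : F →⋆ₙₐ[ℂ] ℂ, χ = 0) :
    ∃ (k : ℕ) (D : Type) (_ : CStarAlgebra D), Adm F D ∧ Gen (k + 1) D := by
  obtain ⟨n, s, y, t, h1, h2⟩ := exists_fin (exists_comm hF)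
  choose h z hh hs using h1
  obtain ⟨D, _, ψ, hD, inj, hT, -⟩ := exists_sep (T := Set.range y ∪ Set.range t ∪ Set.range h ∪
    Set.range z) (Set.Finite.isSeparable (Set.toFinite _))
  choose y' hy using fun i => hT (a := y i) (.inl (.inl (.inl ⟨i, rfl⟩)))
  choose t' ht using fun i => hT (a := t i) (.inl (.inl (.inr ⟨i, rfl⟩)))
  choose h' hh' using fun i => hT (a := h i) (.inl (.inr ⟨i, rfl⟩))
  choose z' hz using fun i => hT (a := z i) (.inr ⟨i, rfl⟩)
  refine ⟨n, D, inferInstance, ⟨hD, ⟨ψ⟩⟩, Fin.cons 0 h', Fin.cases (.zero D) fun i =>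
    inj (by rw [map_star]; simpa [hh'] using (hh i).star_eq), fun J hJ => ?_⟩
  by_contra hn
  push Not at hn
  apply hJ.one
  have : ∑ i, y' i * ((h' i * z' i - z' i * h' i) * t' i) = 1 := inj (by
    simpa [hy, ht, hh', hz, hs] using h2)
  rw [← this]
  exact hJ.sum _ fun i _ => hJ.ml _ (hJ.mr _ (hn i.succ (z' i)))

theorem gen_step (hR : Rich F) (k : ℕ) (D : Type) [CStarAlgebra D] (hD : Adm F D)
    (h : Gen (k + 2) D) : ∃ (E : Type) (_ : CStarAlgebra E), Adm F E ∧ Gen (k + 1) E := by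
  obtain ⟨h, hh, h1⟩ := h
  obtain ⟨E, _, i1, i2, hE, hc, hp⟩ := double hR hD hD
  set m := h (Fin.last _)
  refine ⟨E, inferInstance, hE, fun a => i1 (h a.castSucc) + i2 (h a.castSucc) + i1 m * i2 m,
    fun a => (((hh _).map i1).add ((hh _).map i2)).add
      ((((hh _).map i1).commute_iff ((hh _).map i2)).1 (hc _ _)), fun J hJ => ?_⟩
  by_contra hn
  push Not at hn
  obtain ⟨M, h2, hM, h3⟩ := hp J hJ
  have e1 : ∀ a : Fin (k + 1), ∀ w, i1 (h a.castSucc * w - w * h a.castSucc)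
      + i1 (m * w - w * m) * i2 m ∈ M := fun a w => by
    convert h2 (hn a (i1 w)) using 1
    simp only [map_sub, map_mul]
    linear_combination (norm := noncomm_ring) (hc w (h a.castSucc)).eq + i1 m * (hc w m).eq
  have e2 : ∀ a : Fin (k + 1), ∀ w, i2 (h a.castSucc * w - w * h a.castSucc)
      + i1 m * i2 (m * w - w * m) ∈ M := fun a w => by
    convert h2 (hn a (i2 w)) using 1
    simp only [map_sub, map_mul]
    linear_combination (norm := noncomm_ring) -(hc (h a.castSucc) w).eq - (hc m w).eq * i2 m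
  have e3 : ∀ w w', i1 (m * w - w * m) ∈ M ∨ i2 (m * w' - w' * m) ∈ M := fun w w' => h3 _ _ (by
    convert hM.sub (hM.mr (i2 w') (e1 0 w)) (hM.ml (i2 w') (e1 0 w)) using 1
    rw [map_sub i2, map_mul, map_mul]
    linear_combination (norm := noncomm_ring) -(hc (h (Fin.castSucc 0) * w
      - w * h (Fin.castSucc 0)) w').eq - (hc (m * w - w * m) w').eq * i2 m)
  by_cases h4 : ∀ w, i1 (m * w - w * m) ∈ M
  · obtain ⟨a, w, h5⟩ := h1 _ (hM.comap i1)
    revert h5
    refine Fin.lastCases (fun h5 => h5 (h4 w)) (fun a h5 => h5 ?_) a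
    simpa using hM.sub (e1 a w) (hM.mr (i2 m) (h4 w))
  · push Not at h4
    obtain ⟨w0, h4⟩ := h4
    obtain ⟨a, w, h5⟩ := h1 _ (hM.comap i2)
    have h6 := (e3 w0 w).resolve_left h4
    revert h5
    refine Fin.lastCases (fun h5 => h5 h6) (fun a h5 => h5 ?_) a
    simpa using hM.sub (e2 a w) (hM.ml (i1 m) h6)

theorem exists_gen (hR : Rich F) (hF : ∀ χ : F →⋆ₙₐ[ℂ] ℂ, χ = 0) :
    ∃ (D : Type) (_ : CStarAlgebra D) (h : D), Adm F D ∧ IsSelfAdjoint h ∧
      ∀ J, CI J → ∃ z, h * z - z * h ∉ J := by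
  obtain ⟨k, D, _, h1, h2⟩ := gen_init hF
  obtain ⟨E, _, h3, h, h4, h5⟩ := reduce Gen (gen_step hR) k D h1 h2
  refine ⟨E, inferInstance, h 0, h3, h4 0, fun J hJ => ?_⟩
  obtain ⟨a, z, h6⟩ := h5 J hJ
  exact ⟨z, by rwa [Subsingleton.elim a 0] at h6⟩

end Vale.Agent.P101
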