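import Mathlib

/-! Definitions for the Kirchberg-Rordam character question. -/

open Filter Topology
open scoped Kronecker Matrix BoundedContinuousFunction

namespace Vale.Agent.P101

/-- `π` presents `U` as the norm ultrapower of `A` along `ω`: it is a surjective star
homomorphism from the bounded sequences in `A` whose kernel consists of the sequences with norms
tending to zero along `ω`. -/
def IsUltrapower {A U : Type} [CStarAlgebra A] [CStarAlgebra U] (ω : Ultrafilter ℕ)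
    (π : (ℕ →ᵇ A) →⋆ₐ[ℂ] U) : Prop :=
  Function.Surjective π ∧ ∀ x, π x = 0 ↔ Tendsto (fun n => ‖x n‖) (ω : Filter ℕ) (𝓝 0)

/-- The central sequence algebra: the commutant in `U` of the constant sequences. -/
noncomputable def centralSeq {A U : Type} [CStarAlgebra A] [CStarAlgebra U]
    (π : (ℕ →ᵇ A) →⋆ₐ[ℂ] U) : StarSubalgebra ℂ U :=
  StarSubalgebra.centralizer ℂ (Set.range fun a : A => π (BoundedContinuousFunction.const ℕ a))

/-- The subalgebra `F` has no character (nonzero star homomorphism to `ℂ`). -/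
def NoCharacters {U : Type} [CStarAlgebra U] (F : StarSubalgebra ℂ U) : Prop :=
  ∀ χ : F →⋆ₙₐ[ℂ] ℂ, χ = 0

/-- Complex `pq × pq` matrices, `M_p ⊗ M_q`. -/
abbrev Mat (p q : ℕ) : Type := Matrix (Fin p × Fin q) (Fin p × Fin q) ℂ

/-- `b ↦ (t ↦ ev t b)` is a star isomorphism of `B` onto the dimension drop algebra of continuous
`f : [0,1] → M_p ⊗ M_q` with `f 0 ∈ M_p ⊗ 1` and `f 1 ∈ 1 ⊗ M_q`. -/
def IsDimDrop (p q : ℕ) {B : Type} [CStarAlgebra B]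
    (ev : unitInterval → (B →⋆ₐ[ℂ] Mat p q)) : Prop :=
  (∀ b, (∀ t, ev t b = 0) → b = 0) ∧
  ∀ f : unitInterval → Mat p q, (∃ b, ∀ t, ev t b = f t) ↔ Continuous f ∧
    (∃ x : Matrix (Fin p) (Fin p) ℂ, f 0 = x ⊗ₖ (1 : Matrix (Fin q) (Fin q) ℂ)) ∧
    (∃ y : Matrix (Fin q) (Fin q) ℂ, f 1 = (1 : Matrix (Fin p) (Fin p) ℂ) ⊗ₖ y)

/-- `φ f = u* diag (f ∘ ξ₁, …, f ∘ ξ_k) u` for a continuous path `u` of unitaries and
`1/2`-Lipschitz maps `ξ_i : [0,1] → [0,1]`. -/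
def IsStdMap {p q p' q' : ℕ} {B B' : Type} [CStarAlgebra B] [CStarAlgebra B']
    (ev : unitInterval → (B →⋆ₐ[ℂ] Mat p q)) (ev' : unitInterval → (B' →⋆ₐ[ℂ] Mat p' q'))
    (φ : B →⋆ₐ[ℂ] B') : Prop :=
  ∃ (k : ℕ) (ξ : Fin k → unitInterval → unitInterval)
    (u : unitInterval → Matrix ((Fin p × Fin q) × Fin k) (Fin p' × Fin q') ℂ),
    (∀ i x y, dist (ξ i x) (ξ i y) ≤ dist x y / 2) ∧
    Continuous u ∧ (∀ t, (u t)ᴴ * u t = 1) ∧ (∀ t, u t * (u t)ᴴ = 1) ∧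
    ∀ b t, ev' t (φ b) = (u t)ᴴ * Matrix.blockDiagonal (fun i => ev (ξ i t) b) * u t

/-- `Z` is the C*-inductive limit of a Jiang-Su sequence of prime dimension drop algebras. -/
def IsJiangSu (Z : Type) [CStarAlgebra Z] : Prop :=
  ∃ (p q : ℕ → ℕ) (B : ℕ → Type) (_ : ∀ n, CStarAlgebra (B n))
    (ev : ∀ n, unitInterval → (B n →⋆ₐ[ℂ] Mat (p n) (q n)))
    (φ : ∀ n, B n →⋆ₐ[ℂ] B (n + 1)) (ι : ∀ n, B n →⋆ₐ[ℂ] Z),
    (∀ n, 1 < p n ∧ 1 < q n ∧ (p n).Coprime (q n) ∧ p n ∣ p (n + 1) ∧ q n ∣ q (n + 1)) ∧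
    (∀ n, IsDimDrop (p n) (q n) (ev n)) ∧
    (∀ n, Function.Injective (φ n) ∧ IsStdMap (ev n) (ev (n + 1)) (φ n)) ∧
    (∀ n, Function.Injective (ι n)) ∧ (∀ n b, ι (n + 1) (φ n b) = ι n b) ∧
    Dense (⋃ n, Set.range (ι n))

end Vale.Agent.P101
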