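import Vale.Agent.P101.Quot
import Vale.Agent.P101.Conn
import Vale.Agent.P101.Limit

/-! Existence of a Jiang-Su sequence and of its limit. -/

open scoped Kronecker Matrix

namespace Vale.Agent.P101

namespace ExistAux

/-- matrices of the form `x ⊗ 1` -/
def subL (p q : ℕ) : StarSubalgebra ℂ (Mat p q) where
  carrier := {X | ∃ x : Matrix (Fin p) (Fin p) ℂ, X = x ⊗ₖ (1 : Matrix (Fin q) (Fin q) ℂ)}
  mul_mem' := by
    rintro _ _ ⟨x, rfl⟩ ⟨y, rfl⟩
    exact ⟨x * y, by rw [← Matrix.mul_kronecker_mul, mul_one]⟩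
  add_mem' := by
    rintro _ _ ⟨x, rfl⟩ ⟨y, rfl⟩
    exact ⟨x + y, by rw [Matrix.add_kronecker]⟩
  algebraMap_mem' c := ⟨c • 1, by
    rw [Matrix.smul_kronecker, Matrix.one_kronecker_one, Algebra.algebraMap_eq_smul_one]⟩
  star_mem' := by
    rintro _ ⟨x, rfl⟩
    exact ⟨xᴴ, by rw [Matrix.star_eq_conjTranspose, Matrix.conjTranspose_kronecker,
      Matrix.conjTranspose_one]⟩

/-- matrices of the form `1 ⊗ y` -/
def subR (p q : ℕ) : StarSubalgebra ℂ (Mat p q) where
  carrier := {X | ∃ y : Matrix (Fin q) (Fin q) ℂ, X = (1 : Matrix (Fin p) (Fin p) ℂ) ⊗ₖ y}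
  mul_mem' := by
    rintro _ _ ⟨x, rfl⟩ ⟨y, rfl⟩
    exact ⟨x * y, by rw [← Matrix.mul_kronecker_mul, mul_one]⟩
  add_mem' := by
    rintro _ _ ⟨x, rfl⟩ ⟨y, rfl⟩
    exact ⟨x + y, by rw [Matrix.kronecker_add]⟩
  algebraMap_mem' c := ⟨c • 1, by
    rw [Matrix.kronecker_smul, Matrix.one_kronecker_one, Algebra.algebraMap_eq_smul_one]⟩
  star_mem' := by
    rintro _ ⟨x, rfl⟩
    exact ⟨xᴴ, by rw [Matrix.star_eq_conjTranspose, Matrix.conjTranspose_kronecker,
      Matrix.conjTranspose_one]⟩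

theorem closed_sub {ι : Type} [Fintype ι] [DecidableEq ι] (S : StarSubalgebra ℂ (MC ι ℂ)) :
    IsClosed (S : Set (MC ι ℂ)) := by
  have : FiniteDimensional ℂ (MC ι ℂ) :=
    (toMC (ι := ι) (B := ℂ)).toAlgEquiv.toLinearEquiv.finiteDimensional
  exact S.toSubalgebra.toSubmodule.closed_of_finiteDimensional

/-- permutation matrix -/
def pm {α β : Type} [DecidableEq β] (σ : α ≃ β) : Matrix α β ℂ :=
  (1 : Matrix β β ℂ).submatrix σ id

section pm

variable {α β : Type} [Fintype α] [Fintype β] [DecidableEq α] [DecidableEq β] (σ : α ≃ β)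

theorem pm_conj (A : Matrix α α ℂ) : (pm σ)ᴴ * A * pm σ = A.submatrix σ.symm σ.symm := by
  ext i j
  have h1 : ∀ k, (σ k = j) = (k = σ.symm j) := fun k => propext σ.eq_symm_apply.symm
  have h2 : ∀ k, (i = σ k) = (σ.symm i = k) := fun k => propext σ.symm_apply_eq.symm
  simp [pm, Matrix.mul_apply, Matrix.one_apply, h1, h2]

theorem pm_left : (pm σ)ᴴ * pm σ = 1 := by
  have := pm_conj σ 1
  rwa [Matrix.mul_one, Matrix.submatrix_one_equiv] at this

omit [Fintype α] in
theorem pm_right : pm σ * (pm σ)ᴴ = 1 := by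
  ext i j
  simp [pm, Matrix.mul_apply, Matrix.one_apply, eq_comm]

end pm

theorem sub_kron {α β γ β' γ' : Type} (A : Matrix α α ℂ) (e : α ≃ β × γ) (c1 : β ≃ β')
    (c2 : γ ≃ γ') (X : Matrix β β ℂ) (Y : Matrix γ γ ℂ)
    (h : ∀ a b, A a b = X (e a).1 (e b).1 * Y (e a).2 (e b).2) :
    A.submatrix (e.trans (c1.prodCongr c2)).symm (e.trans (c1.prodCongr c2)).symm =
      X.submatrix c1.symm c1.symm ⊗ₖ Y.submatrix c2.symm c2.symm := by
  ext ⟨i, i'⟩ ⟨j, j'⟩
  simp [h]

/-- the rearrangement at the left endpoint -/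
def e0 (P Q K : Type) : (P × Q) × (Option Q × K) ≃ (P ⊕ P × Q) × (Q × K) where
  toFun
    | ((x, y), (none, κ)) => (Sum.inl x, (y, κ))
    | ((x, y), (some y', κ)) => (Sum.inr (x, y), (y', κ))
  invFun
    | (Sum.inl x, (y, κ)) => ((x, y), (none, κ))
    | (Sum.inr (x, y), (y', κ)) => ((x, y), (some y', κ))
  left_inv := by rintro ⟨⟨x, y⟩, ⟨_ | y', κ⟩⟩ <;> rfl
  right_inv := by rintro ⟨x | ⟨x, y⟩, ⟨y', κ⟩⟩ <;> rfl

/-- the rearrangement at the right endpoint -/
def e1 (P Q K : Type) : (P × Q) × (K × Option (P × K)) ≃ (P × K) × (Q ⊕ (P × Q) × K) where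
  toFun
    | ((x, y), (κ, none)) => ((x, κ), Sum.inl y)
    | ((x, y), (κ, some z)) => (z, Sum.inr ((x, y), κ))
  invFun
    | ((x, κ), Sum.inl y) => ((x, y), (κ, none))
    | (z, Sum.inr ((x, y), κ)) => ((x, y), (κ, some z))
  left_inv := by rintro ⟨⟨x, y⟩, ⟨κ, _ | z⟩⟩ <;> rfl
  right_inv := by rintro ⟨⟨x, κ⟩, y | ⟨⟨x', y⟩, κ'⟩⟩ <;> rfl

theorem blk0 {P Q K : Type} [DecidableEq P] [DecidableEq Q] [DecidableEq K]
    (x : Matrix P P ℂ) (F : Matrix (P × Q) (P × Q) ℂ)
    (M : Option Q × K → Matrix (P × Q) (P × Q) ℂ)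
    (hM : ∀ i, M i = if i.1 = none then x ⊗ₖ (1 : Matrix Q Q ℂ) else F) (a b) :
    Matrix.blockDiagonal M a b = Matrix.fromBlocks x 0 0 F (e0 P Q K a).1 (e0 P Q K b).1 *
      (1 : Matrix (Q × K) (Q × K) ℂ) (e0 P Q K a).2 (e0 P Q K b).2 := by
  obtain ⟨⟨a1, a2⟩, ⟨_ | a3, a4⟩⟩ := a <;> obtain ⟨⟨b1, b2⟩, ⟨_ | b3, b4⟩⟩ := b <;>
    simp [Matrix.blockDiagonal_apply, hM, e0, Matrix.one_apply, ite_and]
  split_ifs <;> rfl

theorem blk1 {P Q K : Type} [DecidableEq P] [DecidableEq Q] [DecidableEq K]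
    (y : Matrix Q Q ℂ) (F : Matrix (P × Q) (P × Q) ℂ)
    (M : K × Option (P × K) → Matrix (P × Q) (P × Q) ℂ)
    (hM : ∀ i, M i = if i.2 = none then (1 : Matrix P P ℂ) ⊗ₖ y else F) (a b) :
    Matrix.blockDiagonal M a b =
      (1 : Matrix (P × K) (P × K) ℂ) (e1 P Q K a).1 (e1 P Q K b).1 *
        Matrix.fromBlocks y 0 0 (Matrix.blockDiagonal fun _ : K => F) (e1 P Q K a).2
          (e1 P Q K b).2 := by
  obtain ⟨⟨a1, a2⟩, ⟨a3, _ | a4⟩⟩ := a <;> obtain ⟨⟨b1, b2⟩, ⟨b3, _ | b4⟩⟩ := b <;>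
    simp [Matrix.blockDiagonal_apply, hM, e1, Matrix.one_apply, ite_and] <;>
    split_ifs <;> simp_all

theorem blockDiagonal_reindex {α I J : Type} [DecidableEq I] [DecidableEq J] (ε : J ≃ I)
    (M : I → Matrix α α ℂ) (a b : α × J) :
    Matrix.blockDiagonal (fun j => M (ε j)) a b =
      Matrix.blockDiagonal M ((Equiv.refl α).prodCongr ε a) ((Equiv.refl α).prodCongr ε b) := by
  simp [Matrix.blockDiagonal_apply]

/-- `t / 2` -/
noncomputable def lo (t : unitInterval) : unitInterval :=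
  ⟨t / 2, by constructor <;> linarith [t.2.1, t.2.2]⟩
/-- `(t + 1) / 2` -/
noncomputable def hi (t : unitInterval) : unitInterval :=
  ⟨(t + 1) / 2, by constructor <;> linarith [t.2.1, t.2.2]⟩
/-- `1 / 2` -/
noncomputable def mid : unitInterval := ⟨1 / 2, by constructor <;> norm_num⟩

theorem lo_zero : lo 0 = 0 := Subtype.ext (by simp [lo])
theorem lo_one : lo 1 = mid := Subtype.ext (by simp [lo, mid])
theorem hi_zero : hi 0 = mid := Subtype.ext (by simp [hi, mid])
theorem hi_one : hi 1 = 1 := Subtype.ext (by simp [hi])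

theorem dist_lo (x y : unitInterval) : dist (lo x) (lo y) ≤ dist x y / 2 := by
  rw [Subtype.dist_eq, Subtype.dist_eq, Real.dist_eq, Real.dist_eq]
  show |(x : ℝ) / 2 - y / 2| ≤ _
  rw [← sub_div, abs_div, abs_two]

theorem dist_hi (x y : unitInterval) : dist (hi x) (hi y) ≤ dist x y / 2 := by
  rw [Subtype.dist_eq, Subtype.dist_eq, Real.dist_eq, Real.dist_eq]
  show |((x : ℝ) + 1) / 2 - (y + 1) / 2| ≤ _
  rw [← sub_div, abs_div, abs_two, add_sub_add_right_eq_sub]

theorem lo_or_hi (s : unitInterval) : (∃ t, lo t = s) ∨ ∃ t, hi t = s := by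
  rcases le_total (s : ℝ) (1 / 2) with h | h
  · exact Or.inl ⟨⟨2 * s, by constructor <;> linarith [s.2.1]⟩, Subtype.ext (by simp [lo])⟩
  · exact Or.inr ⟨⟨2 * s - 1, by constructor <;> linarith [s.2.2]⟩, Subtype.ext (by simp [hi])⟩

/-- conjugated block diagonal evaluation -/
noncomputable def conjBlock {B α β I : Type} [CStarAlgebra B] [Fintype α] [DecidableEq α]
    [Fintype β] [DecidableEq β] [Fintype I] [DecidableEq I] (ρ : I → (B →⋆ₐ[ℂ] Matrix α α ℂ))
    (u : Matrix (α × I) β ℂ) (h1 : uᴴ * u = 1) (h2 : u * uᴴ = 1) : B →⋆ₐ[ℂ] Matrix β β ℂ where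
  toFun b := uᴴ * Matrix.blockDiagonal (fun i => ρ i b) * u
  map_one' := by
    simp only [map_one]
    rw [show (fun _ : I => (1 : Matrix α α ℂ)) = 1 from rfl, Matrix.blockDiagonal_one,
      Matrix.mul_one, h1]
  map_mul' x y := by
    simp only [map_mul]
    rw [Matrix.blockDiagonal_mul]
    simp only [Matrix.mul_assoc]
    rw [← Matrix.mul_assoc u, h2, Matrix.one_mul]
  map_zero' := by
    simp only [map_zero]
    rw [show (fun _ : I => (0 : Matrix α α ℂ)) = 0 from rfl, Matrix.blockDiagonal_zero,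
      Matrix.mul_zero, Matrix.zero_mul]
  map_add' x y := by
    simp only [map_add]
    rw [show (fun i => ρ i x + ρ i y) = (fun i => ρ i x) + fun i => ρ i y from rfl,
      Matrix.blockDiagonal_add, Matrix.mul_add, Matrix.add_mul]
  commutes' c := by
    simp only [Algebra.algebraMap_eq_smul_one, map_smul, map_one]
    rw [show (fun _ : I => c • (1 : Matrix α α ℂ)) = c • (1 : I → Matrix α α ℂ) from rfl,
      Matrix.blockDiagonal_smul, Matrix.blockDiagonal_one, Matrix.mul_smul, Matrix.mul_one,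
      Matrix.smul_mul, h1]
  map_star' x := by
    simp only [map_star, Matrix.star_eq_conjTranspose, Matrix.conjTranspose_mul,
      Matrix.conjTranspose_conjTranspose, Matrix.blockDiagonal_conjTranspose, Matrix.mul_assoc]

theorem exists_lift {p q : ℕ} {B B' : Type} [CStarAlgebra B] [CStarAlgebra B']
    {ev' : unitInterval → (B' →⋆ₐ[ℂ] Mat p q)} (h' : IsDimDrop p q ev')
    (Ψ : unitInterval → (B →⋆ₐ[ℂ] Mat p q)) (hΨ : ∀ b, ∃ b', ∀ t, ev' t b' = Ψ t b) :
    ∃ φ : B →⋆ₐ[ℂ] B', ∀ b t, ev' t (φ b) = Ψ t b := by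
  choose φ hφ using hΨ
  have ext : ∀ x y : B', (∀ t, ev' t x = ev' t y) → x = y := fun x y h =>
    sub_eq_zero.1 (h'.1 _ fun t => by rw [map_sub, h, sub_self])
  exact ⟨{ toFun := φ
           map_one' := ext _ _ fun t => by rw [hφ, map_one, map_one]
           map_mul' := fun x y => ext _ _ fun t => by rw [hφ, map_mul, map_mul, hφ, hφ]
           map_zero' := ext _ _ fun t => by rw [hφ, map_zero, map_zero]
           map_add' := fun x y => ext _ _ fun t => by rw [hφ, map_add, map_add, hφ, hφ]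
           commutes' := fun c => ext _ _ fun t => by
             rw [hφ, AlgHomClass.commutes, AlgHomClass.commutes]
           map_star' := fun x => ext _ _ fun t => by rw [hφ, map_star, map_star, hφ] }, hφ⟩

/-- the sizes -/
def pq : ℕ → ℕ × ℕ
  | 0 => (2, 3)
  | n + 1 => ((pq n).1 * (1 + (pq n).2), (pq n).2 * (1 + (pq n).1 * (1 + (pq n).2)))

theorem pq_spec (n : ℕ) : 1 < (pq n).1 ∧ 1 < (pq n).2 ∧ (pq n).1.Coprime (pq n).2 := by
  induction n with
  | zero => exact ⟨by decide, by decide, by decide⟩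
  | succ n ih =>
    obtain ⟨h1, h2, h3⟩ := ih
    refine ⟨?_, ?_, ?_⟩
    · show 1 < (pq n).1 * (1 + (pq n).2)
      nlinarith
    · show 1 < (pq n).2 * (1 + (pq n).1 * (1 + (pq n).2))
      nlinarith [Nat.zero_le ((pq n).1 * (1 + (pq n).2))]
    · show ((pq n).1 * (1 + (pq n).2)).Coprime ((pq n).2 * (1 + (pq n).1 * (1 + (pq n).2)))
      refine Nat.Coprime.mul_right (Nat.Coprime.mul_left h3 (by simp)) ?_
      simp

end ExistAux

open ExistAux

theorem exists_dimDrop (p q : ℕ) : ∃ (B : Type) (_ : CStarAlgebra B)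
    (ev : unitInterval → (B →⋆ₐ[ℂ] Mat p q)), IsDimDrop p q ev := by
  let E0 : StarSubalgebra ℂ (MC (Fin p × Fin q) ℂ) := (subL p q).comap ofMCh
  let E1 : StarSubalgebra ℂ (MC (Fin p × Fin q) ℂ) := (subR p q).comap ofMCh
  have hc : IsClosed (DD E0 E1 : Set C(unitInterval, MC (Fin p × Fin q) ℂ)) :=
    ((closed_sub E0).preimage (continuous_eval_const (0 : unitInterval))).inter
      ((closed_sub E1).preimage (continuous_eval_const (1 : unitInterval)))
  let ev : unitInterval → (DD E0 E1 →⋆ₐ[ℂ] Mat p q) := fun t =>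
    { toFun := fun b => ofMCh (b.1 t)
      map_one' := map_one ofMCh
      map_mul' := fun x y => map_mul ofMCh (x.1 t) (y.1 t)
      map_zero' := map_zero ofMCh
      map_add' := fun x y => map_add ofMCh (x.1 t) (y.1 t)
      commutes' := fun c => AlgHomClass.commutes ofMCh c
      map_star' := fun x => map_star ofMCh (x.1 t) }
  refine ⟨DD E0 E1, inferInstance, ev, fun b hb => ?_, fun f => ⟨?_, ?_⟩⟩
  · refine Subtype.ext (ContinuousMap.ext fun t => ?_)
    exact (toMC (ι := Fin p × Fin q) (B := ℂ)).symm.injective ((hb t).trans (map_zero _).symm)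
  · rintro ⟨b, hb⟩
    have : f = fun t => ofMCh (b.1 t) := funext fun t => (hb t).symm
    subst this
    exact ⟨continuous_toMC_symm.comp b.1.continuous, b.2.1, b.2.2⟩
  · rintro ⟨h1, h2, h3⟩
    have e : ∀ t, ofMCh (toMC (f t)) = f t := fun t => by simp
    refine ⟨⟨⟨fun t => toMC (f t), continuous_toMC.comp h1⟩, ?_, ?_⟩, e⟩
    · show ofMCh (toMC (f 0)) ∈ subL p q
      rw [e]; exact h2
    · show ofMCh (toMC (f 1)) ∈ subR p q
      rw [e]; exact h3

theorem exists_stdMap {p q : ℕ} (hp : 0 < p) (hq : 0 < q) {B B' : Type} [CStarAlgebra B]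
    [CStarAlgebra B'] {ev : unitInterval → (B →⋆ₐ[ℂ] Mat p q)}
    {ev' : unitInterval → (B' →⋆ₐ[ℂ] Mat (p * (1 + q)) (q * (1 + p * (1 + q))))}
    (h : IsDimDrop p q ev) (h' : IsDimDrop _ _ ev') :
    ∃ φ : B →⋆ₐ[ℂ] B', Function.Injective φ ∧ IsStdMap ev ev' φ := by
  classical
  let K0 := Option (Fin q)
  let K1 := Option (Fin p × K0)
  let i0 : K0 × K1 := (some ⟨0, hq⟩, some (⟨0, hp⟩, none))
  let τ : K0 × K1 ≃ K0 × K1 := Equiv.swap (none, none) i0
  let ξ : K0 × K1 → unitInterval → unitInterval := fun i t =>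
    if i.1 = none then lo t else if (τ i).2 = none then hi t else mid
  have hτ : ∀ i : K0 × K1, i.1 = none → (τ i).2 ≠ none := by
    rintro ⟨_, y⟩ rfl
    by_cases hy : y = none
    · subst hy; simp [τ, i0]
    · rw [Equiv.swap_apply_of_ne_of_ne (by simpa using hy) (by simp [i0])]; exact hy
  have ξ0 : ∀ i, ξ i 0 = if i.1 = none then 0 else mid := fun i => by
    simp only [ξ, lo_zero, hi_zero, ite_self]
  have ξ1 : ∀ i, ξ i 1 = if (τ i).2 = none then 1 else mid := fun i => by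
    simp only [ξ, lo_one, hi_one]
    split_ifs with a b
    · exact absurd b (hτ i a)
    all_goals rfl
  have ξL : ∀ i x y, dist (ξ i x) (ξ i y) ≤ dist x y / 2 := fun i x y => by
    simp only [ξ]
    split_ifs
    · exact dist_lo x y
    · exact dist_hi x y
    · rw [dist_self]; positivity
  have ξc : ∀ i, Continuous (ξ i) := fun i =>
    (LipschitzWith.of_dist_le_mul (K := 1) fun x y => by
      have := ξL i x y
      have := dist_nonneg (x := x) (y := y)
      push_cast; linarith).continuous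
  let ε : Fin (Fintype.card (K0 × K1)) ≃ K0 × K1 := (Fintype.equivFin _).symm
  let c1 : Fin p ⊕ Fin p × Fin q ≃ Fin (p * (1 + q)) := Fintype.equivFinOfCardEq (by simp; ring)
  let c2 : Fin q × K1 ≃ Fin (q * (1 + p * (1 + q))) :=
    Fintype.equivFinOfCardEq (by simp [K1, K0]; ring_nf; simp)
  let d1 : Fin p × K0 ≃ Fin (p * (1 + q)) := Fintype.equivFinOfCardEq (by simp [K0]; omega)
  let d2 : Fin q ⊕ (Fin p × Fin q) × K0 ≃ Fin (q * (1 + p * (1 + q))) :=
    Fintype.equivFinOfCardEq (by simp [K0]; ring)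
  let a0 := ((Equiv.refl (Fin p × Fin q)).prodCongr ε).trans (e0 (Fin p) (Fin q) K1)
  let a1 := ((Equiv.refl (Fin p × Fin q)).prodCongr (ε.trans τ)).trans (e1 (Fin p) (Fin q) K0)
  let σ0 := a0.trans (c1.prodCongr c2)
  let σ1 := a1.trans (d1.prodCongr d2)
  obtain ⟨g, gc, g0, g1, gu⟩ := exists_matrix_path ((pm σ0)ᴴ * pm σ1) (by
    constructor
    · rw [Matrix.star_eq_conjTranspose, Matrix.conjTranspose_mul,
        Matrix.conjTranspose_conjTranspose, Matrix.mul_assoc, ← Matrix.mul_assoc (pm σ0),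
        pm_right, Matrix.one_mul, pm_left]
    · rw [Matrix.star_eq_conjTranspose, Matrix.conjTranspose_mul,
        Matrix.conjTranspose_conjTranspose, Matrix.mul_assoc, ← Matrix.mul_assoc (pm σ1),
        pm_right, Matrix.one_mul, pm_left])
  let u := fun t => pm σ0 * g t
  have uc : Continuous u := continuous_const.matrix_mul gc
  have u1 : ∀ t, (u t)ᴴ * u t = 1 := fun t => by
    simp only [u]
    rw [Matrix.conjTranspose_mul, Matrix.mul_assoc, ← Matrix.mul_assoc (pm σ0)ᴴ, pm_left,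
      Matrix.one_mul]
    exact (gu t).1
  have u2 : ∀ t, u t * (u t)ᴴ = 1 := fun t => by
    simp only [u]
    have : g t * (g t)ᴴ = 1 := (gu t).2
    rw [Matrix.conjTranspose_mul, Matrix.mul_assoc, ← Matrix.mul_assoc (g t), this,
      Matrix.one_mul, pm_right]
  have ua : u 0 = pm σ0 := by simp only [u]; rw [g0, Matrix.mul_one]
  have ub : u 1 = pm σ1 := by
    simp only [u]; rw [g1, ← Matrix.mul_assoc, pm_right, Matrix.one_mul]
  obtain ⟨φ, hφ⟩ := exists_lift h'
    (fun t => conjBlock (fun i => ev (ξ (ε i) t)) (u t) (u1 t) (u2 t)) fun b => by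
      obtain ⟨fc, ⟨x, hx⟩, ⟨y, hy⟩⟩ := (h.2 fun t => ev t b).1 ⟨b, fun _ => rfl⟩
      refine (h'.2 fun t => (u t)ᴴ * Matrix.blockDiagonal (fun i => ev (ξ (ε i) t) b) * u t).2
        ⟨(uc.matrix_conjTranspose.matrix_mul
          (continuous_pi fun i => fc.comp (ξc (ε i))).matrix_blockDiagonal).matrix_mul uc, ?_, ?_⟩
      · refine ⟨(Matrix.fromBlocks x 0 0 (ev mid b)).submatrix c1.symm c1.symm, ?_⟩
        rw [ua, pm_conj, ← Matrix.submatrix_one_equiv c2.symm]
        refine sub_kron _ a0 c1 c2 _ _ fun i j => ?_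
        rw [blockDiagonal_reindex ε (fun i => ev (ξ i 0) b)]
        refine blk0 x (ev mid b) _ (fun i => ?_) _ _
        rw [ξ0]
        split_ifs
        · exact hx
        · rfl
      · refine ⟨(Matrix.fromBlocks y 0 0 (Matrix.blockDiagonal fun _ : K0 => ev mid b)).submatrix
          d2.symm d2.symm, ?_⟩
        rw [ub, pm_conj, ← Matrix.submatrix_one_equiv d1.symm]
        refine sub_kron _ a1 d1 d2 _ _ fun i j => ?_
        have e : (fun i => ev (ξ (ε i) 1) b) =
            fun i => (fun k => ev (ξ (τ.symm k) 1) b) ((ε.trans τ) i) := by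
          funext i; simp
        rw [e, blockDiagonal_reindex (ε.trans τ) (fun k => ev (ξ (τ.symm k) 1) b)]
        refine blk1 y (ev mid b) _ (fun i => ?_) _ _
        rw [ξ1, Equiv.apply_symm_apply]
        split_ifs
        · exact hy
        · rfl
  refine ⟨φ, ?_, _, fun i => ξ (ε i), u, fun i => ξL _, uc, u1, u2, hφ⟩
  rw [injective_iff_map_eq_zero]
  intro b hb
  have z : ∀ i t, ev (ξ i t) b = 0 := fun i t => by
    have h1 : (u t)ᴴ * Matrix.blockDiagonal (fun i => ev (ξ (ε i) t) b) * u t = 0 := by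
      have := hφ b t
      rw [hb, map_zero] at this
      exact this.symm
    have h2 : Matrix.blockDiagonal (fun i => ev (ξ (ε i) t) b) = 0 := by
      have := congrArg (fun X => u t * X * (u t)ᴴ) h1
      simp only [Matrix.mul_assoc, u2, Matrix.mul_one, Matrix.mul_zero, Matrix.zero_mul] at this
      rwa [← Matrix.mul_assoc, u2, Matrix.one_mul] at this
    ext r s
    have := congrFun (congrFun h2 (r, ε.symm i)) (s, ε.symm i)
    simpa using this
  refine h.1 b fun s => ?_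
  rcases lo_or_hi s with ⟨t, rfl⟩ | ⟨t, rfl⟩
  · simpa [ξ] using z (none, none) t
  · simpa [ξ, i0, τ] using z i0 t

theorem exists_jiangSu : ∃ (Z : Type) (_ : CStarAlgebra Z), IsJiangSu Z := by
  choose B iB ev hev using fun n => exists_dimDrop (pq n).1 (pq n).2
  have : ∀ n, ∃ φ : B n →⋆ₐ[ℂ] B (n + 1), Function.Injective φ ∧ IsStdMap (ev n) (ev (n + 1)) φ :=
    fun n => exists_stdMap (by linarith [(pq_spec n).1]) (by linarith [(pq_spec n).2.1]) (hev n)
      (hev (n + 1))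
  choose φ hφ using this
  have nt : ∀ n, Nontrivial (B n) := fun n => by
    have : Nonempty (Fin (pq n).1 × Fin (pq n).2) :=
      ⟨(⟨0, by linarith [(pq_spec n).1]⟩, ⟨0, by linarith [(pq_spec n).2.1]⟩)⟩
    exact (ev n 0).toAlgHom.toRingHom.domain_nontrivial
  obtain ⟨Z, iZ, ι, h1, h2, h3⟩ := exists_limit2 B φ fun n => (hφ n).1
  exact ⟨Z, iZ, fun n => (pq n).1, fun n => (pq n).2, B, iB, ev, φ, ι,
    fun n => ⟨(pq_spec n).1, (pq_spec n).2.1, (pq_spec n).2.2, Dvd.intro _ rfl, Dvd.intro _ rfl⟩,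
    hev, hφ, h1, h2, h3⟩

end Vale.Agent.P101
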