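import Vale.Agent.P101.Ultra

/-! Reindexing in the central sequence algebra. -/

open Filter Topology TopologicalSpace
open scoped BoundedContinuousFunction

namespace Vale.Agent.P101

namespace RichAux

theorem exists_ext {S C D : Type} [Ring S] [StarRing S] [Algebra ℂ S] [CStarAlgebra C]
    [CStarAlgebra D] (θ : S →⋆ₐ[ℂ] C) (ρ : S →⋆ₐ[ℂ] D) (hρ : DenseRange ρ)
    (h : ∀ s, ‖θ s‖ ≤ ‖ρ s‖) : ∃ ψ : D →⋆ₐ[ℂ] C, ∀ s, ψ (ρ s) = θ s := by
  let f := θ.toAlgHom.toLinearMap.extendOfNorm ρ.toAlgHom.toLinearMap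
  have hf : ∀ s, f (ρ s) = θ s := fun s =>
    LinearMap.extendOfNorm_eq (e := ρ.toAlgHom.toLinearMap) hρ
      ⟨1, fun s => (h s).trans_eq (one_mul _).symm⟩ s
  refine ⟨{ AlgHom.ofLinearMap f.toLinearMap ?_ fun x y => ?_ with map_star' := fun x => ?_ }, hf⟩
  · change f 1 = 1
    rw [← map_one ρ, hf, map_one]
  · change f (x * y) = f x * f y
    refine hρ.induction_on₂ (p := fun x y => f (x * y) = f x * f y)
      (isClosed_eq (by fun_prop) (by fun_prop)) (fun a b => ?_) x y
    rw [← map_mul, hf, hf, hf, map_mul]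
  · change f (star x) = star (f x)
    refine hρ.induction_on (p := fun x => f (star x) = star (f x)) x
      (isClosed_eq (by fun_prop) (by fun_prop)) fun a => ?_
    rw [← map_star, hf, hf, map_star]

theorem cont {B C : Type} [CStarAlgebra B] [CStarAlgebra C] (φ : B →⋆ₐ[ℂ] C) : Continuous φ :=
  AddMonoidHomClass.continuous_of_bound φ 1 fun x => by
    rw [one_mul]
    exact NonUnitalStarAlgHom.norm_apply_le φ x

theorem countable_closure {M : Type} [Monoid M] {s : Set M} (hs : s.Countable) :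
    (Submonoid.closure s : Set M).Countable := by
  have := hs.to_subtype
  refine (Set.countable_range fun l : List s => (l.map Subtype.val).prod).mono fun x hx => ?_
  obtain ⟨l, h1, rfl⟩ := Submonoid.exists_list_of_mem_closure hx
  refine ⟨l.attach.map fun y => ⟨y.1, h1 y.1 y.2⟩, ?_⟩
  simp [Function.comp_def]

theorem isSeparable_adjoin {R : Type} [CStarAlgebra R] {s : Set R} (hs : s.Countable) :
    IsSeparable (StarAlgebra.adjoin ℂ s : Set R) := by
  have h : (s ∪ star s).Countable := hs.union (by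
    rw [← Set.image_star]
    exact hs.image _)
  have := (countable_closure h).isSeparable.span (R := ℂ)
  rw [← StarAlgebra.adjoin_eq_span] at this
  exact this

variable {A U : Type} [CStarAlgebra A] [CStarAlgebra U] {ω : Ultrafilter ℕ}
  {π : (ℕ →ᵇ A) →⋆ₐ[ℂ] U}

/-- precomposition with a map of the indices -/
noncomputable def reidx (κ : ℕ → ℕ) : (ℕ →ᵇ A) →⋆ₐ[ℂ] (ℕ →ᵇ A) where
  toFun x := BoundedContinuousFunction.ofNormedAddCommGroupDiscrete (fun n => x (κ n)) ‖x‖
    fun n => x.norm_coe_le_norm (κ n)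
  map_one' := by ext n; rfl
  map_mul' x y := by ext n; rfl
  map_zero' := by ext n; rfl
  map_add' x y := by ext n; rfl
  commutes' c := by
    ext n
    show (algebraMap ℂ (ℕ →ᵇ A) c) (κ n) = (algebraMap ℂ (ℕ →ᵇ A) c) n
    simp
  map_star' x := by ext n; rfl

theorem exists_reidx (h : IsUltrapower ω π) (hω : (ω : Filter ℕ) ≤ cofinite)
    (x : ℕ → ℕ →ᵇ A) (hx : ∀ j, π (x j) ∈ centralSeq π) (y : ℕ → ℕ →ᵇ A) :
    ∃ κ : ℕ → ℕ, ∀ j, ‖π (reidx κ (x j))‖ ≤ ‖π (x j)‖ ∧
      ∀ i, π (y i) * π (reidx κ (x j)) = π (reidx κ (x j)) * π (y i) := by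
  have hc : ∀ j (b : A), Tendsto (fun k => ‖b * x j k - x j k * b‖) (ω : Filter ℕ) (𝓝 0) :=
    fun j b => (h.2 (BoundedContinuousFunction.const ℕ b * x j -
      x j * BoundedContinuousFunction.const ℕ b)).1 (by
        rw [map_sub, map_mul, map_mul, sub_eq_zero]
        exact ((StarSubalgebra.mem_centralizer_iff ℂ).1 (hx j) _ ⟨b, rfl⟩).1)
  have he : ∀ n : ℕ, ∃ k, ∀ j ∈ Set.Iic n, ‖x j k‖ ≤ ‖π (x j)‖ + 1 / ((n : ℝ) + 1) ∧
      ∀ i ∈ Set.Iic n, ‖y i n * x j k - x j k * y i n‖ ≤ 1 / ((n : ℝ) + 1) := fun n => by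
    have hp : (0 : ℝ) < 1 / ((n : ℝ) + 1) := by positivity
    refine Eventually.exists (f := (ω : Filter ℕ)) ?_
    refine (eventually_all_finite (Set.finite_Iic n)).2 fun j _ => Eventually.and ?_
      ((eventually_all_finite (Set.finite_Iic n)).2 fun i _ => ?_)
    · exact (h.tendsto_norm (x j)).eventually (Iic_mem_nhds (lt_add_of_pos_right _ hp))
    · exact (hc j _).eventually (Iic_mem_nhds hp)
  choose κ hκ using he
  have hω' : (ω : Filter ℕ) ≤ atTop := by rwa [← Nat.cofinite_eq_atTop]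
  have h0 : Tendsto (fun n : ℕ => 1 / ((n : ℝ) + 1)) (ω : Filter ℕ) (𝓝 0) :=
    tendsto_one_div_add_atTop_nhds_zero_nat.mono_left hω'
  refine ⟨κ, fun j => ⟨?_, fun i => ?_⟩⟩
  · have h1 := h0.const_add ‖π (x j)‖
    rw [add_zero] at h1
    refine le_of_tendsto_of_tendsto (h.tendsto_norm _) h1 ?_
    filter_upwards [hω' (eventually_ge_atTop j)] with n hn using (hκ n j hn).1
  · rw [← sub_eq_zero, ← map_mul, ← map_mul, ← map_sub]
    refine (h.2 _).2 (squeeze_zero' (Eventually.of_forall fun _ => norm_nonneg _) ?_ h0)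
    filter_upwards [hω' (eventually_ge_atTop j), hω' (eventually_ge_atTop i)] with n hn hn'
      using (hκ n j hn).2 i hn'

end RichAux

open RichAux

variable {A U : Type} [CStarAlgebra A] [CStarAlgebra U] {ω : Ultrafilter ℕ}
  {π : (ℕ →ᵇ A) →⋆ₐ[ℂ] U}

theorem IsUltrapower.rich2 [TopologicalSpace.SeparableSpace A] (h : IsUltrapower ω π)
    (hω : (ω : Filter ℕ) ≤ cofinite) : Rich (centralSeq π) := by
  intro D _ _ ψ T hT
  choose L hL using h.1
  let S := StarAlgebra.adjoin ℂ (Set.range fun i => (L (ψ (denseSeq D i)), denseSeq D i))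
  have hS : ∀ s ∈ S, π s.1 = ψ s.2 := fun s hs =>
    StarAlgebra.adjoin_le (S := StarAlgHom.equalizer (π.comp (StarAlgHom.fst ℂ _ D))
      (((centralSeq π).subtype.comp ψ).comp (StarAlgHom.snd ℂ _ D))) (by
        rintro _ ⟨i, rfl⟩
        exact hL _) hs
  haveI : SeparableSpace S := (isSeparable_adjoin (Set.countable_range _)).separableSpace
  obtain ⟨c, hc1, hc2⟩ : IsSeparable (Subtype.val '' T ∪
      Set.range fun a : A => π (BoundedContinuousFunction.const ℕ a)) :=
    (hT.image continuous_subtype_val).union (isSeparable_range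
      ((cont π).comp (LipschitzWith.of_dist_le' (K := 1) fun a b => by
        rw [one_mul]
        exact (BoundedContinuousFunction.dist_le dist_nonneg).2 fun _ => le_rfl).continuous))
  obtain ⟨y, hy⟩ := (hc1.insert 0).exists_eq_range (Set.insert_nonempty _ _)
  obtain ⟨κ, hκ⟩ := exists_reidx h hω (fun j => (denseSeq S j).1.1)
    (fun j => by rw [hS _ (denseSeq S j).2]; exact (ψ _).2) fun i => L (y i)
  let θ : S →⋆ₐ[ℂ] U := π.comp ((reidx κ).comp ((StarAlgHom.fst ℂ _ D).comp S.subtype))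
  let ρ : S →⋆ₐ[ℂ] D := (StarAlgHom.snd ℂ _ D).comp S.subtype
  have hθ : Continuous θ := (cont π).comp ((cont (reidx κ)).comp
    (continuous_fst.comp continuous_subtype_val))
  have hρc : Continuous ρ := continuous_snd.comp continuous_subtype_val
  have hρ : DenseRange ρ := (denseRange_denseSeq D).mono (by
    rintro _ ⟨i, rfl⟩
    exact ⟨⟨_, StarAlgebra.subset_adjoin ℂ _ ⟨i, rfl⟩⟩, rfl⟩)
  obtain ⟨φ, hφ⟩ := exists_ext θ ρ hρ fun s => by
    refine (denseRange_denseSeq S).induction_on (p := fun s => ‖θ s‖ ≤ ‖ρ s‖) s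
      (isClosed_le hθ.norm hρc.norm) fun j => (hκ j).1.trans ?_
    rw [hS _ (denseSeq S j).2]
    exact NonUnitalStarAlgHom.norm_apply_le ψ _
  have hφc := cont φ
  have key : ∀ u ∈ closure c, ∀ d, u * φ d = φ d * u := fun u hu d => by
    refine hρ.induction_on (p := fun d => u * φ d = φ d * u) d
      (isClosed_eq (by fun_prop) (by fun_prop)) fun s => ?_
    rw [hφ]
    refine (denseRange_denseSeq S).induction_on (p := fun s => u * θ s = θ s * u) s
      (isClosed_eq (by fun_prop) (by fun_prop)) fun j => ?_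
    refine (isClosed_eq (f := fun u => u * θ (denseSeq S j)) (g := fun u => θ (denseSeq S j) * u)
      (by fun_prop) (by fun_prop)).closure_subset_iff.2 (fun v hv => ?_) hu
    obtain ⟨i, rfl⟩ : v ∈ Set.range y := hy ▸ Set.mem_insert_of_mem _ hv
    have := (hκ j).2 i
    rwa [hL] at this
  refine ⟨φ.codRestrict (centralSeq π) fun d => (StarSubalgebra.mem_centralizer_iff ℂ).2 ?_,
    fun d t ht => Subtype.ext (key _ (hc2 (Or.inl ⟨t, ht, rfl⟩)) d).symm⟩
  rintro _ ⟨a, rfl⟩
  exact ⟨key _ (hc2 (Or.inr ⟨a, rfl⟩)) d,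
    key _ (hc2 (Or.inr ⟨star a, map_star π (BoundedContinuousFunction.const ℕ a)⟩)) d⟩

theorem IsUltrapower.rich [TopologicalSpace.SeparableSpace A] (h : IsUltrapower ω π)
    (hω : (ω : Filter ℕ) ≤ cofinite) : Rich (centralSeq π) := h.rich2 hω

end Vale.Agent.P101
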