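import Vale.Agent.P101.Main
import Vale.Agent.P101.Core
import Vale.Agent.P101.Rich
import Vale.Agent.P101.Exist

/-! The answer to the character question. -/

open Filter
open scoped TensorProduct BoundedContinuousFunction

namespace Vale.Agent.P101

theorem stable_of_noCharacters {Z : Type} [CStarAlgebra Z] (hZ : IsJiangSu Z) {A : Type}
    [CStarAlgebra A] [TopologicalSpace.SeparableSpace A] {ω : Ultrafilter ℕ}
    (hω : (ω : Filter ℕ) ≤ cofinite) {U : Type} [CStarAlgebra U] {π : (ℕ →ᵇ A) →⋆ₐ[ℂ] U}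
    (h : IsUltrapower ω π) (hF : NoCharacters (centralSeq π)) {D : Type} [CStarAlgebra D]
    (κ : A ⊗[ℂ] Z →⋆ₐ[ℂ] D) (hκ : Function.Injective κ) (hd : DenseRange κ) :
    Nonempty (A ≃⋆ₐ[ℂ] D) :=
  absorb hZ h (h.rich2 hω) (exists_pair (h.rich2 hω) hF) κ hκ hd

end Vale.Agent.P101
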