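import Vale.Agent.P101.Basic

/-! Rotating one system of order zero matrix units into a commuting one.

Plan. Put `S i j = ∑ l, E i l * G l j`, `S' i j = ∑ k, E k j * G i k`. Multiplication table
(each entry is a short computation with `Units.mul`, `hc` and `Finset.sum_ite_eq`; d = `if j = k`):
E_ij E_kl = d a E_il, G_ij G_kl = d b G_il, G_ij E_kl = E_kl G_ij,
E_ij S_kl = d a S_il, S'_ij E_kl = d a S'_il, G_ij S'_kl = d b S'_il, S_ij G_kl = d b S_il,
E_ij S'_kl = a E_il G_kj = S_ij E_kl, G_ij S_kl = b E_kj G_il = S'_ij G_kl,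
S_ij S_kl = a b E_ij G_kl, S'_ij S'_kl = a b E_kl G_ij, S'_ij S_kl = d a a b G_il,
S_ij S'_kl = d a b b E_il; star (S i j) = S' j i; ∑ S i i = ∑ S' i i.
To expand the product, first prove an abstract version over a commutative ring `R` with
`[Algebra R C]`, scalars `a b p q j : R`, `j * j = -1` (tactic `module` after rewriting with the
table), then apply it to `C' = Subring.centralizer {a, b, p, q}` (or the star subalgebra
centralizer), `R = Subring.center C'` (Mathlib has `Algebra (Subring.center C') C'`). -/

namespace Vale.Agent.P101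

variable {C : Type} [CStarAlgebra C] {N : Type} [Fintype N] [DecidableEq N]

theorem Units.flip {a b p q : C} {E G : N → N → C} (hE : Units a E) (hG : Units b G)
    (hc : ∀ i j k l, Commute (E i j) (G k l)) (hp : IsSelfAdjoint p) (hq : IsSelfAdjoint q)
    (hpq : Commute p q) (hpE : ∀ i j, Commute p (E i j)) (hpG : ∀ i j, Commute p (G i j))
    (hqE : ∀ i j, Commute q (E i j)) (hqG : ∀ i j, Commute q (G i j)) :
    Units (a * a * (p * p) + b * b * (q * q)) (fun i j => a * (p * p) * E i j + b * (q * q) * G i j
      + Complex.I • (p * q * (∑ k, E k j * G i k - ∑ l, E i l * G l j))) := by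
  obtain ⟨S, hS⟩ : ∃ S : N → N → C, ∀ i j, ∑ l, E i l * G l j = S i j := ⟨_, fun _ _ => rfl⟩
  obtain ⟨T, hT⟩ : ∃ T : N → N → C, ∀ i j, ∑ k, E k j * G i k = T i j := ⟨_, fun _ _ => rfl⟩
  simp only [hS, hT]
  have haE : ∀ i j, Commute a (E i j) := hE.comm
  have hbG : ∀ i j, Commute b (G i j) := hG.comm
  have haG : ∀ i j, Commute a (G i j) := fun i j =>
    (hE.commute_of fun k l => (hc k l i j).symm).symm
  have hbE : ∀ i j, Commute b (E i j) := fun i j => (hG.commute_of fun k l => hc i j k l).symm
  have hab : Commute a b := hG.commute_of haG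
  have hpa : Commute p a := hE.commute_of hpE
  have hpb : Commute p b := hG.commute_of hpG
  have hqa : Commute q a := hE.commute_of hqE
  have hqb : Commute q b := hG.commute_of hqG
  have cS : ∀ x : C, (∀ i j, Commute x (E i j)) → (∀ i j, Commute x (G i j)) →
      ∀ i j, Commute x (S i j) := fun x h1 h2 i j => by
    rw [← hS]; exact Commute.sum_right _ _ _ fun l _ => (h1 _ _).mul_right (h2 _ _)
  have cT : ∀ x : C, (∀ i j, Commute x (E i j)) → (∀ i j, Commute x (G i j)) →
      ∀ i j, Commute x (T i j) := fun x h1 h2 i j => by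
    rw [← hT]; exact Commute.sum_right _ _ _ fun l _ => (h1 _ _).mul_right (h2 _ _)
  have r0 : ∀ {x : C} {X : N → N → C}, (∀ i j, Commute x (X i j)) →
      ∀ i j, X i j * x = x * X i j := fun h i j => (h i j).symm.eq
  have r1 : ∀ {x : C} {X : N → N → C}, (∀ i j, Commute x (X i j)) →
      ∀ i j y, X i j * (x * y) = x * (X i j * y) := fun h i j y => (h i j).symm.left_comm y
  have GE0 : ∀ i j k l, G i j * E k l = E k l * G i j := fun i j k l => (hc k l i j).symm.eq
  have GE1 : ∀ i j k l y, G i j * (E k l * y) = E k l * (G i j * y) := fun i j k l y =>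
    (hc k l i j).symm.left_comm y
  have EE1 : ∀ i j k l y, E i j * (E k l * y) = if j = k then a * (E i l * y) else 0 := by
    intro i j k l y
    rw [← mul_assoc, hE.mul]
    split_ifs
    · rw [mul_assoc]
    · rw [zero_mul]
  have ES : ∀ i j k l, E i j * S k l = if j = k then a * S i l else 0 := by
    intro i j k l
    simp only [← hS, Finset.mul_sum, EE1]
    split_ifs <;> simp
  have TE : ∀ i j k l, T i j * E k l = if j = k then a * T i l else 0 := by
    intro i j k l
    simp only [← hT, Finset.mul_sum, Finset.sum_mul, mul_assoc, GE0, EE1]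
    split_ifs <;> simp
  have GT : ∀ i j k l, G i j * T k l = if j = k then b * T i l else 0 := by
    intro i j k l
    simp only [← hT, Finset.mul_sum, GE1, hG.mul]
    split_ifs <;> simp [r1 hbE]
  have SG : ∀ i j k l, S i j * G k l = if j = k then b * S i l else 0 := by
    intro i j k l
    simp only [← hS, Finset.mul_sum, Finset.sum_mul, mul_assoc, hG.mul]
    split_ifs <;> simp [r1 hbE]
  have ET : ∀ i j k l, E i j * T k l = a * (E i l * G k j) := by
    intro i j k l
    simp [← hT, Finset.mul_sum, EE1]
  have SE : ∀ i j k l, S i j * E k l = a * (E i l * G k j) := by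
    intro i j k l
    simp [← hS, Finset.sum_mul, mul_assoc, GE0, EE1]
  have GS : ∀ i j k l, G i j * S k l = b * (E k j * G i l) := by
    intro i j k l
    simp [← hS, Finset.mul_sum, GE1, hG.mul, r1 hbE]
  have TG : ∀ i j k l, T i j * G k l = b * (E k j * G i l) := by
    intro i j k l
    simp [← hT, Finset.sum_mul, mul_assoc, hG.mul, r1 hbE]
  have SS : ∀ i j k l, S i j * S k l = a * (b * (E i j * G k l)) := by
    intro i j k l
    rw [← hS i j]
    simp [Finset.sum_mul, mul_assoc, GS, r1 hbE, EE1, hab.left_comm]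
  have TT : ∀ i j k l, T i j * T k l = a * (b * (E k l * G i j)) := by
    intro i j k l
    rw [← hT i j]
    simp [Finset.sum_mul, mul_assoc, GT, r1 hbE, ET, hab.left_comm]
  have TS : ∀ i j k l, T i j * S k l = if j = k then a * (a * (b * G i l)) else 0 := by
    intro i j k l
    rw [← hT i j]
    simp only [Finset.sum_mul, mul_assoc, GS, r1 hbE, EE1]
    split_ifs
    · rw [← Finset.mul_sum, ← Finset.mul_sum, ← Finset.sum_mul, hE.sum]
      simp only [hab.symm.left_comm]
    · simp
  have ST : ∀ i j k l, S i j * T k l = if j = k then a * (b * (b * E i l)) else 0 := by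
    intro i j k l
    rw [← hS i j]
    simp only [Finset.sum_mul, mul_assoc, GT]
    split_ifs
    · simp only [r1 hbE, ET]
      rw [← Finset.mul_sum, ← Finset.mul_sum, ← Finset.mul_sum, hG.sum]
      simp only [hab.symm.left_comm, r0 hbE]
    · simp
  have stS : ∀ i j, Star.star (S i j) = T j i := by
    intro i j
    simp only [← hS, ← hT, star_sum, star_mul, hE.star, hG.star, GE0]
  have stT : ∀ i j, Star.star (T i j) = S j i := fun i j => by rw [← stS, star_star]
  have sumST : ∑ i, T i i = ∑ i, S i i := by
    simp only [← hS, ← hT]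
    exact Finset.sum_comm
  have haS := cS a haE haG
  have hbS := cS b hbE hbG
  have hpS := cS p hpE hpG
  have hqS := cS q hqE hqG
  have haT := cT a haE haG
  have hbT := cT b hbE hbG
  have hpT := cT p hpE hpG
  have hqT := cT q hqE hqG
  refine ⟨fun i j k l => ?_, fun i j => ?_, ?_⟩
  · simp only [mul_add, add_mul, mul_sub, sub_mul, mul_assoc, smul_mul_assoc, mul_smul_comm,
      smul_smul, smul_sub, smul_add, Complex.I_mul_I,
      r1 haE, r1 hbE, r1 hpE, r1 hqE, r1 haG, r1 hbG, r1 hpG, r1 hqG,
      r1 haS, r1 hbS, r1 hpS, r1 hqS, r1 haT, r1 hbT, r1 hpT, r1 hqT,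
      hE.mul, hG.mul, GE0, ES, TE, GT, SG, ET, SE, GS, TG, SS, TT, TS, ST]
    split_ifs
    · simp only [hab.symm.left_comm, hpa.left_comm, hpb.left_comm, hqa.left_comm, hqb.left_comm,
        hpq.symm.left_comm]
      module
    · simp only [hab.symm.left_comm, hpa.left_comm, hpb.left_comm, hqa.left_comm, hqb.left_comm,
        hpq.symm.left_comm, mul_zero, smul_zero]
      module
  · simp only [star_add, star_mul, star_smul, star_sub, hE.star, hG.star, stS, stT, hp.star_eq,
      hq.star_eq, hE.sa.star_eq, hG.sa.star_eq, Complex.star_def, Complex.conj_I, mul_sub,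
      mul_assoc, r1 hpE, r1 hqG, r0 haE, r0 hbG, r1 hqS, r1 hqT, r0 hpS, r0 hpT,
      hpa.left_comm, hqb.left_comm, hpq.symm.left_comm]
    module
  · simp only [Finset.sum_add_distrib, ← Finset.mul_sum, ← Finset.smul_sum,
      Finset.sum_sub_distrib, sumST, hE.sum, hG.sum, sub_self, mul_zero, smul_zero, add_zero,
      mul_assoc, hpa.eq, hqb.eq, hpa.left_comm, hqb.left_comm]

end Vale.Agent.P101
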