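import Vale.Agent.P101.Fiber

/-! The universal property of generalized dimension drop algebras. -/

open Filter Topology
open scoped unitInterval

namespace Vale.Agent.P101

/-- a star homomorphism from a multiplicative star preserving unital linear map -/
def mkHom {D E : Type*} [Ring D] [StarRing D] [Algebra ℂ D] [Ring E] [StarRing E] [Algebra ℂ E]
    (s : D →ₗ[ℂ] E) (h1 : s 1 = 1) (hm : ∀ x y, s (x * y) = s x * s y)
    (hs : ∀ x, s (star x) = star (s x)) : D →⋆ₐ[ℂ] E where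
  toFun := s
  map_one' := h1
  map_mul' := hm
  map_zero' := map_zero s
  map_add' := map_add s
  commutes' c := by
    rw [Algebra.algebraMap_eq_smul_one, map_smul, h1, Algebra.algebraMap_eq_smul_one]
  map_star' := hs

theorem continuous_hom {D E : Type*} [CStarAlgebra D] [CStarAlgebra E] (ψ : D →⋆ₐ[ℂ] E) :
    Continuous ψ :=
  AddMonoidHomClass.continuous_of_bound ψ 1 (by simpa using NonUnitalStarAlgHom.norm_apply_le ψ)

/-- evaluation of a path -/
def evAt {E : Type} [CStarAlgebra E] (t : I) : C(I, E) →⋆ₐ[ℂ] E where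
  toFun f := f t
  map_one' := rfl
  map_mul' _ _ := rfl
  map_zero' := rfl
  map_add' _ _ := rfl
  commutes' _ := rfl
  map_star' _ := rfl

/-- an order zero map with total `a` -/
structure OZ {D C : Type*} [Ring D] [StarRing D] [Algebra ℂ D] [Ring C] [StarRing C] [Algebra ℂ C]
    (a : C) (s : D →ₗ[ℂ] C) : Prop where
  mul : ∀ x y, s x * s y = a * s (x * y)
  star : ∀ x, star (s x) = s (star x)
  one : s 1 = a

variable {D0 D1 E C : Type} [CStarAlgebra D0] [CStarAlgebra D1] [CStarAlgebra E] [CStarAlgebra C]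

/-- the homomorphism induced in a fibre where the total is an invertible scalar -/
noncomputable def OZ.fib {U : Type} [CStarAlgebra U] {a : C} {s : E →ₗ[ℂ] C} (h : OZ a s)
    (π : C →⋆ₐ[ℂ] U) {r : ℝ} (hr : r ≠ 0) (ha : π a = (r : ℂ) • 1) : E →⋆ₐ[ℂ] U :=
  mkHom ((r : ℂ)⁻¹ • (π.toAlgHom.toLinearMap ∘ₗ s))
    (by
      have : (r : ℂ) ≠ 0 := by exact_mod_cast hr
      change (r : ℂ)⁻¹ • π (s 1) = 1
      rw [h.one, ha, inv_smul_smul₀ this])
    (fun x y => by
      have : (r : ℂ) ≠ 0 := by exact_mod_cast hr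
      have h1 : π (s x) * π (s y) = (r : ℂ) • π (s (x * y)) := by
        rw [← map_mul, h.mul, map_mul, ha, smul_mul_assoc, one_mul]
      change (r : ℂ)⁻¹ • π (s (x * y)) = ((r : ℂ)⁻¹ • π (s x)) * ((r : ℂ)⁻¹ • π (s y))
      rw [smul_mul_smul_comm, h1, mul_smul, inv_smul_smul₀ this])
    (fun x => by simp [← h.star, map_star])

theorem OZ.fib_apply {U : Type} [CStarAlgebra U] {a : C} {s : E →ₗ[ℂ] C} (h : OZ a s)
    (π : C →⋆ₐ[ℂ] U) {r : ℝ} (hr : r ≠ 0) (ha : π a = (r : ℂ) • 1) (x : E) :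
    h.fib π hr ha x = (r : ℂ)⁻¹ • π (s x) := rfl

theorem OZ.fib_zero {U : Type} [CStarAlgebra U] {a : C} {s : E →ₗ[ℂ] C} (h : OZ a s)
    (π : C →⋆ₐ[ℂ] U) (ha : π a = 0) (x : E) : π (s x) = 0 := by
  rw [← CStarRing.star_mul_self_eq_zero_iff, ← map_star, ← map_mul, h.star, h.mul, map_mul, ha,
    zero_mul]

theorem exists_gamma_central (j0 : D0 →⋆ₐ[ℂ] E) (j1 : D1 →⋆ₐ[ℂ] E)
    (inj0 : Function.Injective j0) (inj1 : Function.Injective j1)
    {z : C} (hz : PC z) (hc : ∀ c, Commute z c)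
    {m : E →ₗ[ℂ] C} {s0 : D0 →ₗ[ℂ] C} {s1 : D1 →ₗ[ℂ] C}
    (hm : OZ (z * (1 - z)) m) (h0 : OZ (1 - z) s0) (h1 : OZ z s1)
    (c0 : ∀ x, z * s0 x = m (j0 x)) (c1 : ∀ y, (1 - z) * s1 y = m (j1 y)) :
    ∃ Γ : DD j0.range j1.range →⋆ₐ[ℂ] C, (∀ f, ‖Γ f‖ ≤ ‖f‖) ∧
      ∀ f x y, (∀ t : I, f.1 t = ((1 - t : ℝ) : ℂ) • j0 x + ((t : ℝ) : ℂ) • j1 y) →
        Γ f = s0 x + s1 y := by
  obtain ⟨F, inst, π, hπ, hN⟩ := exists_fibers hz hc
  let S := DD j0.range j1.range
  have r0 : ∀ x, j0 x ∈ j0.range := fun x => ⟨x, rfl⟩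
  have r1 : ∀ x, j1 x ∈ j1.range := fun x => ⟨x, rfl⟩
  have hπ' : ∀ t : I, π t (1 - z) = ((1 - t : ℝ) : ℂ) • 1 := fun t => by
    rw [map_sub, map_one, hπ]; push_cast; rw [sub_smul, one_smul]
  have hπ'' : ∀ t : I, π t (z * (1 - z)) = ((t * (1 - t) : ℝ) : ℂ) • 1 := fun t => by
    rw [map_mul, hπ, hπ', smul_mul_smul_comm, one_mul]; push_cast; rfl
  let e0 := StarAlgEquiv.ofInjective j0 inj0
  let e1 := StarAlgEquiv.ofInjective j1 inj1
  let ρ0 : S →⋆ₐ[ℂ] D0 := (e0.symm : j0.range →⋆ₐ[ℂ] D0).comp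
    (((evAt 0).comp S.subtype).codRestrict j0.range fun f => f.2.1)
  let ρ1 : S →⋆ₐ[ℂ] D1 := (e1.symm : j1.range →⋆ₐ[ℂ] D1).comp
    (((evAt 1).comp S.subtype).codRestrict j1.range fun f => f.2.2)
  have hρ0 : ∀ f : S, j0 (ρ0 f) = f.1 0 := fun f =>
    congrArg Subtype.val (e0.apply_symm_apply ⟨f.1 0, f.2.1⟩)
  have hρ1 : ∀ f : S, j1 (ρ1 f) = f.1 1 := fun f =>
    congrArg Subtype.val (e1.apply_symm_apply ⟨f.1 1, f.2.2⟩)
  -- the fibrewise evaluation
  have hℓ : ∀ t : I, ∃ ℓ : S →⋆ₐ[ℂ] F t, (∀ f, ‖ℓ f‖ ≤ ‖f‖) ∧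
      (∀ (f : S) x, (∀ s : I, f.1 s = ((1 - s : ℝ) : ℂ) • j0 x) → ℓ f = π t (s0 x)) ∧
      (∀ (f : S) y, (∀ s : I, f.1 s = ((s : ℝ) : ℂ) • j1 y) → ℓ f = π t (s1 y)) ∧
      (∀ (f : S) w, (∀ s : I, f.1 s = ((s * (1 - s) : ℝ) : ℂ) • w) → ℓ f = π t (m w)) := by
    intro t
    by_cases t0 : t = 0
    · subst t0
      have ha : π 0 (1 - z) = ((1 : ℝ) : ℂ) • 1 := by simpa using hπ' 0
      refine ⟨(h0.fib (π 0) one_ne_zero ha).comp ρ0, fun f => ?_, fun f x hf => ?_,
        fun f y hf => ?_, fun f w hf => ?_⟩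
      · refine (NonUnitalStarAlgHom.norm_apply_le (h0.fib (π 0) one_ne_zero ha) (ρ0 f)).trans ?_
        rw [← NonUnitalStarAlgHom.norm_map j0 inj0, hρ0]
        exact f.1.norm_coe_le_norm 0
      · have : ρ0 f = x := inj0 (by rw [hρ0, hf]; simp)
        simp [OZ.fib_apply, this]
      · have : ρ0 f = 0 := inj0 (by rw [hρ0, hf]; simp)
        simp [this, h1.fib_zero (π 0) (by simpa using hπ 0)]
      · have : ρ0 f = 0 := inj0 (by rw [hρ0, hf]; simp)
        simp [this, hm.fib_zero (π 0) (by simpa using hπ'' 0)]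
    by_cases t1 : t = 1
    · subst t1
      have ha : π 1 z = ((1 : ℝ) : ℂ) • 1 := by simpa using hπ 1
      refine ⟨(h1.fib (π 1) one_ne_zero ha).comp ρ1, fun f => ?_, fun f x hf => ?_,
        fun f y hf => ?_, fun f w hf => ?_⟩
      · refine (NonUnitalStarAlgHom.norm_apply_le (h1.fib (π 1) one_ne_zero ha) (ρ1 f)).trans ?_
        rw [← NonUnitalStarAlgHom.norm_map j1 inj1, hρ1]
        exact f.1.norm_coe_le_norm 1
      · have : ρ1 f = 0 := inj1 (by rw [hρ1, hf]; simp)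
        simp [this, h0.fib_zero (π 1) (by simpa using hπ' 1)]
      · have : ρ1 f = y := inj1 (by rw [hρ1, hf]; simp)
        simp [OZ.fib_apply, this]
      · have : ρ1 f = 0 := inj1 (by rw [hρ1, hf]; simp)
        simp [this, hm.fib_zero (π 1) (by simpa using hπ'' 1)]
    have t0' : (t : ℝ) ≠ 0 := fun h => t0 (Subtype.ext h)
    have t1' : (1 - t : ℝ) ≠ 0 := fun h => t1 (Subtype.ext (sub_eq_zero.1 h).symm)
    have t0'' : ((t : ℝ) : ℂ) ≠ 0 := by exact_mod_cast t0'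
    have t1'' : (1 - ((t : ℝ) : ℂ)) ≠ 0 := by exact_mod_cast t1'
    refine ⟨(hm.fib (π t) (mul_ne_zero t0' t1') (hπ'' t)).comp ((evAt t).comp S.subtype),
      fun f => ?_, fun f x hf => ?_, fun f y hf => ?_, fun f w hf => ?_⟩
    · exact (NonUnitalStarAlgHom.norm_apply_le (hm.fib (π t) (mul_ne_zero t0' t1') (hπ'' t))
        (f.1 t)).trans (f.1.norm_coe_le_norm t)
    · change hm.fib _ (mul_ne_zero t0' t1') (hπ'' t) (f.1 t) = _
      rw [hf, OZ.fib_apply, map_smul, ← c0, map_smul, map_mul, hπ, smul_mul_assoc, one_mul,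
        smul_smul, smul_smul]
      push_cast
      field_simp
      rw [one_smul]
    · change hm.fib _ (mul_ne_zero t0' t1') (hπ'' t) (f.1 t) = _
      rw [hf, OZ.fib_apply, map_smul, ← c1, map_smul, map_mul, hπ', smul_mul_assoc, one_mul,
        smul_smul, smul_smul]
      push_cast
      field_simp
      rw [one_smul]
    · change hm.fib _ (mul_ne_zero t0' t1') (hπ'' t) (f.1 t) = _
      rw [hf, OZ.fib_apply, map_smul, map_smul, smul_smul]
      push_cast
      field_simp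
      rw [one_smul]
  choose ℓ hℓ0 hℓ1 hℓ2 hℓ3 using hℓ
  have hbd : ∀ (f : S) c, (∀ t, π t c = ℓ t f) → ‖c‖ ≤ ‖f‖ := fun f c h =>
    hN c _ (norm_nonneg _) fun t => by rw [h]; exact hℓ0 t f
  have huniq : ∀ c c', (∀ t, π t c = π t c') → c = c' := fun c c' h => by
    rw [← sub_eq_zero, ← norm_le_zero_iff]
    exact hN _ _ le_rfl fun t => by rw [map_sub, h, sub_self, norm_zero]
  -- existence
  let G : Subalgebra ℂ S :=
    { carrier := {f | ∃ c, ∀ t, π t c = ℓ t f}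
      mul_mem' := by
        rintro f g ⟨c, hc⟩ ⟨d, hd⟩
        exact ⟨c * d, fun t => by rw [map_mul, map_mul, hc, hd]⟩
      add_mem' := by
        rintro f g ⟨c, hc⟩ ⟨d, hd⟩
        exact ⟨c + d, fun t => by rw [map_add, map_add, hc, hd]⟩
      algebraMap_mem' := fun c => ⟨algebraMap ℂ C c, fun t => by
        rw [AlgHomClass.commutes, AlgHomClass.commutes]⟩ }
  let T : S := ⟨⟨fun s : I => ((s : ℝ) : ℂ) • (1 : E), by fun_prop⟩,
    mem_DD.2 (by simp [zero_mem, one_mem])⟩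
  have hT : T ∈ G := ⟨s1 1, fun t => (hℓ2 t T 1 fun s => by simp [T]).symm⟩
  let T' : S := ⟨⟨fun s : I => ((1 - s : ℝ) : ℂ) • (1 : E), by fun_prop⟩,
    mem_DD.2 (by simp [zero_mem, one_mem])⟩
  have hT' : T' ∈ G := ⟨s0 1, fun t => (hℓ1 t T' 1 fun s => by simp [T']).symm⟩
  have hTa : ∀ s : I, T.1 s = ((s : ℝ) : ℂ) • (1 : E) := fun s => rfl
  have hTa' : ∀ s : I, T'.1 s = ((1 - s : ℝ) : ℂ) • (1 : E) := fun s => rfl
  have hpow : ∀ (X : S) (r : I → ℂ), (∀ s, X.1 s = r s • (1 : E)) → ∀ n s,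
      (X ^ n).1 s = r s ^ n • (1 : E) := fun X r h n s => by
    change (X.1 ^ n) s = _
    rw [ContinuousMap.pow_apply, h, smul_pow, one_pow]
  have hG : ∀ f : S, f ∈ G := by
    intro f
    have hB : ∀ n : ℕ, ∃ g ∈ G, g.1 = bernsteinApproximation (n + 1) f.1 := by
      intro n
      have hk : ∀ k : Fin (n + 2), ∃ g ∈ G, ∀ s : I,
          g.1 s = bernstein (n + 1) k s • f.1 (bernstein.z k) := by
        intro k
        by_cases k0 : k = 0
        · subst k0
          let X : S := ⟨⟨fun s : I => ((1 - s : ℝ) : ℂ) • j0 (ρ0 f), by fun_prop⟩,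
            mem_DD.2 (by simp [zero_mem, r0, r1])⟩
          refine ⟨T' ^ n * X, mul_mem (pow_mem hT' n)
            ⟨_, fun t => (hℓ1 t X _ fun s => rfl).symm⟩, fun s => ?_⟩
          change (T' ^ n).1 s * (((1 - s : ℝ) : ℂ) • j0 (ρ0 f)) = _
          rw [hpow _ _ hTa', hρ0, bernstein_apply, smul_mul_smul_comm, one_mul, ← Complex.coe_smul]
          simp [pow_succ]
        by_cases k1 : k = Fin.last _
        · subst k1
          let X : S := ⟨⟨fun s : I => ((s : ℝ) : ℂ) • j1 (ρ1 f), by fun_prop⟩,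
            mem_DD.2 (by simp [zero_mem, r0, r1])⟩
          refine ⟨T ^ n * X, mul_mem (pow_mem hT n)
            ⟨_, fun t => (hℓ2 t X _ fun s => rfl).symm⟩, fun s => ?_⟩
          change (T ^ n).1 s * (((s : ℝ) : ℂ) • j1 (ρ1 f)) = _
          rw [hpow _ _ hTa, hρ1, bernstein_apply, smul_mul_smul_comm, one_mul, ← Complex.coe_smul]
          simp [pow_succ]
        obtain ⟨a, ha⟩ : ∃ a, (k : ℕ) = a + 1 :=
          Nat.exists_eq_succ_of_ne_zero fun h => k0 (Fin.ext h)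
        obtain ⟨b, hb⟩ : ∃ b, n + 1 - k = b + 1 :=
          Nat.exists_eq_succ_of_ne_zero fun h => k1 (Fin.ext (by
            have := k.2; simp only [Fin.val_last]; omega))
        let X : S := ⟨⟨fun s : I => ((s * (1 - s) : ℝ) : ℂ) • f.1 (bernstein.z k), by fun_prop⟩,
          mem_DD.2 (by simp [zero_mem, r0, r1])⟩
        refine ⟨((n + 1).choose k : ℂ) • (T ^ a * T' ^ b * X), G.smul_mem (mul_mem
          (mul_mem (pow_mem hT a) (pow_mem hT' b))
          ⟨_, fun t => (hℓ3 t X _ fun s => rfl).symm⟩) _, fun s => ?_⟩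
        change ((n + 1).choose k : ℂ) • ((T ^ a).1 s * (T' ^ b).1 s *
          (((s * (1 - s) : ℝ) : ℂ) • f.1 (bernstein.z k))) = _
        rw [hpow _ _ hTa, hpow _ _ hTa', bernstein_apply, smul_mul_smul_comm, smul_mul_smul_comm,
          one_mul, one_mul, ← Complex.coe_smul, smul_smul, hb]
        congr 1
        push_cast
        rw [ha]
        ring
      choose g hg hg' using hk
      refine ⟨∑ k, g k, sum_mem fun k _ => hg k, ?_⟩
      ext s
      rw [bernsteinApproximation.apply, AddSubmonoidClass.coe_finsetSum,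
        ContinuousMap.coe_sum, Finset.sum_apply]
      exact Finset.sum_congr rfl fun k _ => hg' k s
    choose g hg hg' using hB
    have hlim : Tendsto g atTop (𝓝 f) := by
      rw [tendsto_subtype_rng]
      simp only [hg']
      exact (bernsteinApproximation_uniform f.1).comp (tendsto_add_atTop_nat 1)
    choose c hc using hg
    have hcau : CauchySeq c := by
      have := Metric.cauchySeq_iff.1 hlim.cauchySeq
      refine Metric.cauchySeq_iff.2 fun ε hε => (this ε hε).imp fun N hN a ha b hb => ?_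
      refine lt_of_le_of_lt ?_ (hN a ha b hb)
      rw [dist_eq_norm, Subtype.dist_eq, dist_eq_norm]
      exact hbd (g a - g b) _ fun t => by
        rw [map_sub, hc, hc]; exact (map_sub (ℓ t).toLinearMap _ _).symm
    obtain ⟨c', hc'⟩ := cauchySeq_tendsto_of_complete hcau
    refine ⟨c', fun t => tendsto_nhds_unique ((continuous_hom (π t)).tendsto _ |>.comp hc') ?_⟩
    have hℓc : Continuous (ℓ t) :=
      AddMonoidHomClass.continuous_of_bound (ℓ t) 1 (by simpa using hℓ0 t)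
    exact ((hℓc.tendsto _).comp hlim).congr fun n => (hc n t).symm
  choose Γ hΓ using hG
  refine ⟨{ toFun := Γ
            map_one' := huniq _ _ fun t => by rw [hΓ, map_one, map_one]
            map_mul' := fun f g => huniq _ _ fun t => by rw [hΓ, map_mul, map_mul, hΓ, hΓ]
            map_zero' := huniq _ _ fun t => by rw [hΓ, map_zero, map_zero]
            map_add' := fun f g => huniq _ _ fun t => by rw [hΓ, map_add, map_add, hΓ, hΓ]
            commutes' := fun c => huniq _ _ fun t => by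
              rw [hΓ, AlgHomClass.commutes, AlgHomClass.commutes]
            map_star' := fun f => huniq _ _ fun t => by rw [hΓ, map_star, map_star, hΓ] },
    fun f => hbd f _ (hΓ f), fun f x y hf => huniq _ _ fun t => ?_⟩
  let X : S := ⟨⟨fun s : I => ((1 - s : ℝ) : ℂ) • j0 x, by fun_prop⟩, mem_DD.2 (by simp [zero_mem, r0, r1])⟩
  let Y : S := ⟨⟨fun s : I => ((s : ℝ) : ℂ) • j1 y, by fun_prop⟩, mem_DD.2 (by simp [zero_mem, r0, r1])⟩
  have : f = X + Y := Subtype.ext (ContinuousMap.ext hf)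
  change π t (Γ f) = _
  rw [hΓ, this, map_add, map_add, hℓ1 t X x fun _ => rfl, hℓ2 t Y y fun _ => rfl]

/-- an order zero map with values in a subalgebra -/
theorem OZ.restrict {S : StarSubalgebra ℂ C} {a : S} {s : E →ₗ[ℂ] C} (h : OZ (a : C) s)
    (hs : ∀ x, s x ∈ S) : OZ a (s.codRestrict S.toSubalgebra.toSubmodule hs : E →ₗ[ℂ] S) :=
  ⟨fun x y => Subtype.ext (h.mul x y), fun x => Subtype.ext (h.star x), Subtype.ext h.one⟩

theorem OZ.comm {a : C} {s : E →ₗ[ℂ] C} (h : OZ a s) (x : E) : Commute a (s x) := by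
  have := h.mul x 1
  rw [h.one, mul_one] at this
  exact this.symm

theorem exists_gamma (j0 : D0 →⋆ₐ[ℂ] E) (j1 : D1 →⋆ₐ[ℂ] E)
    (inj0 : Function.Injective j0) (inj1 : Function.Injective j1) {z : C} (hz : PC z)
    {m : E →ₗ[ℂ] C} {s0 : D0 →ₗ[ℂ] C} {s1 : D1 →ₗ[ℂ] C}
    (hm : OZ (z * (1 - z)) m) (h0 : OZ (1 - z) s0) (h1 : OZ z s1) (cm : ∀ x, Commute z (m x))
    (c0 : ∀ x, z * s0 x = m (j0 x)) (c1 : ∀ y, (1 - z) * s1 y = m (j1 y)) :
    ∃ Γ : DD j0.range j1.range →⋆ₐ[ℂ] C, (∀ f, ‖Γ f‖ ≤ ‖f‖) ∧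
      ∀ f x y, (∀ t : I, f.1 t = ((1 - t : ℝ) : ℂ) • j0 x + ((t : ℝ) : ℂ) • j1 y) →
        Γ f = s0 x + s1 y := by
  let S : StarSubalgebra ℂ C := StarSubalgebra.centralizer ℂ {z}
  have hS : ∀ c, c ∈ S ↔ Commute z c := fun c => by
    simp [S, StarSubalgebra.mem_centralizer_iff, hz.sa.star_eq, Commute, SemiconjBy]
  have : IsClosed (S : Set C) := Set.isClosed_centralizer _
  let z' : S := ⟨z, (hS z).2 (Commute.refl z)⟩
  have m0 : ∀ x, s0 x ∈ S := fun x => (hS _).2 (by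
    simpa using ((Commute.one_left _).sub_left (h0.comm x)))
  obtain ⟨Γ, h3, h4⟩ := exists_gamma_central j0 j1 inj0 inj1 (z := z')
    ⟨Subtype.ext hz.sa.star_eq, hz.le, hz.le'⟩ (fun c => Subtype.ext ((hS _).1 c.2).eq)
    (OZ.restrict (a := z' * (1 - z')) hm fun x => (hS _).2 (cm x))
    (OZ.restrict (a := 1 - z') h0 m0) (OZ.restrict (a := z') h1 fun x => (hS _).2 (h1.comm x))
    (fun x => Subtype.ext (c0 x)) (fun y => Subtype.ext (c1 y))
  exact ⟨S.subtype.comp Γ, h3, fun f x y hf => congrArg Subtype.val (h4 f x y hf)⟩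

end Vale.Agent.P101
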