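import Vale.Agent.P101.HalfAux

/-! Approximately inner half flip. -/

open scoped unitInterval

namespace Vale.Agent.P101

theorem exists_of_path {C C0 E : Type} [CStarAlgebra C] [CStarAlgebra C0] [CStarAlgebra E]
    {ι : C0 →⋆ₐ[ℂ] C} {κ : C0 →⋆ₐ[ℂ] E} {E0 E1 : StarSubalgebra ℂ E} {Γ : DD E0 E1 →⋆ₐ[ℂ] C}
    (h0 : ∀ c, κ c ∈ E0) (h1 : ∀ c, κ c ∈ E1) (hΓ : ∀ f, ‖Γ f‖ ≤ ‖f‖)
    (hκ : ∀ f c, (∀ t, f.1 t = κ c) → Γ f = ι c) {w : I → E} (hw : Continuous w)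
    (w0 : w 0 ∈ E0) (w1 : w 1 ∈ E1) (hu : ∀ t, w t ∈ unitary E) :
    ∃ W ∈ unitary C, ∀ x y ε, 0 ≤ ε → (∀ t, Ap ε (w t) (κ x) (κ y)) → Ap ε W (ι x) (ι y) := by
  let f : DD E0 E1 := ⟨⟨w, hw⟩, mem_DD.2 ⟨w0, w1⟩⟩
  let k : C0 → DD E0 E1 := fun c => ⟨.const I (κ c), mem_DD.2 ⟨h0 c, h1 c⟩⟩
  refine ⟨Γ f, Unitary.map_mem Γ ⟨Subtype.ext (ContinuousMap.ext fun t => (hu t).1),
    Subtype.ext (ContinuousMap.ext fun t => (hu t).2)⟩, fun x y ε hε h => ?_⟩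
  rw [Ap, ← hκ (k x) x fun _ => rfl, ← hκ (k y) y fun _ => rfl, ← map_star, ← map_mul, ← map_mul,
    ← map_sub]
  exact (hΓ _).trans ((ContinuousMap.norm_le _ hε).2 h)

theorem half_model {E B0 B1 B2 B3 : Type} [CStarAlgebra E] [CStarAlgebra B0] [CStarAlgebra B1]
    [CStarAlgebra B2] [CStarAlgebra B3] {r0 r r' s : ℕ} {μ0 : B0 →⋆ₐ[ℂ] B1} {μ1 : B1 →⋆ₐ[ℂ] B2}
    {μ2 : B2 →⋆ₐ[ℂ] B3} {F : Finset B0} {F1 : Finset B1} {F2 : Finset B2} {ε0 ε1 ε2 : ℝ}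
    {Ω : Matrix (Fin r0) (Fin r0) B1} {φ0 : B0 →⋆ₐ[ℂ] Matrix (Fin r0) (Fin r0) ℂ}
    (hΩ : Ω ∈ unitary _) (H0 : ∀ f ∈ F, ‖toMC (Ω * Matrix.diagonal (fun _ => μ0 f) * star Ω
      - (φ0 f).map (algebraMap ℂ B1))‖ ≤ ε0)
    {W : Matrix (Fin r) (Fin r) B2} {φ : B1 →⋆ₐ[ℂ] Matrix (Fin r) (Fin r) ℂ}
    (hW : W ∈ unitary _) (H1 : ∀ f ∈ F1, ‖toMC (W * Matrix.diagonal (fun _ => μ1 f) * star W
      - (φ f).map (algebraMap ℂ B2))‖ ≤ ε1)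
    {V : Matrix (Fin r') (Fin r') B2} {φ' : B1 →⋆ₐ[ℂ] Matrix (Fin r') (Fin r') ℂ}
    (hV : V ∈ unitary _) (H1' : ∀ f ∈ F1, ‖toMC (V * Matrix.diagonal (fun _ => μ1 f) * star V
      - (φ' f).map (algebraMap ℂ B2))‖ ≤ ε1)
    (H2 : HD μ2 s F2 ε2) (m0 : ∀ f ∈ F, μ0 f ∈ F1) (m1 : ∀ i j, Ω i j ∈ F1)
    (m2 : ∀ i j, W i j ∈ F2) (m3 : ∀ i j, V i j ∈ F2) (c0 : (r0 : ℝ) ^ 2 * (4 * ε1) < 2)
    (c1 : (r : ℝ) ^ 2 * ε2 < 2) (c2 : (r' : ℝ) ^ 2 * ε2 < 2)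
    {S : Set E} {α β : B3 →⋆ₐ[ℂ] E} (hα : ∀ x, α x ∈ S) (hβ : ∀ x, β x ∈ S)
    {g : Fin (r * r0 * s) → Fin (r * r0 * s) → E} {R : Fin r' → Fin r' → E} (ug : Units 1 g)
    (uR : Units 1 R) (kg : ∀ c ∈ S, ∀ i j, Commute c (g i j))
    (kR : ∀ c ∈ S, ∀ i j, Commute c (R i j)) (gR : ∀ i j k l, Commute (g i j) (R k l))
    {E0 E1 : StarSubalgebra ℂ E} (k0 : ∀ c ∈ S, c ∈ E0) (k1 : ∀ c ∈ S, c ∈ E1)
    (g0 : ∀ i j, g i j ∈ E0) (R1 : ∀ i j, R i j ∈ E1) :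
    ∃ w : I → E, Continuous w ∧ w 0 ∈ E0 ∧ w 1 ∈ E1 ∧ (∀ t, w t ∈ unitary E) ∧ ∀ f ∈ F, ∀ t,
      Ap (2 * ε1 + (2 * (r0 ^ 2 * (4 * ε1)) * ‖α (μ2 (μ1 (μ0 f)))‖ + 2 * ε0)) (w t)
        (α (μ2 (μ1 (μ0 f)))) (β (μ2 (μ1 (μ0 f)))) := by
  obtain ⟨Ω2, φ2, hΩ2, H2⟩ := H2
  obtain ⟨g', e2, ug', u2, g2, cg, mg⟩ := ug.split
  obtain ⟨e, e0, ue, u0, ee0, cg', mg'⟩ := ug'.split
  have ke := fun c hc => (cg' _ (cg _ (kg c hc)).1).1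
  have ke0 := fun c hc => (cg' _ (cg _ (kg c hc)).1).2
  have ke2 := fun c hc => (cg _ (kg c hc)).2
  have Re0 := fun i j => (cg' _ (cg _ fun k l => (gR k l i j).symm).1).2
  have Re2 := fun i j => (cg _ fun k l => (gR k l i j).symm).2
  have e2e := fun i j => cg' _ fun k l => (g2 k l i j).symm
  obtain ⟨N, _, hN⟩ : ∃ N : StarSubalgebra ℂ E, IsClosed (N : Set E) ∧
      ∀ x, x ∈ N ↔ ∀ i j, Commute x (e0 i j) :=
    ⟨_, Set.isClosed_centralizer _, fun x => mem_centralizer_units u0⟩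
  have jW : ∀ γ : B3 →⋆ₐ[ℂ] E, (∀ x, γ x ∈ S) → JC N (theta (γ.comp μ2) e W) := fun γ hγ =>
    jc_theta ue u2 (fun _ => ke _ (hγ _)) (fun _ => ke2 _ (hγ _))
      (fun i j k l => ((e2e k l).1 i j).symm)
      (fun i j => (hN _).2 (ee0 i j)) (fun i j => (hN _).2 (e2e i j).2)
      (fun _ => (hN _).2 (ke0 _ (hγ _))) hW hΩ2 φ2 (fun i j => H2 _ (m2 i j)) (by simpa using c1)
  have jV : ∀ γ : B3 →⋆ₐ[ℂ] E, (∀ x, γ x ∈ S) → JC N (theta (γ.comp μ2) R V) := fun γ hγ =>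
    jc_theta uR u2 (fun _ => kR _ (hγ _)) (fun _ => ke2 _ (hγ _)) Re2
      (fun i j => (hN _).2 (Re0 i j)) (fun i j => (hN _).2 (e2e i j).2)
      (fun _ => (hN _).2 (ke0 _ (hγ _))) hV hΩ2 φ2 (fun i j => H2 _ (m3 i j)) (by simpa using c2)
  have uW : ∀ γ : B3 →⋆ₐ[ℂ] E, (∀ x, γ x ∈ S) → theta (γ.comp μ2) e W ∈ unitary E := fun γ hγ =>
    theta_unitary (γ := γ.comp μ2) ue (fun _ => ke _ (hγ _)) hW
  have uV : ∀ γ : B3 →⋆ₐ[ℂ] E, (∀ x, γ x ∈ S) → theta (γ.comp μ2) R V ∈ unitary E := fun γ hγ =>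
    theta_unitary (γ := γ.comp μ2) uR (fun _ => kR _ (hγ _)) hV
  have aw := fun x hx => ((ap_hd (γ := β.comp μ2) ue (fun _ => ke _ (hβ _)) (H1 x hx)).star
    (uW _ hβ)).mul (Unitary.star_mem (uW _ hβ))
      (ap_hd (γ := α.comp μ2) ue (fun _ => ke _ (hα _)) (H1 x hx))
  have av := fun x hx => ((ap_hd (γ := β.comp μ2) uR (fun _ => kR _ (hβ _)) (H1' x hx)).star
    (uV _ hβ)).mul (Unitary.star_mem (uV _ hβ))
      (ap_hd (γ := α.comp μ2) uR (fun _ => kR _ (hα _)) (H1' x hx))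
  have jy := ((jW β hβ).star.mul (jW α hα)).star.mul ((jV β hβ).star.mul (jV α hα))
  have uw := mul_mem (Unitary.star_mem (uW _ hβ)) (uW _ hα)
  have w0 : star (theta (β.comp μ2) e W) * theta (α.comp μ2) e W ∈ E0 :=
    have := (mg' E0 (mg E0 g0).1).1
    mul_mem (star_mem (theta_mem (fun _ => k0 _ (hβ _)) this _))
      (theta_mem (fun _ => k0 _ (hα _)) this _)
  have v1 : star (theta (β.comp μ2) R V) * theta (α.comp μ2) R V ∈ E1 :=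
    mul_mem (star_mem (theta_mem (fun _ => k1 _ (hβ _)) R1 _))
      (theta_mem (fun _ => k1 _ (hα _)) R1 _)
  generalize star (theta (β.comp μ2) e W) * theta (α.comp μ2) e W = w at aw jy uw w0
  generalize star (theta (β.comp μ2) R V) * theta (α.comp μ2) R V = v at av jy v1
  have ny : star (star w * v) ∈ N := by
    obtain ⟨u, hu, -⟩ := jy
    exact star_mem (hu ▸ u.1.2)
  obtain ⟨Y, y1, y2, y3, y4, y5⟩ := exists_path jy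
    (theta_unitary (γ := (α.comp μ2).comp μ1) u0 (fun _ => ke0 _ (hα _)) hΩ) c0
    ((ap_theta u0 ((hN _).1 ny) fun i j => ((aw _ (m1 i j)).star uw).mul (Unitary.star_mem uw)
      (av _ (m1 i j))).mono (by rw [Fintype.card_fin]; exact le_of_eq (by ring)))
  refine ⟨fun t => w * Y t, by fun_prop, by simpa [y2] using w0, ?_, fun t => mul_mem uw (y4 t),
    fun f hf t => ((aw _ (m0 f hf)).mul uw (y5 t _ _ _
      (ap_hd (γ := (α.comp μ2).comp μ1) u0 (fun _ => ke0 _ (hα _)) (H0 f hf))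
      fun s hs => commute_lam u0 ((hN _).1 hs) _)).mono (le_of_eq ?_)⟩
  · simp only [y3]
    rwa [← mul_assoc, uw.2, one_mul]
  · simp only [StarAlgHom.comp_apply]
    ring

theorem half {Z : Type} [CStarAlgebra Z] {p q : ℕ → ℕ} {B : ℕ → Type} [∀ n, CStarAlgebra (B n)]
    {ι : ∀ n, B n →⋆ₐ[ℂ] Z} (hpos : ∀ n, 0 < p n ∧ 0 < q n) (hcop : ∀ n, (p n).Coprime (q n))
    (hp : HP p q B ι) (m : ℕ) (F : Finset (B m)) {ε : ℝ} (hε : 0 < ε) :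
    ∃ (L : ℕ) (μ : B m →⋆ₐ[ℂ] B L) (P Q : ℕ), 0 < P ∧ 0 < Q ∧ P.Coprime Q ∧
      (∀ b, ι L (μ b) = ι m b) ∧
      ∀ (C : Type) [CStarAlgebra C] (α β : B L →⋆ₐ[ℂ] C) (z : C) (a : Fin P → Fin P → C)
        (b : Fin Q → Fin Q → C), Pair z a b → (∀ x y, Commute (α x) (β y)) →
        (∀ x i j, Commute (α x) (a i j)) → (∀ x i j, Commute (α x) (b i j)) →
        (∀ x i j, Commute (β x) (a i j)) → (∀ x i j, Commute (β x) (b i j)) →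
        ∃ W ∈ unitary C, ∀ f ∈ F, ‖W * α (μ f) * star W - β (μ f)‖ ≤ ε := by
  classical
  obtain ⟨n0, μ0, i0, -, -, ⟨Ω, φ0, hΩ, H0⟩, -⟩ := hp m F (ε / 4) (by positivity)
  obtain ⟨M, hM, hM'⟩ : ∃ M : ℝ, 0 ≤ M ∧ ∀ f ∈ F, ‖f‖ ≤ M :=
    ⟨∑ f ∈ F, ‖f‖, by positivity, fun f hf =>
      Finset.single_le_sum (f := fun f => ‖f‖) (fun _ _ => norm_nonneg _) hf⟩
  obtain ⟨ε1, hε1, b1⟩ := exists_pos_mul_lt (show 0 < min 1 (ε / 2) by positivity)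
    (2 + (p n0 : ℝ) ^ 2 * 4 + 2 * ((p n0 : ℝ) ^ 2 * 4) * M)
  obtain ⟨n, μ1, i1, d1, -, ⟨W, φ, hW, H1⟩, ⟨V, φ', hV, H1'⟩⟩ := hp n0
    (F.image μ0 ∪ Finset.univ.image fun x : _ × _ => Ω x.1 x.2) ε1 hε1
  obtain ⟨ε2, hε2, b2⟩ := exists_pos_mul_lt two_pos ((p n : ℝ) ^ 2 + (q n : ℝ) ^ 2)
  obtain ⟨L, μ2, i2, d2, d3, H2, -⟩ := hp n
    ((Finset.univ.image fun x : _ × _ => W x.1 x.2) ∪
      Finset.univ.image fun x : _ × _ => V x.1 x.2) ε2 hε2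
  have hc := (hcop L).coprime_dvd_right d3
  have hP := mul_pos (mul_pos (hpos n).1 (hpos n0).1) (hpos L).1
  refine ⟨L, μ2.comp (μ1.comp μ0), p n * p n0 * p L, q n, hP, (hpos _).2,
    .mul_left (.mul_left (hc.coprime_dvd_left d2) (hc.coprime_dvd_left (d1.trans d2))) hc,
    fun b => (i2 _).trans ((i1 _).trans (i0 b)),
    fun C _ α β z a b hab h1 h2 h3 h4 h5 => ?_⟩
  have : Nonempty (Fin (p n * p n0 * p L)) := ⟨⟨0, hP⟩⟩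
  have : Nonempty (Fin (q n)) := ⟨⟨0, (hpos _).2⟩⟩
  obtain ⟨C0, _, hC0⟩ : ∃ C0 : StarSubalgebra ℂ C, IsClosed (C0 : Set C) ∧
      ∀ x, x ∈ C0 ↔ (∀ i j, Commute x (a i j)) ∧ ∀ i j, Commute x (b i j) :=
    ⟨StarSubalgebra.centralizer ℂ (Set.range fun x : _ × _ => a x.1 x.2)
      ⊓ StarSubalgebra.centralizer ℂ (Set.range fun x : _ × _ => b x.1 x.2),
      (Set.isClosed_centralizer _).inter (Set.isClosed_centralizer _), fun x => by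
      rw [StarSubalgebra.mem_inf, mem_centralizer_units hab.ua, mem_centralizer_units hab.ub]⟩
  obtain ⟨E, _, κ, g, R, E0, E1, Γ, ug, uR, kg, kR, gR, k0, k1, g0, R1, hΓ, hκ⟩ :=
    hab.model C0.subtype (fun c => ((hC0 _).1 c.2).1) (fun c => ((hC0 _).1 c.2).2)
  let α0 := α.codRestrict C0 fun x => (hC0 _).2 ⟨h2 x, h3 x⟩
  let β0 := β.codRestrict C0 fun x => (hC0 _).2 ⟨h4 x, h5 x⟩
  have b3 := b1.trans_le (min_le_left _ _)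
  have b4 := b1.trans_le (min_le_right _ _)
  have b5 : 0 ≤ (p n0 : ℝ) ^ 2 * ε1 := by positivity
  obtain ⟨w, w1, w2, w3, w4, w5⟩ := half_model hΩ H0 hW H1 hV H1' H2
    (fun f hf => Finset.mem_union_left _ (Finset.mem_image_of_mem _ hf))
    (fun i j => Finset.mem_union_right _ (Finset.mem_image_of_mem _ (Finset.mem_univ (i, j))))
    (fun i j => Finset.mem_union_left _ (Finset.mem_image_of_mem _ (Finset.mem_univ (i, j))))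
    (fun i j => Finset.mem_union_right _ (Finset.mem_image_of_mem _ (Finset.mem_univ (i, j))))
    (by nlinarith [mul_nonneg b5 hM]) (by nlinarith [sq_nonneg (q n : ℝ)])
    (by nlinarith [sq_nonneg (p n : ℝ)]) (S := Set.range κ) (α := κ.comp α0) (β := κ.comp β0)
    (fun _ => ⟨_, rfl⟩) (fun _ => ⟨_, rfl⟩) ug uR (Set.forall_mem_range.2 kg)
    (Set.forall_mem_range.2 kR) gR (Set.forall_mem_range.2 k0) (Set.forall_mem_range.2 k1) g0 R1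
  obtain ⟨U, hU, H⟩ := exists_of_path k0 k1 hΓ hκ w1 w2 w3 w4
  refine ⟨U, hU, fun f hf => H (α0 (μ2 (μ1 (μ0 f)))) (β0 (μ2 (μ1 (μ0 f)))) ε hε.le fun t =>
    (w5 f hf t).mono ?_⟩
  have b6 : ‖(κ.comp α0) (μ2 (μ1 (μ0 f)))‖ ≤ M := (NonUnitalStarAlgHom.norm_apply_le
    ((κ.comp α0).comp (μ2.comp (μ1.comp μ0))) f).trans (hM' f hf)
  nlinarith [mul_le_mul_of_nonneg_left b6 b5]

end Vale.Agent.P101
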