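import Mathlib

/-! The spatial tensor product. -/

open scoped TensorProduct

namespace Vale.Agent.P101

/-- `ι` presents `B` as the minimal (spatial) tensor product of `A` and `Z`: dense range, and the
norm is the operator norm on `H ⊗ K` for faithful representations on Hilbert spaces `H`, `K`. -/
def IsMinTensor {A Z B : Type} [CStarAlgebra A] [CStarAlgebra Z] [CStarAlgebra B]
    (ι : A ⊗[ℂ] Z →⋆ₐ[ℂ] B) : Prop :=
  DenseRange ι ∧ ∃ (H K : Type) (_ : NormedAddCommGroup H) (_ : InnerProductSpace ℂ H)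
    (_ : CompleteSpace H) (_ : NormedAddCommGroup K) (_ : InnerProductSpace ℂ K)
    (_ : CompleteSpace K) (ρ : A →⋆ₐ[ℂ] (H →L[ℂ] H)) (σ : Z →⋆ₐ[ℂ] (K →L[ℂ] K)),
    Function.Injective ρ ∧ Function.Injective σ ∧ ∀ (n : ℕ) (a : Fin n → A) (z : Fin n → Z),
      ‖ι (∑ i, a i ⊗ₜ z i)‖ = ‖∑ i, TensorProduct.mapL (ρ (a i)) (σ (z i))‖

end Vale.Agent.P101
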