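import Vale.Agent.P101.Basic

/-! Auxiliary homomorphisms and the algebra of the half flip. -/

open scoped Kronecker Matrix

namespace Vale.Agent.P101

section Homs

variable {A A' : Type} [Ring A] [StarRing A] [Algebra ℂ A] [Ring A'] [StarRing A'] [Algebra ℂ A']
  {ι κ : Type} [Fintype ι] [DecidableEq ι] [Fintype κ] [DecidableEq κ]

theorem osc_path {E : Type} [CStarAlgebra E] (π : unitInterval → A →⋆ₐ[ℂ] E)
    (hc : ∀ a, Continuous fun t => π t a) :
    ∃ j : A →⋆ₐ[ℂ] C(unitInterval, E), ∀ a t, j a t = π t a :=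
  ⟨{ toFun := fun a => ⟨fun t => π t a, hc a⟩
     map_one' := by ext t; simp
     map_mul' := fun x y => by ext t; simp
     map_zero' := by ext t; simp
     map_add' := fun x y => by ext t; simp
     commutes' := fun c => by ext t; exact (π t).commutes c
     map_star' := fun x => by ext t; simp [map_star] }, fun _ _ => rfl⟩

/-- a homomorphism applied to the entries -/
def oscMap (ι : Type) [Fintype ι] [DecidableEq ι] (f : A →⋆ₐ[ℂ] A') :
    Matrix ι ι A →⋆ₐ[ℂ] Matrix ι ι A' :=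
  { (f : A →ₐ[ℂ] A').mapMatrix with
    map_star' := fun X => by ext i j; exact map_star f (X j i) }

theorem oscMap_apply (f : A →⋆ₐ[ℂ] A') (X : Matrix ι ι A) (i j : ι) :
    oscMap ι f X i j = f (X i j) := rfl

/-- constant diagonal matrices -/
def oscDiag (ι : Type) [Fintype ι] [DecidableEq ι] : A →⋆ₐ[ℂ] Matrix ι ι A where
  toFun a := Matrix.diagonal fun _ => a
  map_one' := Matrix.diagonal_one
  map_mul' _ _ := (Matrix.diagonal_mul_diagonal _ _).symm
  map_zero' := Matrix.diagonal_zero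
  map_add' _ _ := (Matrix.diagonal_add _ _).symm
  commutes' _ := rfl
  map_star' _ := (Matrix.diagonal_conjTranspose _).symm

theorem oscDiag_apply (a : A) : oscDiag ι a = Matrix.diagonal fun _ => a := rfl

/-- exchanging the two legs -/
def oscSwap (ι κ : Type) [Fintype ι] [DecidableEq ι] [Fintype κ] [DecidableEq κ] :
    Matrix (ι × κ) (ι × κ) ℂ →⋆ₐ[ℂ] Matrix (κ × ι) (κ × ι) ℂ :=
  { (Matrix.reindexAlgEquiv ℂ ℂ (Equiv.prodComm ι κ) :
      Matrix (ι × κ) (ι × κ) ℂ →ₐ[ℂ] Matrix (κ × ι) (κ × ι) ℂ) with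
    map_star' := fun _ => rfl }

theorem oscSwap_apply (X : Matrix (ι × κ) (ι × κ) ℂ) (i j : κ × ι) :
    oscSwap ι κ X i j = X i.swap j.swap := rfl

theorem oscSwap_swap (X : Matrix (ι × κ) (ι × κ) ℂ) : oscSwap κ ι (oscSwap ι κ X) = X := rfl

theorem oscSwap_kron (x : Matrix ι ι ℂ) (y : Matrix κ κ ℂ) :
    oscSwap ι κ (x ⊗ₖ y) = y ⊗ₖ x := by
  ext i j
  exact mul_comm _ _

theorem continuous_oscSwap : Continuous (oscSwap ι κ) :=
  continuous_matrix fun i j => continuous_apply_apply i.swap j.swap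

theorem norm_oscSwap (X : Matrix (ι × κ) (ι × κ) ℂ) : ‖toMC (oscSwap ι κ X)‖ = ‖toMC X‖ :=
  norm_map_eq_toMC (toMCh.comp (oscSwap ι κ))
    (toMC.injective.comp (Function.LeftInverse.injective oscSwap_swap)) X

theorem osc_block {k : ℕ} (u : Matrix (ι × Fin k) κ ℂ) (h2 : u * uᴴ = 1)
    (x : Fin k → Matrix ι ι ℂ) {ε : ℝ} (hε : 0 ≤ ε) (hx : ∀ i, ‖toMC (x i)‖ ≤ ε) :
    ‖toMC (uᴴ * Matrix.blockDiagonal x * u)‖ ≤ ε := by
  let Ψ : (Fin k → MC ι ℂ) →⋆ₙₐ[ℂ] MC κ ℂ :=
    { toFun := fun y => toMC (uᴴ * Matrix.blockDiagonal (fun i => toMC.symm (y i)) * u)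
      map_smul' := fun c y => by
        have : (fun i => toMC.symm ((c • y) i)) = c • fun i => toMC.symm (y i) := by
          funext i
          simp
        rw [this, Matrix.blockDiagonal_smul, Matrix.mul_smul, Matrix.smul_mul, map_smul]
        rfl
      map_zero' := by
        have : (fun i => toMC.symm ((0 : Fin k → MC ι ℂ) i)) = 0 := by
          funext i
          simp
        rw [this, Matrix.blockDiagonal_zero, Matrix.mul_zero, Matrix.zero_mul, map_zero]
      map_add' := fun y z => by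
        have : (fun i => toMC.symm ((y + z) i)) =
            (fun i => toMC.symm (y i)) + fun i => toMC.symm (z i) := by
          funext i
          simp
        rw [this, Matrix.blockDiagonal_add, Matrix.mul_add, Matrix.add_mul, map_add]
      map_mul' := fun y z => by
        simp only [Pi.mul_apply, map_mul, Matrix.blockDiagonal_mul]
        rw [← map_mul]
        congr 1
        simp only [Matrix.mul_assoc]
        rw [← Matrix.mul_assoc u, h2, Matrix.one_mul]
      map_star' := fun y => by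
        simp only [Pi.star_apply, map_star]
        rw [← map_star]
        simp [Matrix.star_eq_conjTranspose, Matrix.blockDiagonal_conjTranspose,
          Matrix.mul_assoc] }
  have h3 := NonUnitalStarAlgHom.norm_apply_le Ψ fun i => toMC (x i)
  refine le_trans (le_of_eq ?_) (h3.trans ((pi_norm_le_iff_of_nonneg hε).2 hx))
  change _ = ‖toMC (uᴴ * Matrix.blockDiagonal (fun i => toMC.symm (toMC (x i))) * u)‖
  simp

theorem osc_est {E : Type} [CStarAlgebra E] (Θ : A →⋆ₐ[ℂ] E) {F G u₀ u₁ u m₀ m₁ m : A} {ε : ℝ}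
    (hF : F ∈ unitary A) (hG : G ∈ unitary A) (h₀ : u₀ ∈ unitary A) (h₁ : u₁ ∈ unitary A)
    (hc : G * m₁ = m₁ * G) (e₁ : ‖Θ (u * m * star u - u₁ * m₁ * star u₁)‖ ≤ ε)
    (e₀ : ‖Θ (u₁ * m₁ * star u₁ - u₀ * m₀ * star u₀)‖ ≤ ε) :
    ‖Θ (F * (star u₀ * u₁) * G * (star u₁ * u) * m * star (F * (star u₀ * u₁) * G * (star u₁ * u))
      - F * m₀ * star F)‖ ≤ 2 * ε := by
  have hn : ∀ U ∈ unitary A, ∀ x, ‖Θ (U * x * star U)‖ = ‖Θ x‖ := fun U hU x => by
    rw [map_mul, map_mul, CStarRing.norm_mul_mem_unitary _ (Unitary.map_mem Θ (Unitary.star_mem hU)),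
      CStarRing.norm_mem_unitary_mul _ (Unitary.map_mem Θ hU)]
  have hV : F * star u₀ ∈ unitary A := mul_mem hF (Unitary.star_mem h₀)
  have hU : F * star u₀ * u₁ * G * star u₁ ∈ unitary A :=
    mul_mem (mul_mem (mul_mem hV h₁) hG) (Unitary.star_mem h₁)
  have c : ∀ {v : A}, v ∈ unitary A → ∀ x, star v * (v * x) = x := fun hv x => by
    rw [← mul_assoc, Unitary.star_mul_self_of_mem hv, one_mul]
  have c' : ∀ x, G * (m₁ * (star G * x)) = m₁ * x := fun x => by
    rw [← mul_assoc, hc, mul_assoc, ← mul_assoc G, Unitary.mul_star_self_of_mem hG, one_mul]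
  have key : F * (star u₀ * u₁) * G * (star u₁ * u) * m *
      star (F * (star u₀ * u₁) * G * (star u₁ * u)) - F * m₀ * star F =
      F * star u₀ * u₁ * G * star u₁ * (u * m * star u - u₁ * m₁ * star u₁) *
        star (F * star u₀ * u₁ * G * star u₁) +
      F * star u₀ * (u₁ * m₁ * star u₁ - u₀ * m₀ * star u₀) * star (F * star u₀) := by
    simp only [mul_sub, sub_mul, star_mul, star_star, mul_assoc, c h₀, c h₁, c']
    abel
  rw [key, map_add]
  refine (norm_add_le _ _).trans ?_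
  rw [hn _ hU, hn _ hV]
  linarith

theorem osc_rot {F : A} (h1 : star F = F) (h2 : F * F = 1) [StarModule ℂ A] :
    ∃ a b : unitInterval → ℂ, Continuous a ∧ Continuous b ∧ a 0 = 1 ∧ b 0 = 0 ∧ a 1 = 0 ∧
      b 1 = 1 ∧ ∀ t, a t • (1 : A) + b t • F ∈ unitary A := by
  obtain ⟨z, hz, z0, z1, zz⟩ : ∃ z : unitInterval → ℂ, Continuous z ∧ z 0 = 1 ∧ z 1 = -1 ∧
      ∀ t, star (z t) * z t = 1 := by
    refine ⟨fun t => Complex.exp ((Real.pi * t : ℝ) * Complex.I), by fun_prop, by simp, by simp,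
      fun t => ?_⟩
    rw [RCLike.star_def, Complex.conj_mul', Complex.norm_exp_ofReal_mul_I]
    simp
  refine ⟨fun t => (1 + z t) / 2, fun t => (1 - z t) / 2, by fun_prop, by fun_prop,
    by simp [z0], by simp [z0], by simp [z1], by simp [z1], fun t => ?_⟩
  have h3 := zz t
  rw [Unitary.mem_iff]
  simp only [star_add, star_smul, star_one, h1, star_div₀, star_sub, star_ofNat, mul_add, add_mul,
    smul_mul_smul_comm, one_mul, mul_one, h2]
  generalize star (z t) = w at h3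
  constructor
  · match_scalars
    · linear_combination (1 / 2) * h3
    · linear_combination (-1 / 2) * h3
  · match_scalars
    · linear_combination (1 / 2) * h3
    · linear_combination (-1 / 2) * h3

/-- the flip of the outer index with the first leg -/
def oscFlip (ι κ : Type) [DecidableEq ι] [DecidableEq κ] :
    Matrix ι ι (Matrix (ι × κ) (ι × κ) ℂ) :=
  fun i j => Matrix.single j i (1 : ℂ) ⊗ₖ (1 : Matrix κ κ ℂ)

theorem oscFlip_star : star (oscFlip ι κ) = oscFlip ι κ := by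
  ext i j : 2
  rw [Matrix.star_apply, oscFlip, oscFlip, Matrix.star_eq_conjTranspose,
    Matrix.conjTranspose_kronecker, Matrix.conjTranspose_single, Matrix.conjTranspose_one, star_one]

theorem oscFlip_conj (z : Matrix (ι × κ) (ι × κ) ℂ) (i j : ι) :
    (oscFlip ι κ * oscDiag ι z * oscFlip ι κ) i j =
      (1 : Matrix ι ι ℂ) ⊗ₖ Matrix.of fun y y' => z (i, y) (j, y') := by
  simp only [oscDiag_apply, Matrix.mul_apply (M := oscFlip ι κ * _), Matrix.mul_diagonal]
  ext ⟨x, y⟩ ⟨x', y'⟩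
  simp [oscFlip, Matrix.sum_apply, Matrix.mul_apply, Fintype.sum_prod_type, Matrix.single_apply,
    Matrix.one_apply, ite_and, eq_comm (a := x')]

theorem oscFlip_left (x : Matrix ι ι ℂ) :
    oscFlip ι κ * oscDiag ι (x ⊗ₖ (1 : Matrix κ κ ℂ)) * oscFlip ι κ =
      x.map (algebraMap ℂ (Matrix (ι × κ) (ι × κ) ℂ)) := by
  ext i j : 2
  rw [oscFlip_conj, Matrix.map_apply, Algebra.algebraMap_eq_smul_one, ← Matrix.one_kronecker_one,
    ← Matrix.kronecker_smul]
  rfl

theorem oscFlip_sq : oscFlip ι κ * oscFlip ι κ = 1 := by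
  have := oscFlip_left (κ := κ) (1 : Matrix ι ι ℂ)
  rwa [Matrix.one_kronecker_one, map_one, mul_one, Matrix.map_one _ (map_zero _) (map_one _)]
    at this

theorem oscFlip_right (y : Matrix κ κ ℂ) :
    oscFlip ι κ * oscDiag ι ((1 : Matrix ι ι ℂ) ⊗ₖ y) =
      oscDiag ι ((1 : Matrix ι ι ℂ) ⊗ₖ y) * oscFlip ι κ := by
  ext i j : 2
  simp [oscDiag_apply, oscFlip, ← Matrix.mul_kronecker_mul]

theorem osc_left_hom [Nonempty κ] (ψ : A →⋆ₐ[ℂ] Matrix (ι × κ) (ι × κ) ℂ)
    (h : ∀ a, ∃ x : Matrix ι ι ℂ, ψ a = x ⊗ₖ (1 : Matrix κ κ ℂ)) :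
    ∃ φ : A →⋆ₐ[ℂ] Matrix ι ι ℂ, ∀ a, ψ a = φ a ⊗ₖ (1 : Matrix κ κ ℂ) := by
  choose c hc using h
  obtain ⟨k⟩ := ‹Nonempty κ›
  have inj : ∀ {x y : Matrix ι ι ℂ}, x ⊗ₖ (1 : Matrix κ κ ℂ) = y ⊗ₖ (1 : Matrix κ κ ℂ) → x = y :=
    fun h => by
      ext i j
      simpa using congrFun (congrFun h (i, k)) (j, k)
  refine ⟨⟨⟨⟨⟨⟨c, inj ?_⟩, fun x y => inj ?_⟩, inj ?_, fun x y => inj ?_⟩, fun r => inj ?_⟩,
    fun x => inj ?_⟩, hc⟩
  · rw [← hc, map_one, Matrix.one_kronecker_one]
  · dsimp only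
    rw [← hc, map_mul, hc, hc, ← Matrix.mul_kronecker_mul, mul_one]
  · dsimp only
    rw [← hc, map_zero, Matrix.zero_kronecker]
  · dsimp only
    rw [← hc, map_add, hc, hc, Matrix.add_kronecker]
  · dsimp only
    rw [← hc, AlgHomClass.commutes, Algebra.algebraMap_eq_smul_one, Algebra.algebraMap_eq_smul_one,
      Matrix.smul_kronecker, Matrix.one_kronecker_one]
  · dsimp only
    rw [← hc, map_star, hc, Matrix.star_eq_conjTranspose, Matrix.conjTranspose_kronecker,
      Matrix.conjTranspose_one, Matrix.star_eq_conjTranspose]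

end Homs

end Vale.Agent.P101
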