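import Vale.Agent.P101.Basic

/-! Quotient of a C*-algebra by the kernel of a C*-seminorm with the lifting property. -/

open Filter Topology

namespace Vale.Agent.P101

/-- a C*-seminorm -/
structure CSemi (R : Type) [CStarAlgebra R] where
  N : R → ℝ
  add : ∀ x y, N (x + y) ≤ N x + N y
  smul : ∀ (c : ℂ) x, N (c • x) = ‖c‖ * N x
  mul : ∀ x y, N (x * y) ≤ N x * N y
  sta : ∀ x, N (star x) = N x
  cstar : ∀ x, N x * N x ≤ N (star x * x)

namespace CSemi

variable {R : Type} [CStarAlgebra R] (s : CSemi R)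

theorem zero : s.N 0 = 0 := by simpa using s.smul 0 0

theorem neg (x : R) : s.N (-x) = s.N x := by simpa using s.smul (-1) x

theorem nonneg (x : R) : 0 ≤ s.N x := by
  have := s.add x (-x)
  rw [add_neg_cancel, s.zero, s.neg] at this
  linarith

theorem eq_of {x y : R} (h : s.N (x - y) = 0) : s.N x = s.N y := by
  have h1 := s.add (x - y) y
  have h2 := s.add (-(x - y)) x
  rw [s.neg] at h2
  rw [sub_add_cancel] at h1
  rw [show -(x - y) + x = y by abel] at h2
  linarith

def con : RingCon R where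
  r x y := s.N (x - y) = 0
  iseqv := ⟨fun x => by simp [s.zero], fun {x y} h => by rw [← s.neg, neg_sub]; exact h,
    fun {x y z} h1 h2 => by
      have := s.add (x - y) (y - z)
      rw [sub_add_sub_cancel] at this
      exact le_antisymm (by linarith) (s.nonneg _)⟩
  add' {w x y z} h1 h2 := by
    have h1' : s.N (w - x) = 0 := h1
    have h2' : s.N (y - z) = 0 := h2
    have := s.add (w - x) (y - z)
    rw [show w - x + (y - z) = w + y - (x + z) by abel] at this
    exact le_antisymm (by linarith) (s.nonneg _)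
  mul' {w x y z} h1 h2 := by
    have h1' : s.N (w - x) = 0 := h1
    have h2' : s.N (y - z) = 0 := h2
    have := s.add ((w - x) * y) (x * (y - z))
    rw [show (w - x) * y + x * (y - z) = w * y - x * z by noncomm_ring] at this
    have a := s.mul (w - x) y
    have b := s.mul x (y - z)
    rw [h1', zero_mul] at a
    rw [h2', mul_zero] at b
    exact le_antisymm (by linarith) (s.nonneg _)

def Q : Type := s.con.Quotient

noncomputable instance : Ring s.Q := inferInstanceAs (Ring s.con.Quotient)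
noncomputable instance : Algebra ℂ s.Q := inferInstanceAs (Algebra ℂ s.con.Quotient)

noncomputable def pr : R →ₐ[ℂ] s.Q := s.con.mkₐ ℂ

theorem mk_surj : Function.Surjective s.pr := fun q => Quotient.inductionOn' q fun x => ⟨x, rfl⟩

theorem mk_eq {x y : R} : s.pr x = s.pr y ↔ s.N (x - y) = 0 := s.con.eq

instance : Star s.Q := ⟨Quotient.map' star (fun x y h => by
  have h' : s.N (x - y) = 0 := h
  show s.N (star x - star y) = 0
  rw [← star_sub, s.sta]; exact h')⟩

theorem star_mk (x : R) : star (s.pr x) = s.pr (star x) := rfl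

noncomputable instance : StarRing s.Q where
  star_involutive q := by
    obtain ⟨x, rfl⟩ := s.mk_surj q
    rw [star_mk, star_mk, star_star]
  star_mul p q := by
    obtain ⟨x, rfl⟩ := s.mk_surj p
    obtain ⟨y, rfl⟩ := s.mk_surj q
    rw [← map_mul, star_mk, star_mk, star_mk, star_mul, map_mul]
  star_add p q := by
    obtain ⟨x, rfl⟩ := s.mk_surj p
    obtain ⟨y, rfl⟩ := s.mk_surj q
    rw [← map_add, star_mk, star_mk, star_mk, star_add, map_add]

instance : StarModule ℂ s.Q where
  star_smul c q := by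
    obtain ⟨x, rfl⟩ := s.mk_surj q
    rw [← map_smul, star_mk, star_mk, star_smul, map_smul]

def nrm (q : s.Q) : ℝ := Quotient.liftOn' q s.N fun _ _ h => s.eq_of h

theorem nrm_mk (x : R) : s.nrm (s.pr x) = s.N x := rfl

noncomputable def gn : AddGroupNorm s.Q where
  toFun := s.nrm
  map_zero' := by rw [← map_zero s.pr, nrm_mk, s.zero]
  add_le' p q := by
    obtain ⟨x, rfl⟩ := s.mk_surj p
    obtain ⟨y, rfl⟩ := s.mk_surj q
    rw [← map_add]; exact s.add x y
  neg' q := by
    obtain ⟨x, rfl⟩ := s.mk_surj q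
    rw [← map_neg]; exact s.neg x
  eq_zero_of_map_eq_zero' q h := by
    obtain ⟨x, rfl⟩ := s.mk_surj q
    rw [← map_zero s.pr, mk_eq, sub_zero]; exact h

noncomputable instance : NormedAddCommGroup s.Q := s.gn.toNormedAddCommGroup

theorem norm_mk (x : R) : ‖s.pr x‖ = s.N x := rfl

noncomputable instance : NormedRing s.Q :=
  { (inferInstance : Ring s.Q), (inferInstance : NormedAddCommGroup s.Q) with
    norm_mul_le := fun p q => by
      obtain ⟨x, rfl⟩ := s.mk_surj p
      obtain ⟨y, rfl⟩ := s.mk_surj q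
      rw [← map_mul]; exact s.mul x y }

noncomputable instance : NormedAlgebra ℂ s.Q where
  norm_smul_le c q := by
    obtain ⟨x, rfl⟩ := s.mk_surj q
    rw [← map_smul]; exact (s.smul c x).le

instance : CStarRing s.Q where
  norm_mul_self_le q := by
    obtain ⟨x, rfl⟩ := s.mk_surj q
    rw [star_mk, ← map_mul]; exact s.cstar x

theorem complete (N_le : ∀ x, s.N x ≤ ‖x‖)
    (N_lift : ∀ x, ∀ ε > 0, ∃ y, s.N (x - y) = 0 ∧ ‖y‖ ≤ s.N x + ε) : CompleteSpace s.Q := by
  apply NormedAddCommGroup.completeSpace_of_summable_imp_tendsto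
  intro u hu
  have : ∀ n, ∃ y : R, s.pr y = u n ∧ ‖y‖ ≤ ‖u n‖ + (1 / 2) ^ n := fun n => by
    obtain ⟨x, hx⟩ := s.mk_surj (u n)
    obtain ⟨y, h1, h2⟩ := N_lift x ((1 / 2) ^ n) (by positivity)
    exact ⟨y, (s.mk_eq.2 h1).symm.trans hx, by rw [← hx]; exact h2⟩
  choose y hy hn using this
  have hs : Summable y :=
    Summable.of_norm_bounded (hu.add summable_geometric_two) hn
  have hc : Continuous s.pr := AddMonoidHomClass.continuous_of_bound s.pr 1 fun x => by
    rw [one_mul]; exact N_le x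
  refine ⟨s.pr (∑' n, y n), ?_⟩
  have := (hc.tendsto _).comp hs.hasSum.tendsto_sum_nat
  refine this.congr fun n => ?_
  simp only [Function.comp, map_sum, hy]

end CSemi

theorem exists_quot {R : Type} [CStarAlgebra R] (N : R → ℝ)
    (N_add : ∀ x y, N (x + y) ≤ N x + N y)
    (N_smul : ∀ (c : ℂ) x, N (c • x) = ‖c‖ * N x)
    (N_mul : ∀ x y, N (x * y) ≤ N x * N y)
    (N_star : ∀ x, N (star x) = N x)
    (N_cstar : ∀ x, N x * N x ≤ N (star x * x))
    (N_le : ∀ x, N x ≤ ‖x‖)
    (N_lift : ∀ x, ∀ ε > 0, ∃ y, N (x - y) = 0 ∧ ‖y‖ ≤ N x + ε) :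
    ∃ (U : Type) (_ : CStarAlgebra U) (π : R →⋆ₐ[ℂ] U),
      Function.Surjective π ∧ ∀ x, ‖π x‖ = N x := by
  let s : CSemi R := ⟨N, N_add, N_smul, N_mul, N_star, N_cstar⟩
  have : CompleteSpace s.Q := s.complete N_le N_lift
  exact ⟨s.Q, {}, { s.pr with map_star' := fun x => (s.star_mk x).symm }, s.mk_surj,
    fun x => s.norm_mk x⟩

end Vale.Agent.P101
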